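import Vale.Agent.P047.Low

/-! Disjoint correction sets: each is congruent to a prescribed multiple of a point mass. -/

namespace Vale.Agent.P047

open Finset

variable {ι Ω : Type*} [DecidableEq ι]

/-- Signed count of the patterns above `T`. -/
def patSum (f : Finset (Finset ι)) (T : Finset ι) : ℤ :=
  ∑ U ∈ f, if T ⊆ U then (-1) ^ U.card else 0

/-- Alternating sum over an interval of subsets. -/
theorem alt_sum {A W : Finset ι} (hA : A ⊆ W) :
    (∑ X ∈ W.powerset, if A ⊆ X then (-1 : ℤ) ^ X.card else 0)
      = if A = W then (-1) ^ W.card else 0 := by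
  have hbij : ∑ X ∈ W.powerset.filter (A ⊆ ·), (-1 : ℤ) ^ X.card
      = ∑ Y ∈ (W \ A).powerset, (-1 : ℤ) ^ A.card * (-1) ^ Y.card := by
    refine Finset.sum_nbij' (fun X => X \ A) (fun Y => A ∪ Y) ?_ ?_ ?_ ?_ ?_
    · intro X hX
      simp only [mem_filter, mem_powerset] at hX ⊢
      exact sdiff_subset_sdiff hX.1 le_rfl
    · intro Y hY
      simp only [mem_powerset, mem_filter] at hY ⊢
      exact ⟨union_subset hA (hY.trans sdiff_subset), subset_union_left⟩
    · intro X hX
      simp only [mem_filter, mem_powerset] at hX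
      exact union_sdiff_of_subset hX.2
    · intro Y hY
      simp only [mem_powerset] at hY
      exact union_sdiff_cancel_left (disjoint_of_subset_right hY disjoint_sdiff)
    · intro X hX
      simp only [mem_filter, mem_powerset] at hX
      rw [← pow_add, add_comm, card_sdiff_add_card_eq_card hX.2]
  rw [← Finset.sum_filter, hbij, ← Finset.mul_sum, Finset.sum_powerset_neg_one_pow_card]
  by_cases h : A = W
  · subst h; simp
  · rw [if_neg, if_neg h, mul_zero]
    intro h'
    exact h (hA.antisymm (sdiff_eq_empty_iff_subset.1 h'))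

/-- The block of patterns `z ∪ X`, `X ⊆ W`. -/
def block (W z : Finset ι) : Finset (Finset ι) := W.powerset.image (z ∪ ·)

theorem mem_block {W z U : Finset ι} (hd : Disjoint z W) (hU : U ∈ block W z) :
    U \ W = z ∧ U ⊆ z ∪ W ∧ U.card ≤ z.card + W.card := by
  obtain ⟨X, hX, rfl⟩ := mem_image.1 hU
  rw [mem_powerset] at hX
  refine ⟨?_, union_subset_union le_rfl hX, (card_union_le _ _).trans ?_⟩
  · rw [union_sdiff_distrib, sdiff_eq_self_of_disjoint hd, sdiff_eq_empty_iff_subset.2 hX,
      union_empty]
  · exact Nat.add_le_add_left (card_le_card hX) _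

theorem patSum_block {W z : Finset ι} (hd : Disjoint z W) (T : Finset ι) :
    patSum (block W z) T = if W ⊆ T ∧ T \ W ⊆ z then (-1) ^ (z.card + W.card) else 0 := by
  have hinj : Set.InjOn (z ∪ ·) (W.powerset : Set (Finset ι)) := by
    intro X hX Y hY h
    simp only [coe_powerset, Set.mem_preimage, Set.mem_powerset_iff, coe_subset] at hX hY
    have := congrArg (· \ z) h
    simp only [union_sdiff_left] at this
    rwa [sdiff_eq_self_of_disjoint (disjoint_of_subset_left hX hd.symm),
      sdiff_eq_self_of_disjoint (disjoint_of_subset_left hY hd.symm)] at this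
  rw [patSum, block, Finset.sum_image hinj]
  have hterm : ∀ X ∈ W.powerset, (if T ⊆ z ∪ X then (-1 : ℤ) ^ (z ∪ X).card else 0)
      = (if T \ W ⊆ z then (-1 : ℤ) ^ z.card else 0)
          * if T ∩ W ⊆ X then (-1 : ℤ) ^ X.card else 0 := by
    intro X hX
    rw [mem_powerset] at hX
    have hiff : T ⊆ z ∪ X ↔ T \ W ⊆ z ∧ T ∩ W ⊆ X := by
      constructor
      · intro h
        constructor <;> intro a ha
        · obtain ⟨h1, h2⟩ := mem_sdiff.1 ha
          rcases mem_union.1 (h h1) with h3 | h3
          · exact h3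
          · exact absurd (hX h3) h2
        · obtain ⟨h1, h2⟩ := mem_inter.1 ha
          rcases mem_union.1 (h h1) with h3 | h3
          · exact absurd h2 (disjoint_left.1 hd h3)
          · exact h3
      · rintro ⟨h1, h2⟩ a ha
        by_cases haW : a ∈ W
        · exact mem_union_right _ (h2 (mem_inter.2 ⟨ha, haW⟩))
        · exact mem_union_left _ (h1 (mem_sdiff.2 ⟨ha, haW⟩))
    rw [card_union_of_disjoint (disjoint_of_subset_right hX hd)]
    by_cases h1 : T \ W ⊆ z <;> by_cases h2 : T ∩ W ⊆ X <;> simp [hiff, h1, h2, pow_add]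
  rw [Finset.sum_congr rfl hterm, ← Finset.mul_sum, alt_sum inter_subset_right]
  have hW : T ∩ W = W ↔ W ⊆ T := inter_eq_right
  by_cases h1 : T \ W ⊆ z <;> by_cases h2 : W ⊆ T <;> simp [hW, h1, h2, pow_add]

theorem patSum_union {f g : Finset (Finset ι)} (h : Disjoint f g) (T : Finset ι) :
    patSum (f ∪ g) T = patSum f T + patSum g T := Finset.sum_union h

theorem four_pow_le_choose {m l : ℕ} (h : 5 * l ≤ m) : 4 ^ l ≤ m.choose l := by
  rcases Nat.eq_zero_or_pos l with rfl | hl
  · simp
  have h1 : (4 * l) ^ l ≤ m.descFactorial l :=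
    (Nat.pow_le_pow_left (by omega) l).trans (Nat.pow_sub_le_descFactorial m l)
  rw [Nat.descFactorial_eq_factorial_mul_choose, mul_pow] at h1
  have h2 := Nat.mul_le_mul_right (m.choose l) (Nat.factorial_le_pow l)
  refine Nat.le_of_mul_le_mul_right (h1.trans (h2.trans (le_of_eq (mul_comm _ _)))) ?_
  exact Nat.pow_pos hl

/-- Greedy choice of disjoint blocks avoiding a forbidden set. -/
theorem add_blocks {β : Type*} [DecidableEq β] (C : Finset ι) (w i : ℕ)
    (hk : 5 * (w + 1) + i ≤ C.card) (W : β → Finset ι)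
    (l : β → ℕ) (hl : ∀ r, w ≤ l r ∧ l r ≤ w + 1) (Fb : Finset (Finset ι)) (R : Finset β)
    (hW : ∀ r ∈ R, W r ⊆ C ∧ (W r).card = i)
    (hsize : Fb.card + R.card * 2 ^ i < 4 ^ w) :
    ∃ (g : Finset (Finset ι)) (z : β → Finset ι), Disjoint g Fb ∧
      (∀ U ∈ g, U ⊆ C ∧ U.card ≤ w + 1 + i) ∧ g.card ≤ R.card * 2 ^ i ∧
      ∀ T, patSum g T = ∑ r ∈ R,
        if W r ⊆ T ∧ T \ W r ⊆ z r then (-1 : ℤ) ^ (l r + i) else 0 := by
  induction R using Finset.induction_on with
  | empty => exact ⟨∅, fun _ => ∅, by simp, by simp, by simp, fun T => by simp [patSum]⟩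
  | @insert a R ha ih =>
    rw [card_insert_of_notMem ha, add_mul, one_mul] at hsize
    generalize hP : 2 ^ i = P at hsize ih ⊢
    obtain ⟨g, z, hgF, hgC, hgc, hgS⟩ := ih (fun r hr => hW r (mem_insert_of_mem hr)) (by omega)
    obtain ⟨hWC, hWi⟩ := hW a (mem_insert_self a R)
    have hcard : ((Fb ∪ g).image (· \ W a)).card < ((C \ W a).powersetCard (l a)).card := by
      rw [card_powersetCard, card_sdiff_of_subset hWC, hWi]
      have h1 : 4 ^ w ≤ 4 ^ l a := Nat.pow_le_pow_right (by norm_num) (hl a).1
      have h2 := four_pow_le_choose (m := C.card - i) (l := l a) (by have := (hl a).2; omega)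
      have h3 := card_image_le (s := Fb ∪ g) (f := (· \ W a))
      have h4 := card_union_le Fb g
      omega
    obtain ⟨za, hza, hzn⟩ := exists_mem_notMem_of_card_lt_card hcard
    obtain ⟨hzC, hzl⟩ := mem_powersetCard.1 hza
    have hd : Disjoint za (W a) := disjoint_of_subset_left hzC disjoint_sdiff.symm
    have hfree : ∀ U ∈ block (W a) za, U ∉ Fb ∪ g := fun U hU hU' =>
      hzn (mem_image.2 ⟨U, hU', (mem_block hd hU).1⟩)
    refine ⟨g ∪ block (W a) za, Function.update z a za, ?_, ?_, ?_, fun T => ?_⟩
    · exact disjoint_union_left.2 ⟨hgF, disjoint_left.2 fun U hU hU' =>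
        hfree U hU (mem_union_left _ hU')⟩
    · intro U hU
      rcases mem_union.1 hU with hU | hU
      · exact hgC U hU
      · obtain ⟨-, h2, h3⟩ := mem_block hd hU
        refine ⟨h2.trans (union_subset (hzC.trans sdiff_subset) hWC), h3.trans ?_⟩
        rw [hzl, hWi]
        have := (hl a).2
        omega
    · refine (card_union_le _ _).trans ?_
      rw [card_insert_of_notMem ha, add_mul, one_mul]
      refine add_le_add hgc ((card_image_le).trans ?_)
      rw [card_powerset, hWi, hP]
    · rw [patSum_union (disjoint_left.2 fun U hU hU' => hfree U hU' (mem_union_right _ hU)) T,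
        patSum_block hd, hgS, sum_insert ha, Function.update_self, hzl, hWi, add_comm]
      congr 1
      exact sum_congr rfl fun r hr => by rw [Function.update_of_ne (ne_of_mem_of_not_mem hr ha)]

/-- The error of a pattern family against the target multiple of a point mass. -/
def perr (amt : ℤ) (f : Finset (Finset ι)) (T : Finset ι) : ℤ :=
  patSum f T - if T = ∅ then amt else 0

theorem choose_mul_le (i t : ℕ) (h : i ≤ t) :
    t.choose i * (i + 1) ^ (2 * i) ≤ (t + 1) ^ (2 * t) := by
  calc t.choose i * (i + 1) ^ (2 * i) ≤ (t + 1) ^ (t - i) * (t + 1) ^ (2 * i) := by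
        refine Nat.mul_le_mul ?_ (Nat.pow_le_pow_left (by omega) _)
        rw [← Nat.choose_symm h]
        exact (Nat.choose_le_pow t (t - i)).trans (Nat.pow_le_pow_left (by omega) _)
    _ ≤ (t + 1) ^ (2 * t) := by
        rw [← pow_add]
        exact Nat.pow_le_pow_right (by omega) (by omega)

/-- A pattern family cancelling every order below `s`, avoiding a forbidden set. -/
theorem pattern_family (C : Finset ι) (s w mB : ℕ) (amt : ℤ) (hamt : amt.natAbs ≤ mB)
    (hk : 5 * (w + 1) + s ≤ C.card) (Fb : Finset (Finset ι))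
    (hsize : Fb.card + (mB + 1) * (s + 1) * (C.card + 1) ^ s * 4 ^ s * (s + 1) ^ (2 * s) < 4 ^ w) :
    ∃ f : Finset (Finset ι), Disjoint f Fb ∧ (∀ U ∈ f, U ⊆ C ∧ U.card ≤ w + s + 1) ∧
      f.card ≤ (mB + 1) * (s + 1) * (C.card + 1) ^ s * 4 ^ s * (s + 1) ^ (2 * s) ∧
      ∀ T ⊆ C, T.card < s → perr amt f T = 0 := by
  set N1 := mB * (C.card + 1) ^ s * 4 ^ s * (s + 1) ^ (2 * s) with hN1
  have hN : (s + 1) * N1 ≤ (mB + 1) * (s + 1) * (C.card + 1) ^ s * 4 ^ s * (s + 1) ^ (2 * s) := by
    rw [hN1]
    calc (s + 1) * (mB * (C.card + 1) ^ s * 4 ^ s * (s + 1) ^ (2 * s))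
        = mB * ((s + 1) * (C.card + 1) ^ s * 4 ^ s * (s + 1) ^ (2 * s)) := by ring
      _ ≤ (mB + 1) * ((s + 1) * (C.card + 1) ^ s * 4 ^ s * (s + 1) ^ (2 * s)) :=
          Nat.mul_le_mul_right _ (Nat.le_succ mB)
      _ = _ := by ring
  suffices key : ∀ i ≤ s, ∃ f : Finset (Finset ι), Disjoint f Fb ∧
      (∀ U ∈ f, U ⊆ C ∧ U.card ≤ w + s + 1) ∧ f.card ≤ i * N1 ∧
      (∀ T ⊆ C, T.card < i → perr amt f T = 0) ∧
      ∀ T : Finset ι, (perr amt f T).natAbs ≤ mB * 2 ^ i * (T.card + 1) ^ (2 * T.card) by
    obtain ⟨f, h1, h2, h3, h4, -⟩ := key s le_rfl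
    exact ⟨f, h1, h2, h3.trans ((Nat.mul_le_mul_right _ (Nat.le_succ s)).trans hN), h4⟩
  intro i
  induction i with
  | zero =>
    refine fun _ => ⟨∅, by simp, by simp, by simp, fun T _ h => absurd h (Nat.not_lt_zero _),
      fun T => ?_⟩
    simp only [perr, patSum, sum_empty, zero_sub, Int.natAbs_neg, pow_zero, mul_one]
    split
    · exact hamt.trans (Nat.le_mul_of_pos_right _ (Nat.pow_pos (Nat.succ_pos _)))
    · simp
  | succ i ih =>
    intro his
    obtain ⟨f, hfF, hfC, hfc, hf0, hfb⟩ := ih (by omega)
    set e : Finset ι → ℤ := perr amt f with he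
    let R : Finset (Σ _ : Finset ι, ℕ) := (C.powersetCard i).sigma fun W => range (e W).natAbs
    have hRW : ∀ r ∈ R, r.1 ⊆ C ∧ r.1.card = i := fun r hr =>
      mem_powersetCard.1 (mem_sigma.1 hr).1
    have hRsum : ∀ φ : Finset ι → ℤ, ∑ r ∈ R, φ r.1
        = ∑ W ∈ C.powersetCard i, ((e W).natAbs : ℤ) * φ W := fun φ => by
      simp [R, sum_sigma]
    have hRc : R.card * 2 ^ i ≤ N1 := by
      simp only [R, card_sigma, card_range]
      calc (∑ W ∈ C.powersetCard i, (e W).natAbs) * 2 ^ i
          ≤ (C.card + 1) ^ s * (mB * 2 ^ s * (s + 1) ^ (2 * s)) * 2 ^ s := by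
            refine Nat.mul_le_mul ?_ (Nat.pow_le_pow_right (by norm_num) (by omega))
            refine (sum_le_card_nsmul _ _ (mB * 2 ^ s * (s + 1) ^ (2 * s)) fun W hW => ?_).trans ?_
            · refine (hfb W).trans ?_
              rw [(mem_powersetCard.1 hW).2]
              refine Nat.mul_le_mul (Nat.mul_le_mul_left _
                (Nat.pow_le_pow_right (by norm_num) (by omega))) ?_
              exact (Nat.pow_le_pow_left (by omega) _).trans
                (Nat.pow_le_pow_right (by omega) (by omega))
            · rw [smul_eq_mul, card_powersetCard]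
              refine Nat.mul_le_mul_right _ ((Nat.choose_le_pow _ _).trans ?_)
              exact (Nat.pow_le_pow_left (Nat.le_succ _) _).trans
                (Nat.pow_le_pow_right (by omega) (by omega))
        _ = N1 := by
            rw [hN1, show (4 : ℕ) = 2 * 2 from rfl, mul_pow]; ring
    let l : (Σ _ : Finset ι, ℕ) → ℕ := fun r =>
      if (-1 : ℤ) ^ (w + i) = -(e r.1).sign then w else w + 1
    have hfN : f.card + N1 ≤ (s + 1) * N1 :=
      calc f.card + N1 ≤ i * N1 + 1 * N1 := by omega
        _ = (i + 1) * N1 := by ring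
        _ ≤ (s + 1) * N1 := Nat.mul_le_mul_right _ (by omega)
    obtain ⟨g, z, hgF, hgC, hgc, hgS⟩ := add_blocks C w i (by omega)
      (fun r : Σ _ : Finset ι, ℕ => r.1) l (fun r => by simp only [l]; split <;> omega)
      (Fb ∪ f) R hRW (by
        have := card_union_le Fb f
        omega)
    rw [disjoint_union_right] at hgF
    have hsplit : ∀ T, perr amt (f ∪ g) T = e T + patSum g T := fun T => by
      rw [he, perr, perr, patSum_union hgF.2.symm]; ring
    refine ⟨f ∪ g, disjoint_union_left.2 ⟨hfF, hgF.1⟩, fun U hU => ?_, ?_, fun T hTC hT => ?_,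
      fun T => ?_⟩
    · rcases mem_union.1 hU with hU | hU
      · exact hfC U hU
      · exact ⟨(hgC U hU).1, (hgC U hU).2.trans (by omega)⟩
    · rw [add_mul, one_mul]
      exact (card_union_le _ _).trans (add_le_add hfc (hgc.trans hRc))
    · rw [hsplit, hgS]
      rcases Nat.lt_succ_iff_lt_or_eq.1 hT with hT' | hT'
      · rw [hf0 T hTC hT', zero_add]
        refine sum_eq_zero fun r hr => if_neg fun h => ?_
        have := card_le_card h.1
        have := (hRW r hr).2
        omega
      · have hcase : ∀ r ∈ R, (if r.1 ⊆ T ∧ T \ r.1 ⊆ z r then (-1 : ℤ) ^ (l r + i) else 0)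
            = if r.1 = T then -(e T).sign else 0 := by
          intro r hr
          by_cases h : r.1 = T
          · rw [if_pos h, if_pos ⟨h.le, by simp [h]⟩]
            have hpos : (e T).natAbs ≠ 0 := by
              have := (mem_sigma.1 hr).2
              rw [mem_range, h] at this
              omega
            have hs : -(e T).sign = 1 ∨ -(e T).sign = -1 := by
              rcases Int.sign_trichotomy (e T) with h' | h' | h'
              · right; rw [h']
              · exact absurd (Int.natAbs_eq_zero.2 (Int.sign_eq_zero_iff_zero.1 h')) hpos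
              · left; rw [h']; rfl
            simp only [l, h]
            split
            · assumption
            · rename_i hne
              rw [add_right_comm, pow_succ]
              rcases neg_one_pow_eq_or ℤ (w + i) with h1 | h1 <;> rcases hs with h2 | h2 <;>
                rw [h1] at hne ⊢ <;> rw [h2] at hne ⊢ <;> simp_all
          · rw [if_neg h, if_neg]
            exact fun h' => h (eq_of_subset_of_card_le h'.1 (by have := (hRW r hr).2; omega))
        rw [sum_congr rfl hcase, hRsum fun W => if W = T then -(e T).sign else 0]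
        simp only [mul_ite, mul_zero, sum_ite_eq', mem_powersetCard, hTC, hT', and_self, if_true,
          mul_neg]
        rw [mul_comm, Int.sign_mul_natAbs, add_neg_cancel]
    · rw [hsplit, hgS]
      refine (Int.natAbs_add_le _ _).trans ?_
      calc (e T).natAbs + (∑ r ∈ R, if r.1 ⊆ T ∧ T \ r.1 ⊆ z r then (-1 : ℤ) ^ (l r + i)
              else 0).natAbs
          ≤ mB * 2 ^ i * (T.card + 1) ^ (2 * T.card)
            + ∑ W ∈ C.powersetCard i, (if W ⊆ T then (e W).natAbs else 0) := by
            refine add_le_add (hfb T) (Int.ofNat_le.1 ?_)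
            rw [Int.natCast_natAbs]
            refine (abs_sum_le_sum_abs _ _).trans ?_
            refine le_trans (sum_le_sum (g := fun r => if r.1 ⊆ T then (1 : ℤ) else 0)
              fun r _ => ?_) (le_of_eq ?_)
            · by_cases h : r.1 ⊆ T
              · rw [if_pos h]; split <;> simp
              · rw [if_neg (fun h' => h h'.1), if_neg h]; simp
            · rw [hRsum fun W => if W ⊆ T then (1 : ℤ) else 0]
              push_cast
              exact sum_congr rfl fun W _ => by split <;> simp
        _ ≤ mB * 2 ^ i * (T.card + 1) ^ (2 * T.card)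
            + mB * 2 ^ i * (T.card + 1) ^ (2 * T.card) := by
            refine add_le_add le_rfl ?_
            rw [← sum_filter]
            refine (sum_le_card_nsmul _ _ (mB * 2 ^ i * (i + 1) ^ (2 * i)) fun W hW => ?_).trans ?_
            · have := hfb W
              rwa [(mem_powersetCard.1 (mem_filter.1 hW).1).2] at this
            · have hcard : ((C.powersetCard i).filter (· ⊆ T)).card ≤ T.card.choose i := by
                rw [← card_powersetCard]
                refine card_le_card fun W hW => ?_
                obtain ⟨h1, h2⟩ := mem_filter.1 hW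
                exact mem_powersetCard.2 ⟨h2, (mem_powersetCard.1 h1).2⟩
              rw [smul_eq_mul]
              rcases le_or_gt i T.card with h | h
              · calc ((C.powersetCard i).filter (· ⊆ T)).card * (mB * 2 ^ i * (i + 1) ^ (2 * i))
                    ≤ T.card.choose i * (mB * 2 ^ i * (i + 1) ^ (2 * i)) :=
                      Nat.mul_le_mul_right _ hcard
                  _ = mB * 2 ^ i * (T.card.choose i * (i + 1) ^ (2 * i)) := by ring
                  _ ≤ _ := Nat.mul_le_mul_left _ (choose_mul_le i T.card h)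
              · rw [Nat.choose_eq_zero_of_lt h] at hcard
                simp [Nat.le_zero.1 hcard]
        _ = mB * 2 ^ (i + 1) * (T.card + 1) ^ (2 * T.card) := by ring

variable [Fintype ι] [Fintype Ω] [DecidableEq Ω]

/-- The points agreeing with `v` off `C` whose difference pattern on `C` lies in `f`. -/
def patSet (C : Finset ι) (v : ι → Ω) (f : Finset (Finset ι)) : Finset (ι → Ω) :=
  univ.filter fun y => (∀ i, i ∉ C → v i = y i) ∧ diffSet C v y ∈ f

omit [Fintype ι] [Fintype Ω] in
theorem agreeOff_iff {C T : Finset ι} {v y : ι → Ω} (hT : T ⊆ C) :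
    AgreeOff T v y ↔ AgreeOff C v y ∧ diffSet C v y ⊆ T := by
  constructor
  · intro h
    refine ⟨fun i hi => h i fun h' => hi (hT h'), fun i hi => ?_⟩
    obtain ⟨-, hne⟩ := mem_filter.1 hi
    by_contra hiT
    exact hne (h i hiT).symm
  · rintro ⟨h1, h2⟩ i hi
    by_cases hiC : i ∈ C
    · by_contra hne
      exact hi (h2 (mem_filter.2 ⟨hiC, fun h' => hne h'.symm⟩))
    · exact h1 i hiC

/-- A cancelling pattern family gives a correction in `Low C s`. -/
theorem patSet_mem_low (C : Finset ι) (s : ℕ) (v : ι → Ω) (amt : ℤ) (f : Finset (Finset ι))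
    (hf : ∀ U ∈ f, U ⊆ C) (h0 : ∀ T ⊆ C, T.card < s → perr amt f T = 0) :
    (fun y => (if y ∈ patSet C v f then (1 : ℝ) else 0)
      - (amt : ℝ) * (if y = v then 1 else 0)) ∈ Low C s := by
  classical
  have heq : (fun y => (if y ∈ patSet C v f then (1 : ℝ) else 0)
      - (amt : ℝ) * (if y = v then 1 else 0))
      = ∑ T ∈ C.powerset, (((-1) ^ T.card * perr amt f T : ℤ) : ℝ) •
          fun y => if AgreeOff T v y then (1 : ℝ) else 0 := by
    funext y
    have hZ : ((if y ∈ patSet C v f then 1 else 0) - amt * if y = v then 1 else 0 : ℤ)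
        = ∑ T ∈ C.powerset, (-1) ^ T.card * perr amt f T * if AgreeOff T v y then 1 else 0 := by
      have hd : diffSet C v y ⊆ C := filter_subset _ _
      have e1 : ∑ T ∈ C.powerset, (-1 : ℤ) ^ T.card * patSum f T *
          (if AgreeOff T v y then 1 else 0) = if y ∈ patSet C v f then 1 else 0 := by
        simp only [patSum, mul_sum, sum_mul]
        rw [sum_comm]
        have : ∀ U ∈ f, ∑ T ∈ C.powerset, (-1 : ℤ) ^ T.card * (if T ⊆ U then (-1) ^ U.card else 0)
            * (if AgreeOff T v y then 1 else 0)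
            = if AgreeOff C v y ∧ diffSet C v y = U then 1 else 0 := by
          intro U hU
          by_cases hA : AgreeOff C v y
          · by_cases hDU : diffSet C v y ⊆ U
            · have e : ∑ T ∈ C.powerset, (-1 : ℤ) ^ T.card *
                  (if T ⊆ U then (-1) ^ U.card else 0) * (if AgreeOff T v y then 1 else 0)
                  = (-1) ^ U.card *
                    ∑ T ∈ U.powerset, if diffSet C v y ⊆ T then (-1 : ℤ) ^ T.card else 0 := by
                rw [mul_sum, ← sum_subset (powerset_mono.2 (hf U hU))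
                  (fun T _ hT => by rw [if_neg (by simpa using hT)]; simp)]
                refine sum_congr rfl fun T hT => ?_
                rw [mem_powerset] at hT
                simp only [hT, if_true, agreeOff_iff (hT.trans (hf U hU)), hA, true_and]
                split <;> ring
              rw [e, alt_sum hDU]
              by_cases h : diffSet C v y = U
              · simp [h, hA, ← pow_add, ← two_mul, pow_mul]
              · simp [h]
            · rw [if_neg fun h => hDU h.2.le]
              refine sum_eq_zero fun T hT => ?_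
              rw [mem_powerset] at hT
              by_cases hTU : T ⊆ U
              · rw [if_neg (fun h => hDU (((agreeOff_iff hT).1 h).2.trans hTU)), mul_zero]
              · simp [hTU]
          · rw [if_neg fun h => hA h.1]
            refine sum_eq_zero fun T hT => ?_
            rw [if_neg (fun h => hA ((agreeOff_iff (mem_powerset.1 hT)).1 h).1), mul_zero]
        rw [sum_congr rfl this]
        by_cases hA : AgreeOff C v y
        · simp only [hA, true_and, sum_ite_eq]
          refine if_congr ?_ rfl rfl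
          simp only [patSet, mem_filter, mem_univ, true_and]
          exact ⟨fun h => ⟨hA, h⟩, fun h => h.2⟩
        · rw [sum_eq_zero fun U _ => if_neg fun h => hA h.1, if_neg]
          exact fun h => hA (mem_filter.1 h).2.1
      have e2 : ∑ T ∈ C.powerset, (-1 : ℤ) ^ T.card * (if T = ∅ then amt else 0) *
          (if AgreeOff T v y then 1 else 0) = amt * if y = v then 1 else 0 := by
        rw [sum_eq_single ∅ (fun T _ hT => by simp [hT]) (by simp)]
        have : AgreeOff ∅ v y ↔ y = v := by
          simp [AgreeOff, funext_iff, eq_comm]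
        simp [this]
      rw [← e1, ← e2, ← sum_sub_distrib]
      exact sum_congr rfl fun T _ => by rw [perr]; ring
    have := congrArg (Int.cast : ℤ → ℝ) hZ
    push_cast [apply_ite (Int.cast : ℤ → ℝ)] at this
    rw [this, Finset.sum_apply]
    simp
  rw [heq]
  refine Submodule.sum_mem _ fun T hT => ?_
  rw [mem_powerset] at hT
  rcases lt_or_ge T.card s with h | h
  · rw [h0 T hT h]; simp
  · exact Submodule.smul_mem _ _ (mem_low hT h (indep_ite_agreeOff T v))

/-- Patterns of `v` that could collide with the pattern `U'` of `v'`. -/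
def clash (C : Finset ι) (v v' : ι → Ω) (U' : Finset ι) : Finset (Finset ι) :=
  (U' ∩ diffSet C v v').powerset.image fun X =>
    (U' \ diffSet C v v') ∪ (diffSet C v v' \ U') ∪ X

omit [Fintype ι] [Fintype Ω] in
theorem mem_clash {C : Finset ι} {v v' y : ι → Ω} :
    diffSet C v y ∈ clash C v v' (diffSet C v' y) := by
  refine mem_image.2 ⟨diffSet C v y ∩ (diffSet C v' y ∩ diffSet C v v'),
    mem_powerset.2 inter_subset_right, ?_⟩
  ext i
  by_cases hi : i ∈ C
  · simp only [diffSet, mem_union, mem_sdiff, mem_inter, mem_filter, hi, true_and]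
    by_cases a : v' i = v i
    · rw [a]; tauto
    · by_cases b : y i = v' i
      · rw [b]; tauto
      · tauto
  · simp [diffSet, hi]

omit [Fintype ι] [Fintype Ω] in
theorem card_clash (C : Finset ι) (v v' : ι → Ω) (U' : Finset ι) :
    (clash C v v' U').card ≤ 2 ^ U'.card :=
  card_image_le.trans (by
    rw [card_powerset]; exact Nat.pow_le_pow_right (by norm_num) (card_le_card inter_subset_left))

theorem absorb {J : Type*} (C : Finset ι) (s w mB : ℕ) (I : Finset J) (pt : J → ι → Ω)
    (amt : J → ℤ) (hamt : ∀ a ∈ I, (amt a).natAbs ≤ mB) (hk : 5 * (w + 1) + s ≤ C.card)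
    (hbig : (I.card + 1) * ((mB + 1) * (s + 1) * (C.card + 1) ^ s * 4 ^ s * (s + 1) ^ (2 * s))
      * 2 ^ (w + s + 2) < 4 ^ w) :
    ∃ F : J → Finset (ι → Ω),
      (∀ a ∈ I, ∀ y ∈ F a, AgreeOff C (pt a) y) ∧
      (∀ a ∈ I, ∀ b ∈ I, a ≠ b → Disjoint (F a) (F b)) ∧
      (∀ a ∈ I, (fun y => (if y ∈ F a then (1 : ℝ) else 0)
          - (amt a : ℝ) * (if y = pt a then 1 else 0)) ∈ Low C s) := by
  classical
  set N0 := (mB + 1) * (s + 1) * (C.card + 1) ^ s * 4 ^ s * (s + 1) ^ (2 * s) with hN0
  suffices key : ∀ I' ⊆ I, ∃ fam : J → Finset (Finset ι), ∀ a ∈ I',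
      ((∀ U ∈ fam a, U ⊆ C ∧ U.card ≤ w + s + 1) ∧ (fam a).card ≤ N0 ∧
        ∀ T ⊆ C, T.card < s → perr (amt a) (fam a) T = 0) ∧
      ∀ b ∈ I', a ≠ b → Disjoint (patSet C (pt a) (fam a)) (patSet C (pt b) (fam b)) by
    obtain ⟨fam, hfam⟩ := key I subset_rfl
    exact ⟨fun a => patSet C (pt a) (fam a), fun a _ y hy => (mem_filter.1 hy).2.1,
      fun a ha => (hfam a ha).2, fun a ha => patSet_mem_low C s (pt a) (amt a) (fam a)
        (fun U hU => ((hfam a ha).1.1 U hU).1) (hfam a ha).1.2.2⟩
  intro I'
  induction I' using Finset.induction_on with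
  | empty => exact fun _ => ⟨fun _ => ∅, by simp⟩
  | @insert a I' ha ih =>
    intro hsub
    obtain ⟨fam, hfam⟩ := ih ((subset_insert a I').trans hsub)
    set Fb := I'.biUnion fun b => (fam b).biUnion fun U' => clash C (pt a) (pt b) U' with hFb
    have hFbc : Fb.card ≤ I.card * (N0 * 2 ^ (w + s + 1)) := by
      refine (card_biUnion_le_card_mul _ _ (N0 * 2 ^ (w + s + 1)) fun b hb => ?_).trans
        (Nat.mul_le_mul_right _ (card_le_card ((subset_insert a I').trans hsub)))
      refine (card_biUnion_le_card_mul _ _ (2 ^ (w + s + 1)) fun U' hU' => ?_).trans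
        (Nat.mul_le_mul_right _ (hfam b hb).1.2.1)
      exact (card_clash _ _ _ _).trans
        (Nat.pow_le_pow_right (by norm_num) ((hfam b hb).1.1 U' hU').2)
    have hsize : Fb.card + N0 < 4 ^ w := by
      refine lt_of_le_of_lt ?_ hbig
      rw [pow_succ _ (w + s + 1)]
      have h2 : N0 ≤ N0 * 2 ^ (w + s + 1) := Nat.le_mul_of_pos_right _ (by positivity)
      calc Fb.card + N0 ≤ (I.card + 1) * (N0 * 2 ^ (w + s + 1)) := by rw [add_mul, one_mul]; omega
        _ ≤ (I.card + 1) * (N0 * 2 ^ (w + s + 1)) * 2 := Nat.le_mul_of_pos_right _ (by norm_num)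
        _ = _ := by ring
    obtain ⟨f, hfF, hfC, hfc, hf0⟩ := pattern_family C s w mB (amt a)
      (hamt a (hsub (mem_insert_self a I'))) hk Fb hsize
    have hnew : ∀ b ∈ I', Disjoint (patSet C (pt a) f) (patSet C (pt b) (fam b)) := by
      intro b hb
      rw [disjoint_left]
      intro y hy hy'
      obtain ⟨-, hyU⟩ := (mem_filter.1 hy).2
      obtain ⟨-, hyU'⟩ := (mem_filter.1 hy').2
      exact disjoint_left.1 hfF hyU
        (mem_biUnion.2 ⟨b, hb, mem_biUnion.2 ⟨_, hyU', mem_clash⟩⟩)
    refine ⟨Function.update fam a f, fun x hx => ?_⟩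
    have hne : ∀ b ∈ I', Function.update fam a f b = fam b := fun b hb =>
      Function.update_of_ne (ne_of_mem_of_not_mem hb ha) _ _
    rcases mem_insert.1 hx with rfl | hxI
    · rw [Function.update_self]
      refine ⟨⟨hfC, hfc, hf0⟩, fun b hb hxb => ?_⟩
      have hb' := mem_of_mem_insert_of_ne hb (Ne.symm hxb)
      rw [hne b hb']
      exact hnew b hb'
    · rw [hne x hxI]
      refine ⟨(hfam x hxI).1, fun b hb hxb => ?_⟩
      rcases mem_insert.1 hb with rfl | hbI
      · rw [Function.update_self]; exact (hnew x hxI).symm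
      · rw [hne b hbI]; exact (hfam x hxI).2 b hbI hxb

end Vale.Agent.P047
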