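import Vale.Agent.P047.Kernel

/-! Integer rounding inside the exceptional region. -/

namespace Vale.Agent.P047

variable {ι Ω : Type*} [Fintype ι] [DecidableEq ι] [Fintype Ω] [DecidableEq Ω]

/-- Indicator of the flat through `x` with free coordinates `S`. -/
def flatInd (S : Finset ι) (x t : ι → Ω) : ℝ := if AgreeOff S x t then 1 else 0

theorem flatInd_mem {D S : Finset ι} {s : ℕ} (x : ι → Ω) (hS : S ⊆ D) (hs : s ≤ S.card) :
    flatInd S x ∈ Low D s := mem_low hS hs (indep_ite_agreeOff S x)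

theorem flatInd_self (S : Finset ι) (x : ι → Ω) : flatInd S x x = 1 := by
  simp [flatInd, AgreeOff]

omit [Fintype ι] [DecidableEq ι] [Fintype Ω] [DecidableEq Ω] in
theorem AgreeOff.mono {D D' : Finset ι} {x y : ι → Ω} (h : AgreeOff D x y) (hD : D ⊆ D') :
    AgreeOff D' x y := fun i hi => h i fun h' => hi (hD h')

omit [Fintype ι] [DecidableEq ι] [Fintype Ω] in
theorem zset_subset_of_agree {D S : Finset ι} {m x t : ι → Ω} (hS : ∀ i ∈ S, x i = m i)
    (h : AgreeOff S x t) : zset D m t ⊆ zset D m x := fun i hi => by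
  obtain ⟨hiD, hit⟩ := Finset.mem_filter.1 hi
  refine Finset.mem_filter.2 ⟨hiD, ?_⟩
  by_cases hiS : i ∈ S
  · exact hS i hiS
  · rw [h i hiS]; exact hit

omit [Fintype ι] [DecidableEq ι] [Fintype Ω] in
theorem zset_card_lt_of_agree {D S : Finset ι} {m x t : ι → Ω} (hSD : S ⊆ D)
    (hS : ∀ i ∈ S, x i = m i) (h : AgreeOff S x t) (htx : t ≠ x) :
    (zset D m t).card < (zset D m x).card := by
  refine Finset.card_lt_card ((Finset.ssubset_iff_of_subset (zset_subset_of_agree hS h)).2 ?_)
  obtain ⟨i, hi⟩ := Function.ne_iff.1 htx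
  have hiS : i ∈ S := by
    by_contra hc
    exact hi (h i hc).symm
  exact ⟨i, Finset.mem_filter.2 ⟨hSD hiS, hS i hiS⟩,
    fun hc => hi ((Finset.mem_filter.1 hc).2.trans (hS i hiS).symm)⟩

/-- An integer-valued element of `Low D s` equal to a point mass on the points with `s` markers. -/
theorem exists_int_point (D : Finset ι) (s : ℕ) (m : (ι → Ω) → ι → Ω)
    (hm : ∀ x y, AgreeOff D x y → m x = m y) :
    ∀ n, ∀ x : ι → Ω, (zset D (m x) x).card = n → s ≤ n →
      ∃ f ∈ Low (Ω := Ω) D s, (∀ t, ∃ z : ℤ, f t = z) ∧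
        ∀ t, s ≤ (zset D (m t) t).card → f t = if t = x then 1 else 0 := by
  classical
  intro n
  induction n using Nat.strong_induction_on with
  | _ n ih =>
    intro x hn hs
    obtain ⟨S, hS, hScard⟩ := Finset.exists_subset_card_eq (hn.symm ▸ hs : s ≤ (zset D (m x) x).card)
    have hSD : S ⊆ D := hS.trans (Finset.filter_subset _ _)
    have hSm : ∀ i ∈ S, x i = m x i := fun i hi => (Finset.mem_filter.1 (hS hi)).2
    set F := Finset.univ.filter fun t =>
      AgreeOff S x t ∧ t ≠ x ∧ s ≤ (zset D (m t) t).card with hF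
    have hex : ∀ t ∈ F, ∃ f ∈ Low (Ω := Ω) D s, (∀ u, ∃ z : ℤ, f u = z) ∧
        ∀ u, s ≤ (zset D (m u) u).card → f u = if u = t then 1 else 0 := by
      intro t ht
      obtain ⟨-, h1, h2, h3⟩ := Finset.mem_filter.1 ht
      refine ih _ ?_ t rfl h3
      rw [← hm x t (h1.mono hSD), ← hn]
      exact zset_card_lt_of_agree hSD hSm h1 h2
    choose! f hf hfz hfd using hex
    refine ⟨fun t => flatInd S x t - ∑ u ∈ F, f u t, ?_, fun t => ?_, fun t ht => ?_⟩
    · have := Submodule.sub_mem _ (flatInd_mem x hSD hScard.ge)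
        (Submodule.sum_mem (Low D s) (t := F) hf)
      convert this using 1
      funext t
      simp [Finset.sum_apply]
    · choose! z hz using hfz
      refine ⟨(if AgreeOff S x t then 1 else 0) - ∑ u ∈ F, z u t, ?_⟩
      push_cast [flatInd]
      congr 1
      exact Finset.sum_congr rfl fun u hu => hz u hu t
    · have : ∑ u ∈ F, f u t = if t ∈ F then 1 else 0 := by
        rw [Finset.sum_congr rfl fun u hu => hfd u hu t ht, Finset.sum_ite_eq]
      show flatInd S x t - ∑ u ∈ F, f u t = _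
      rw [this]
      by_cases htx : t = x
      · subst htx; simp [hF, flatInd_self]
      · by_cases hag : AgreeOff S x t <;> simp [hF, flatInd, hag, htx, ht]

/-- An element of `Low D s` that is integral on the points with `s` markers is integral. -/
theorem int_of_low (D : Finset ι) (s : ℕ) (m : (ι → Ω) → ι → Ω)
    (hm : ∀ x y, AgreeOff D x y → m x = m y) {v : (ι → Ω) → ℝ} (hv : v ∈ Low D s)
    (hz : ∀ x, s ≤ (zset D (m x) x).card → ∃ z : ℤ, v x = z) :
    ∀ t, ∃ z : ℤ, v t = z := by
  classical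
  choose! z hz using hz
  set P := Finset.univ.filter fun x : ι → Ω => s ≤ (zset D (m x) x).card with hP
  have hex : ∀ x ∈ P, ∃ f ∈ Low (Ω := Ω) D s, (∀ t, ∃ w : ℤ, f t = w) ∧
      ∀ t, s ≤ (zset D (m t) t).card → f t = if t = x then 1 else 0 := fun x hx =>
    exists_int_point D s m hm _ x rfl (Finset.mem_filter.1 hx).2
  choose! f hf hfz hfd using hex
  choose! w hw using hfz
  set g : (ι → Ω) → ℝ := v - ∑ x ∈ P, (z x : ℝ) • f x with hg
  have hgm : g ∈ Low D s :=
    Submodule.sub_mem _ hv (Submodule.sum_mem _ fun x hx => Submodule.smul_mem _ _ (hf x hx))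
  have hg0 : ∀ t, s ≤ (zset D (m t) t).card → g t = 0 := by
    intro t ht
    have htP : t ∈ P := by simp [hP, ht]
    simp only [hg, Pi.sub_apply, Finset.sum_apply, Pi.smul_apply, smul_eq_mul]
    rw [Finset.sum_congr rfl fun x hx => by rw [hfd x hx t ht]]
    simp [htP, hz t ht]
  intro t
  have hg1 : g t = 0 := by
    have h1 := mul_mem_low_of_disjoint hgm (indep_ite_agreeOff D t)
    have h2 := congrFun (low_eq_zero (m t) D s _ h1 fun x hx => by
      by_cases hag : AgreeOff D t x
      · rw [hg0 x (hm t x hag ▸ hx)]; simp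
      · simp [hag]) t
    simpa [AgreeOff] using h2
  refine ⟨∑ x ∈ P, z x * w x t, ?_⟩
  simp only [hg, Pi.sub_apply, Finset.sum_apply, Pi.smul_apply, smul_eq_mul, sub_eq_zero] at hg1
  rw [hg1]; push_cast
  exact Finset.sum_congr rfl fun x hx => by rw [hw x hx t]

/-- Rounding inside the region with fewer than `s` markers in `A`. -/
theorem cascade (A B : Finset ι) (s : ℕ) (m : (ι → Ω) → ι → Ω)
    (hm : ∀ x y, AgreeOff (A ∪ B) x y → m x = m y) (v₀ : (ι → Ω) → ℝ)
    (hv : v₀ ∈ Low (A ∪ B) s)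
    (hint : ∀ x, s ≤ (zset A (m x) x).card → ∃ z : ℤ, v₀ x = z) :
    ∃ v ∈ Low (A ∪ B) s, (∀ t, ∃ z : ℤ, v t = z) ∧
      (∀ x, s ≤ (zset A (m x) x).card → v x = v₀ x) ∧
      ∀ t, |v t - v₀ t| ≤ ((A ∪ B).card.choose s : ℕ) := by
  classical
  set D := A ∪ B with hD
  set T := Finset.univ.filter fun x : ι → Ω =>
    (zset A (m x) x).card < s ∧ s ≤ (zset D (m x) x).card with hT
  have hch : ∀ x ∈ T, ∃ S ⊆ zset D (m x) x, S.card = s := fun x hx =>
    Finset.exists_subset_card_eq (Finset.mem_filter.1 hx).2.2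
  choose! S hS hScard using hch
  have hSD : ∀ x ∈ T, S x ⊆ D := fun x hx => (hS x hx).trans (Finset.filter_subset _ _)
  have hSm : ∀ x ∈ T, ∀ i ∈ S x, x i = m x i := fun x hx i hi =>
    (Finset.mem_filter.1 (hS x hx hi)).2
  let N : Finset (ι → Ω) → (ι → Ω) → ℕ := fun Q t =>
    (Q.filter fun x => AgreeOff (S x) x t).card
  have key : ∀ n ≤ T.card, ∃ Q ⊆ T, Q.card = n ∧
      (∀ x ∈ T \ Q, ∀ t ∈ Q, (zset D (m x) x).card ≤ (zset D (m t) t).card) ∧
      ∃ v ∈ Low (Ω := Ω) D s, (∀ x, s ≤ (zset A (m x) x).card → v x = v₀ x) ∧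
        (∀ x ∈ Q, ∃ z : ℤ, v x = z) ∧ ∀ t, |v t - v₀ t| ≤ N Q t := by
    intro n
    induction n with
    | zero =>
      exact fun _ => ⟨∅, Finset.empty_subset _, rfl, by simp, v₀, hv, fun _ _ => rfl, by simp,
        fun t => by simp⟩
    | succ n ih =>
      intro hn
      obtain ⟨Q, hQ, hc, hup, v, hvm, hvA, hvQ, hvN⟩ := ih (by omega)
      have hne : (T \ Q).Nonempty := by
        rw [← Finset.card_pos, Finset.card_sdiff_of_subset hQ]; omega
      obtain ⟨x, hx, hmax⟩ :=
        Finset.exists_max_image (T \ Q) (fun x => (zset D (m x) x).card) hne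
      obtain ⟨hxT, hxQ⟩ := Finset.mem_sdiff.1 hx
      refine ⟨insert x Q, Finset.insert_subset hxT hQ, by simp [hxQ, hc], fun y hy t ht => ?_,
        fun t => v t + ((⌈v x⌉ : ℤ) - v x) * flatInd (S x) x t, ?_, ?_, ?_, ?_⟩
      · have hy' : y ∈ T \ Q := by simp at hy ⊢; tauto
        rcases Finset.mem_insert.1 ht with rfl | ht
        · exact hmax y hy'
        · exact hup y hy' t ht
      · exact Submodule.add_mem _ hvm (Submodule.smul_mem _ ((⌈v x⌉ : ℤ) - v x : ℝ)
          (flatInd_mem x (hSD x hxT) (hScard x hxT).ge))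
      · intro t ht
        have hno : ¬ AgreeOff (S x) x t := fun hag => by
          have h1 := Finset.card_le_card (zset_subset_of_agree (D := A) (hSm x hxT) hag)
          rw [← hm x t (hag.mono (hSD x hxT))] at ht
          have := (Finset.mem_filter.1 hxT).2.1
          omega
        simp [flatInd, hno, hvA t ht]
      · intro t ht
        rcases Finset.mem_insert.1 ht with rfl | ht
        · exact ⟨⌈v t⌉, by simp [flatInd_self]⟩
        · have htx : t ≠ x := fun h => hxQ (h ▸ ht)
          have hno : ¬ AgreeOff (S x) x t := fun hag => by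
            have := zset_card_lt_of_agree (hSD x hxT) (hSm x hxT) hag htx
            rw [hm x t (hag.mono (hSD x hxT))] at this
            have := hup x hx t ht
            rw [hm x t (hag.mono (hSD x hxT))] at this
            omega
          simpa [flatInd, hno] using hvQ t ht
      · intro t
        have he : |((⌈v x⌉ : ℤ) : ℝ) - v x| ≤ 1 := by
          rw [abs_le]
          constructor <;> linarith [Int.le_ceil (v x), Int.ceil_lt_add_one (v x)]
        by_cases hag : AgreeOff (S x) x t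
        · have hN : N (insert x Q) t = N Q t + 1 := by
            simp only [N, Finset.filter_insert, hag, if_true]
            rw [Finset.card_insert_of_notMem (by simp [hxQ])]
          simp only [flatInd, hag, if_true, mul_one, hN]
          push_cast
          calc |v t + ((⌈v x⌉ : ℤ) - v x) - v₀ t|
              = |(v t - v₀ t) + ((⌈v x⌉ : ℤ) - v x)| := by ring_nf
            _ ≤ _ := (abs_add_le _ _).trans (add_le_add (hvN t) he)
        · have hN : N (insert x Q) t = N Q t := by
            simp [N, Finset.filter_insert, hag]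
          simpa [flatInd, hag, hN] using hvN t
  obtain ⟨Q, hQ, hc, -, v, hvm, hvA, hvQ, hvN⟩ := key _ le_rfl
  have hQT : Q = T := Finset.eq_of_subset_of_card_le hQ hc.ge
  refine ⟨v, hvm, int_of_low D s m hm hvm fun x hx => ?_, hvA, fun t => (hvN t).trans ?_⟩
  · by_cases hA : s ≤ (zset A (m x) x).card
    · rw [hvA x hA]; exact hint x hA
    · exact hvQ x (hQT ▸ Finset.mem_filter.2 ⟨Finset.mem_univ _, not_le.1 hA, hx⟩)
  · rw [Nat.cast_le]
    show (Q.filter fun x => AgreeOff (S x) x t).card ≤ _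
    rw [← Finset.card_powersetCard]
    refine Finset.card_le_card_of_injOn S (fun x hx => ?_) fun x hx y hy hxy => ?_
    · obtain ⟨hxQ, -⟩ := Finset.mem_filter.1 hx
      exact Finset.mem_powersetCard.2 ⟨hSD x (hQT ▸ hxQ), hScard x (hQT ▸ hxQ)⟩
    · obtain ⟨hxQ, hxa⟩ := Finset.mem_filter.1 hx
      obtain ⟨hyQ, hya⟩ := Finset.mem_filter.1 hy
      funext i
      by_cases hi : i ∈ S x
      · rw [hSm x (hQT ▸ hxQ) i hi, hSm y (hQT ▸ hyQ) i (hxy ▸ hi),
          hm x t (hxa.mono (hSD x (hQT ▸ hxQ))), hm y t (hya.mono (hSD y (hQT ▸ hyQ)))]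
      · rw [hxa i hi, hya i (hxy ▸ hi)]

end Vale.Agent.P047
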