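import Vale.Agent.P047.Kernel

/-! Existence of good marker assignments. -/

namespace Vale.Agent.P047

variable {ι Ω : Type*} [Fintype ι] [DecidableEq ι] [Fintype Ω] [DecidableEq Ω]

/-- Bound for the proportion of markers with fewer than `s` matches on `a` coordinates. -/
noncomputable def gam (M a s : ℕ) : ℝ :=
  ((s * (a + 1) ^ s : ℕ) : ℝ) * (1 - (M : ℝ)⁻¹) ^ (a - s)

theorem card_few_matches [Nonempty Ω] (A : Finset ι) (s : ℕ) (x : ι → Ω) :
    ((Finset.univ.filter fun m : ι → Ω => (zset A m x).card < s).card : ℝ)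
      ≤ gam (Fintype.card Ω) A.card s * (Fintype.card Ω : ℝ) ^ Fintype.card ι := by
  classical
  set M : ℝ := (Fintype.card Ω : ℝ) with hM
  have hM1 : (1 : ℝ) ≤ M := by
    rw [hM]; exact_mod_cast (Fintype.card_pos : 0 < Fintype.card Ω)
  have hinv : M⁻¹ ≤ 1 := inv_le_one_of_one_le₀ hM1
  have hinv0 : 0 ≤ M⁻¹ := by positivity
  let box : Finset ι → Finset (ι → Ω) := fun J =>
    Fintype.piFinset fun i => if i ∈ A \ J then Finset.univ.erase (x i) else Finset.univ
  have hsub : (Finset.univ.filter fun m : ι → Ω => (zset A m x).card < s)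
      ⊆ (A.powerset.filter fun J => J.card < s).biUnion box := by
    intro m hm
    refine Finset.mem_biUnion.2 ⟨zset A m x, Finset.mem_filter.2
      ⟨Finset.mem_powerset.2 (Finset.filter_subset _ _), (Finset.mem_filter.1 hm).2⟩, ?_⟩
    simp only [box, Fintype.mem_piFinset]
    intro i
    split
    · next h =>
      obtain ⟨h1, h2⟩ := Finset.mem_sdiff.1 h
      exact Finset.mem_erase.2
        ⟨fun he => h2 (Finset.mem_filter.2 ⟨h1, he.symm⟩), Finset.mem_univ _⟩
    · exact Finset.mem_univ _
  have hbox : ∀ J ∈ A.powerset.filter (fun J => J.card < s),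
      ((box J).card : ℝ) ≤ (1 - M⁻¹) ^ (A.card - s) * M ^ Fintype.card ι := by
    intro J hJ
    obtain ⟨hJA', hJs⟩ := Finset.mem_filter.1 hJ
    have hJA := Finset.mem_powerset.1 hJA'
    simp only [box, Fintype.card_piFinset, Nat.cast_prod]
    have h1 : ∀ i, (((if i ∈ A \ J then Finset.univ.erase (x i) else Finset.univ).card : ℕ) : ℝ)
        = M * if i ∈ A \ J then 1 - M⁻¹ else 1 := by
      intro i
      split
      · rw [Finset.card_erase_of_mem (Finset.mem_univ _), Finset.card_univ,
          Nat.cast_sub (Fintype.card_pos : 0 < Fintype.card Ω), ← hM, mul_sub,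
          mul_inv_cancel₀ (by linarith : M ≠ 0)]
        simp
      · simp [hM]
    rw [Finset.prod_congr rfl fun i _ => h1 i, Finset.prod_mul_distrib, Finset.prod_const,
      Finset.prod_ite_mem, Finset.univ_inter, Finset.prod_const, Finset.card_univ, mul_comm]
    refine mul_le_mul_of_nonneg_right ?_ (by positivity)
    refine pow_le_pow_of_le_one (by linarith) (by linarith) ?_
    rw [Finset.card_sdiff_of_subset hJA]; omega
  have hnn : 0 ≤ (1 - M⁻¹) ^ (A.card - s) * M ^ Fintype.card ι :=
    mul_nonneg (pow_nonneg (by linarith) _) (by positivity)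
  calc ((Finset.univ.filter fun m : ι → Ω => (zset A m x).card < s).card : ℝ)
      ≤ (((A.powerset.filter fun J => J.card < s).biUnion box).card : ℕ) := by
        exact_mod_cast Finset.card_le_card hsub
    _ ≤ ∑ J ∈ A.powerset.filter (fun J => J.card < s), ((box J).card : ℝ) := by
        exact_mod_cast Finset.card_biUnion_le
    _ ≤ ((A.powerset.filter fun J => J.card < s).card : ℝ)
          * ((1 - M⁻¹) ^ (A.card - s) * M ^ Fintype.card ι) :=
        (Finset.sum_le_sum hbox).trans_eq (by simp)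
    _ ≤ ((s * (A.card + 1) ^ s : ℕ) : ℝ) * ((1 - M⁻¹) ^ (A.card - s) * M ^ Fintype.card ι) :=
        mul_le_mul_of_nonneg_right (by exact_mod_cast card_filter_powerset_lt A s) hnn
    _ = _ := by rw [gam, ← hM]; ring

omit [Fintype ι] [DecidableEq ι] [Fintype Ω] in
theorem zset_congr {A : Finset ι} {m x y : ι → Ω} (h : ∀ i ∈ A, x i = y i) :
    zset A m x = zset A m y := Finset.filter_congr fun i hi => by rw [h i hi]

theorem exists_markers [Nonempty Ω] (A C : Finset ι) (hdis : Disjoint A C) (s t₀ : ℕ)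
    (μ : (ι → Ω) → ℝ) (hμ : ∀ x, 0 ≤ μ x) (hμ1 : ∑ x, μ x = 1) (ε₀ : ℝ) (hε : 0 < ε₀)
    (hsmall : (Fintype.card Ω : ℝ) ^ Fintype.card ι
        * ((Fintype.card Ω : ℝ) ^ C.card * gam (Fintype.card Ω) A.card s) ^ t₀
        + (Fintype.card Ω : ℝ) ^ C.card * gam (Fintype.card Ω) A.card s / ε₀ < 1) :
    ∃ m : (ι → Ω) → ι → Ω, (∀ x y, (∀ i ∈ C, x i = y i) → m x = m y) ∧
      (∀ x, (Finset.univ.filter fun y =>
          AgreeOff C x y ∧ (zset A (m y) y).card < s).card < t₀) ∧
      ∑ x ∈ Finset.univ.filter (fun x => ∃ y, AgreeOff C x y ∧ (zset A (m y) y).card < s), μ x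
        < ε₀ := by
  classical
  set g := gam (Fintype.card Ω) A.card s with hg
  set M : ℝ := (Fintype.card Ω : ℝ) with hM
  set N := Fintype.card ι with hN
  have hM1 : (1 : ℝ) ≤ M := by
    rw [hM]; exact_mod_cast (Fintype.card_pos : 0 < Fintype.card Ω)
  have hg0 : 0 ≤ g := by
    have : M⁻¹ ≤ 1 := inv_le_one_of_one_le₀ hM1
    rw [hg, gam]
    exact mul_nonneg (Nat.cast_nonneg _) (pow_nonneg (by rw [← hM]; linarith) _)
  let good : (ι → Ω) → Finset (ι → Ω) := fun x =>
    Finset.univ.filter fun m : ι → Ω => (zset A m x).card < s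
  let hits : ((↥C → Ω) → ι → Ω) → (ι → Ω) → Finset (↥C → Ω) := fun h x =>
    Finset.univ.filter fun y : (↥C → Ω) => (zset A (h y) x).card < s
  have hY : (Fintype.card (↥C → Ω) : ℝ) = M ^ C.card := by simp [hM]
  have hH : (Fintype.card ((↥C → Ω) → ι → Ω) : ℝ) = (M ^ N) ^ Fintype.card (↥C → Ω) := by simp [hM, hN]
  have hcount : ∀ (x : ι → Ω) (T : Finset (↥C → Ω)),
      ((Finset.univ.filter fun h : (↥C → Ω) → ι → Ω => ∀ y ∈ T, h y ∈ good x).card : ℝ)
        ≤ g ^ T.card * Fintype.card ((↥C → Ω) → ι → Ω) := by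
    intro x T
    have : (Finset.univ.filter fun h : (↥C → Ω) → ι → Ω => ∀ y ∈ T, h y ∈ good x)
        = Fintype.piFinset fun y => if y ∈ T then good x else Finset.univ := by
      ext h
      rw [Finset.mem_filter, Fintype.mem_piFinset]
      refine ⟨fun hh y => ?_, fun hh => ⟨Finset.mem_univ _, fun y hy => by
        simpa [hy] using hh y⟩⟩
      by_cases hy : y ∈ T <;> simp [hy, hh.2 y]
    rw [this, Fintype.card_piFinset, Nat.cast_prod, hH]
    have h1 : ∀ y, (((if y ∈ T then good x else Finset.univ).card : ℕ) : ℝ)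
        ≤ (if y ∈ T then g else 1) * M ^ N := by
      intro y; split
      · exact card_few_matches A s x
      · simp [hM, hN]
    refine (Finset.prod_le_prod (fun y _ => Nat.cast_nonneg _) fun y _ => h1 y).trans_eq ?_
    rw [Finset.prod_mul_distrib, Finset.prod_ite_mem, Finset.univ_inter, Finset.prod_const,
      Finset.prod_const, Finset.card_univ]
  let F : ((↥C → Ω) → ι → Ω) → ℝ := fun h =>
    ((Finset.univ.filter fun x => t₀ ≤ (hits h x).card).card : ℝ)
      + (∑ x, μ x * (hits h x).card) / ε₀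
  have hbad : ∑ h : (↥C → Ω) → ι → Ω, ((Finset.univ.filter fun x => t₀ ≤ (hits h x).card).card : ℝ)
      ≤ M ^ N * ((M ^ C.card * g) ^ t₀ * Fintype.card ((↥C → Ω) → ι → Ω)) := by
    calc ∑ h : (↥C → Ω) → ι → Ω, ((Finset.univ.filter fun x => t₀ ≤ (hits h x).card).card : ℝ)
        ≤ ∑ h : (↥C → Ω) → ι → Ω, ∑ x : ι → Ω, ∑ T ∈ (Finset.univ : Finset (↥C → Ω)).powersetCard t₀,
            if ∀ y ∈ T, h y ∈ good x then (1 : ℝ) else 0 := by
          refine Finset.sum_le_sum fun h _ => ?_
          rw [Finset.card_filter, Nat.cast_sum]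
          refine Finset.sum_le_sum fun x _ => ?_
          have hnn : ∀ T ∈ (Finset.univ : Finset (↥C → Ω)).powersetCard t₀,
              (0 : ℝ) ≤ if ∀ y ∈ T, h y ∈ good x then 1 else 0 := fun T _ => by
            split <;> norm_num
          split
          · next ht =>
            obtain ⟨T, hT, hTc⟩ := Finset.exists_subset_card_eq ht
            refine le_trans ?_ (Finset.single_le_sum hnn
              (Finset.mem_powersetCard.2 ⟨Finset.subset_univ T, hTc⟩))
            rw [if_pos fun y hy => by simpa [good, hits] using hT hy]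
            simp
          · simpa using Finset.sum_nonneg hnn
      _ = ∑ x : ι → Ω, ∑ T ∈ (Finset.univ : Finset (↥C → Ω)).powersetCard t₀,
            ((Finset.univ.filter fun h : (↥C → Ω) → ι → Ω => ∀ y ∈ T, h y ∈ good x).card : ℝ) := by
          rw [Finset.sum_comm]
          refine Finset.sum_congr rfl fun x _ => ?_
          rw [Finset.sum_comm]
          exact Finset.sum_congr rfl fun T _ => by rw [Finset.sum_boole]
      _ ≤ ∑ _x : ι → Ω, ∑ _T ∈ (Finset.univ : Finset (↥C → Ω)).powersetCard t₀,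
            g ^ t₀ * Fintype.card ((↥C → Ω) → ι → Ω) := by
          refine Finset.sum_le_sum fun x _ => Finset.sum_le_sum fun T hT => ?_
          exact (Finset.mem_powersetCard.1 hT).2 ▸ hcount x T
      _ ≤ ∑ _x : ι → Ω, (M ^ C.card) ^ t₀ * (g ^ t₀ * Fintype.card ((↥C → Ω) → ι → Ω)) := by
          refine Finset.sum_le_sum fun x _ => ?_
          rw [Finset.sum_const, nsmul_eq_mul, Finset.card_powersetCard, Finset.card_univ, ← hY]
          refine mul_le_mul_of_nonneg_right ?_ (by positivity)
          exact_mod_cast Nat.choose_le_pow _ _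
      _ = _ := by simp [hM, hN, mul_pow, mul_assoc]
  have hmass : ∑ h : (↥C → Ω) → ι → Ω, ∑ x, μ x * ((hits h x).card : ℝ)
      ≤ M ^ C.card * g * Fintype.card ((↥C → Ω) → ι → Ω) := by
    rw [Finset.sum_comm]
    calc ∑ x, ∑ h : (↥C → Ω) → ι → Ω, μ x * ((hits h x).card : ℝ)
        ≤ ∑ x, μ x * (M ^ C.card * g * Fintype.card ((↥C → Ω) → ι → Ω)) := by
          refine Finset.sum_le_sum fun x _ => ?_
          rw [← Finset.mul_sum]
          refine mul_le_mul_of_nonneg_left ?_ (hμ x)
          simp only [hits, Finset.card_filter, Nat.cast_sum]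
          rw [Finset.sum_comm]
          refine (Finset.sum_le_sum (g := fun _ : (↥C → Ω) => g * Fintype.card ((↥C → Ω) → ι → Ω))
            fun y _ => ?_).trans_eq ?_
          · have := hcount x {y}
            simp only [Finset.mem_singleton, forall_eq, Finset.card_singleton, pow_one] at this
            refine le_trans (le_of_eq ?_) this
            rw [← Finset.sum_boole]
            exact Finset.sum_congr rfl fun h _ => by simp [good]
          · rw [Finset.sum_const, Finset.card_univ, nsmul_eq_mul, hY]; ring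
      _ = _ := by rw [← Finset.sum_mul, hμ1, one_mul]
  have hlt : ∑ h : (↥C → Ω) → ι → Ω, F h < ∑ _h : (↥C → Ω) → ι → Ω, (1 : ℝ) := by
    have hpos : (0 : ℝ) < Fintype.card ((↥C → Ω) → ι → Ω) := by
      exact_mod_cast (Fintype.card_pos : 0 < Fintype.card ((↥C → Ω) → ι → Ω))
    simp only [F, Finset.sum_add_distrib, ← Finset.sum_div, Finset.sum_const, Finset.card_univ,
      nsmul_eq_mul, mul_one]
    calc _ ≤ M ^ N * ((M ^ C.card * g) ^ t₀ * Fintype.card ((↥C → Ω) → ι → Ω))
          + M ^ C.card * g * Fintype.card ((↥C → Ω) → ι → Ω) / ε₀ :=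
          add_le_add hbad (div_le_div_of_nonneg_right hmass hε.le)
      _ = (M ^ N * (M ^ C.card * g) ^ t₀ + M ^ C.card * g / ε₀)
            * Fintype.card ((↥C → Ω) → ι → Ω) := by ring
      _ < 1 * Fintype.card ((↥C → Ω) → ι → Ω) := mul_lt_mul_of_pos_right hsmall hpos
      _ = _ := one_mul _
  obtain ⟨h, -, hh⟩ := Finset.exists_lt_of_sum_lt hlt
  simp only [F] at hh
  have hm2 : 0 ≤ (∑ x, μ x * ((hits h x).card : ℝ)) / ε₀ :=
    div_nonneg (Finset.sum_nonneg fun x _ => mul_nonneg (hμ x) (Nat.cast_nonneg _)) hε.le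
  have hz : (Finset.univ.filter fun x => t₀ ≤ (hits h x).card) = ∅ := by
    by_contra hne
    have : (1 : ℝ) ≤ ((Finset.univ.filter fun x => t₀ ≤ (hits h x).card).card : ℕ) := by
      exact_mod_cast (Finset.card_pos.2 (Finset.nonempty_iff_ne_empty.2 hne) :
        1 ≤ (Finset.univ.filter fun x => t₀ ≤ (hits h x).card).card)
    linarith
  have hms : ∑ x, μ x * ((hits h x).card : ℝ) < ε₀ := by
    rw [hz] at hh
    simp only [Finset.card_empty, Nat.cast_zero, zero_add] at hh
    rwa [div_lt_one hε] at hh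
  refine ⟨fun x => h fun i => x i, fun x y hxy => congrArg h (funext fun i => hxy i i.2),
    fun x => ?_, ?_⟩
  · have hx : (hits h x).card < t₀ := by
      by_contra hge
      have : x ∈ Finset.univ.filter fun x => t₀ ≤ (hits h x).card := by
        simp [not_lt.1 hge]
      simp [hz] at this
    refine lt_of_le_of_lt (Finset.card_le_card_of_injOn (fun y => fun i : ↥C => y i) ?_ ?_) hx
    · intro y hy
      obtain ⟨hag, hys⟩ := (Finset.mem_filter.1 hy).2
      refine Finset.mem_filter.2 ⟨Finset.mem_univ _, ?_⟩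
      rwa [zset_congr fun i hi => hag i (Finset.disjoint_left.1 hdis hi)]
    · intro y hy z hz' hyz
      obtain ⟨h1, -⟩ := (Finset.mem_filter.1 hy).2
      obtain ⟨h2, -⟩ := (Finset.mem_filter.1 hz').2
      funext i
      by_cases hi : i ∈ C
      · exact congrFun hyz ⟨i, hi⟩
      · rw [← h1 i hi, ← h2 i hi]
  · refine lt_of_le_of_lt ?_ hms
    rw [Finset.sum_filter]
    refine Finset.sum_le_sum fun x _ => ?_
    split
    · next hex =>
      obtain ⟨y, hag, hys⟩ := hex
      refine le_mul_of_one_le_right (hμ x) ?_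
      have : (fun i : ↥C => y i) ∈ hits h x := by
        refine Finset.mem_filter.2 ⟨Finset.mem_univ _, ?_⟩
        rwa [zset_congr fun i hi => hag i (Finset.disjoint_left.1 hdis hi)]
      exact_mod_cast Finset.card_pos.2 ⟨_, this⟩
    · exact mul_nonneg (hμ x) (Nat.cast_nonneg _)

end Vale.Agent.P047
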