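import Vale.Agent.P047.Round
import Vale.Agent.P047.Cascade
import Vale.Agent.P047.Hash
import Vale.Agent.P047.Absorber

/-! The combinatorial core of one amplification stage. -/

namespace Vale.Agent.P047

variable {ι Ω Cl : Type*} [Fintype ι] [DecidableEq ι] [Fintype Ω] [DecidableEq Ω]
  [Fintype Cl] [DecidableEq Cl]

theorem core [Nonempty Ω] (A B C : Finset ι) (hAB : Disjoint A B)
    (hAC : Disjoint (A ∪ B) C) (s w t₀ K : ℕ) (b₀ : Cl)
    (m : (ι → Ω) → ι → Ω) (hm : ∀ x y, (∀ i ∈ C, x i = y i) → m x = m y)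
    (hmfew : ∀ x, (Finset.univ.filter fun y =>
      AgreeOff C x y ∧ (zset A (m y) y).card < s).card < t₀)
    (hsAB : s + A.card ≤ (A ∪ B).card)
    (h₀ : Cl → (ι → Ω) → ℝ) (h₀nn : ∀ b x, 0 ≤ h₀ b x) (h₀sum : ∀ x, ∑ b, h₀ b x = 1)
    (h₀low : ∀ b, h₀ b ∈ Low (A ∪ B) (s + A.card))
    (cost : Cl → (ι → Ω) → ℝ) (hcost : ∀ b x, 0 ≤ cost b x)
    (cap : (ι → Ω) → ℝ) (hcap : ∀ b x, cost b x ≤ cap x)
    (ε lam η : ℝ) (hε : 0 < ε) (hη : 0 < η) (hεCl : (Fintype.card Cl : ℝ) * ε ≤ 1)
    (hεC : 2 * (Fintype.card Cl : ℝ) * ε * (Fintype.card Ω : ℝ) ^ C.card ≤ 1)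
    (hlamV : lam ^ 2 * (((A.card.choose s : ℕ) : ℝ) * (((s * (B.card + 1) ^ s : ℕ) : ℝ) ^ 2
          * (1 - (Fintype.card Ω : ℝ)⁻¹) ^ (B.card - s))) ≤ 2)
    (hlam : 2 * (((Fintype.card Cl : ℝ) + 1) * (Fintype.card Ω : ℝ) ^ Fintype.card ι * Real.exp 1)
      < Real.cosh (lam * ε))
    (hK : 2 * (((Fintype.card Cl : ℝ) + 1) * (Fintype.card Ω : ℝ) ^ Fintype.card ι * Real.exp 1)
      < 2 ^ K)
    (hk : 5 * (w + 1) + s ≤ C.card)
    (hbig : (Fintype.card Cl * (t₀ + K) + 1)
        * (((A ∪ B).card.choose s + 3) * (s + 1) * (C.card + 1) ^ s * 4 ^ s * (s + 1) ^ (2 * s))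
        * 2 ^ (w + s + 2) < 4 ^ w) :
    ∃ F : (ι → Ω) → Cl,
      (∀ b, (fun x => if F x = b then (1 : ℝ) else 0) ∈ Low (Finset.univ : Finset ι) s) ∧
      ∑ x, cost (F x) x ≤ 2 * ((∑ x, ∑ b, h₀ b x * cost b x) + 2 * ε * (∑ x, ∑ b, cost b x) + η)
        + 3 * ∑ x ∈ Finset.univ.filter
            (fun x => ∃ y, AgreeOff C x y ∧ (zset A (m y) y).card < s), cap x := by
  classical
  set k := (Fintype.card Cl : ℝ) with hkdef
  -- basic facts about markers and the exceptional fibres
  have hmAB : ∀ x y, AgreeOff (A ∪ B) x y → m x = m y := fun x y h =>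
    hm x y fun i hi => h i fun h' => Finset.disjoint_left.1 hAC h' hi
  set Q := Finset.univ.filter (fun x : ι → Ω => ∃ y, AgreeOff C x y ∧ (zset A (m y) y).card < s)
    with hQ
  have hQA : ∀ x x', (∀ i ∈ A, x i = x' i) → x ∈ Q → x' ∈ Q := by
    intro x x' hA hx
    obtain ⟨y, hy, hys⟩ := (Finset.mem_filter.1 hx).2
    refine Finset.mem_filter.2 ⟨Finset.mem_univ _, C.piecewise y x', fun i hi => ?_, ?_⟩
    · simp [Finset.piecewise, hi]
    · have hnC : ∀ i ∈ A, i ∉ C := fun i hi =>
        Finset.disjoint_left.1 hAC (Finset.mem_union_left B hi)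
      rw [hm (C.piecewise y x') y (fun i hi => by simp [Finset.piecewise, hi]),
        zset_congr (y := y) fun i hi => by
          simp [Finset.piecewise, hnC i hi, ← hA i hi, hy i (hnC i hi)]]
      exact hys
  have hQC : ∀ x x', AgreeOff C x x' → x ∈ Q → x' ∈ Q := fun x x' h =>
    hQA x x' fun i hi => h i (Finset.disjoint_left.1 hAC (Finset.mem_union_left B hi))
  -- the modified fractional partition
  set q : (ι → Ω) → ℝ := fun x => if x ∈ Q then 1 else 0 with hq
  have hqdep : ∀ x y, (∀ i ∈ A, x i = y i) → q x = q y := fun x y h => by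
    have : x ∈ Q ↔ y ∈ Q := ⟨hQA x y h, hQA y x fun i hi => (h i hi).symm⟩
    simp only [hq, this]
  set h : Cl → (ι → Ω) → ℝ := fun b x =>
    (1 - k * ε) * ((1 - q x) * h₀ b x + q x * if b = b₀ then 1 else 0) + ε with hh
  have hq01 : ∀ x, 0 ≤ q x ∧ q x ≤ 1 := fun x => by simp only [hq]; split <;> norm_num
  have hh_lb : ∀ b x, ε ≤ h b x := fun b x => by
    have h1 : 0 ≤ (1 - q x) * h₀ b x := mul_nonneg (by linarith [(hq01 x).2]) (h₀nn b x)
    have h2 : 0 ≤ q x * if b = b₀ then (1 : ℝ) else 0 :=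
      mul_nonneg (hq01 x).1 (by split <;> norm_num)
    have h3 : 0 ≤ (1 - k * ε) * ((1 - q x) * h₀ b x + q x * if b = b₀ then 1 else 0) :=
      mul_nonneg (by linarith) (by linarith)
    simp only [hh]; linarith
  have hh_sum : ∀ x, ∑ b, h b x = 1 := fun x => by
    simp only [hh, Finset.sum_add_distrib, ← Finset.mul_sum, h₀sum, Finset.sum_ite_eq',
      Finset.mem_univ, if_true, Finset.sum_const, Finset.card_univ, nsmul_eq_mul, ← hkdef]
    ring
  have hh_ub : ∀ b x, h b x ≤ 1 := fun b x =>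
    hh_sum x ▸ Finset.single_le_sum (fun c _ => le_trans hε.le (hh_lb c x)) (Finset.mem_univ b)
  have hh_low : ∀ b, h b ∈ Low (A ∪ B) s := by
    intro b
    have hs1 : s ≤ (A ∪ B).card := by omega
    have h1 : (fun x => (1 - q x) * h₀ b x) ∈ Low (A ∪ B) s :=
      mul_mem_low (E := A) (g := fun x => 1 - q x) (h₀low b) fun x y hxy => by
        show 1 - q x = 1 - q y
        rw [hqdep x y hxy]
    have h2 : (fun x => q x * if b = b₀ then (1 : ℝ) else 0) ∈ Low (A ∪ B) s :=
      mul_mem_low (E := A) (g := q) (const_mem_low hsAB _) hqdep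
    exact Submodule.add_mem _
      (Submodule.smul_mem _ (1 - k * ε) (Submodule.add_mem _ h1 h2)) (const_mem_low hs1 ε)
  -- rounding
  set H := Finset.univ.filter (fun x : ι → Ω => s ≤ (zset A (m x) x).card) with hH
  have hnH : ∀ x, x ∉ H → x ∈ Q := fun x hx =>
    Finset.mem_filter.2 ⟨Finset.mem_univ _, x, fun _ _ => rfl, by simpa [hH] using hx⟩
  have hch : ∀ x ∈ H, ∃ S ⊆ zset A (m x) x, S.card = s := fun x hx =>
    Finset.exists_subset_card_eq (Finset.mem_filter.1 hx).2
  choose! S hS hScard using hch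
  obtain ⟨a₀⟩ : Nonempty (ι → Ω) := inferInstance
  set grp : (ι → Ω) → (ι → Ω) := fun x => C.piecewise a₀ x with hgrp
  have hgrp_iff : ∀ x y, grp x = grp y ↔ AgreeOff C x y := fun x y => by
    simp only [hgrp, funext_iff, AgreeOff, Finset.piecewise]
    refine forall_congr' fun i => ?_
    by_cases hi : i ∈ C <;> simp [hi]
  set sumA1 := ∑ x, ∑ b, cost b x with hA1
  set sumA0 := ∑ x, ∑ b, h₀ b x * cost b x with hA0
  set capQ := ∑ x ∈ Q, cap x with hcapQ
  have hcap0 : ∀ x, 0 ≤ cap x := fun x => (hcost b₀ x).trans (hcap b₀ x)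
  have hA1nn : 0 ≤ sumA1 := Finset.sum_nonneg fun x _ => Finset.sum_nonneg fun b _ => hcost b x
  have hA0nn : 0 ≤ sumA0 := Finset.sum_nonneg fun x _ => Finset.sum_nonneg fun b _ =>
    mul_nonneg (h₀nn b x) (hcost b x)
  have hcapQnn : 0 ≤ capQ := Finset.sum_nonneg fun x _ => hcap0 x
  let D : RData Cl (ι → Ω) (ι → Ω) :=
    { H := H, rank := fun x => (zset A (m x) x).card, col := fun x => colK B (S x) s x,
      h := h, cost := cost, grp := grp, pin := Q, b0 := b₀, lam := lam, eps := ε,
      d0 := 2 * k * ε,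
      phi0 := (Fintype.card Cl * Fintype.card (ι → Ω) + Fintype.card (ι → Ω) : ℝ) * Real.exp 1,
      L0 := sumA0 + capQ + 2 * ε * sumA1 + η }
  have hphi : D.phi0 = (k + 1) * (Fintype.card Ω : ℝ) ^ Fintype.card ι * Real.exp 1 := by
    simp [D, hkdef]; ring
  have hyp : RHyp D (((A.card.choose s : ℕ) : ℝ) * (((s * (B.card + 1) ^ s : ℕ) : ℝ) ^ 2
      * (1 - (Fintype.card Ω : ℝ)⁻¹) ^ (B.card - s))) (Fintype.card Ω ^ C.card) := by
    refine ⟨fun x _ => colK_self _ _ _ _, ?_,
      fun t => var_bound A B s m H S hAB hmAB (fun x hx => ⟨hS x hx, hScard x hx⟩) t,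
      hlamV, fun x _ b => hh_lb b x, hh_sum, hcost, hε, ?_, ?_, by positivity, ?_, rfl, ?_,
      show 0 < sumA0 + capQ + 2 * ε * sumA1 + η by positivity, ?_⟩
    · intro x hx t _ hne
      refine or_iff_not_imp_left.2 fun htx => ?_
      have h1 := zset_card_lt hAB (hS x hx) hne htx
      have h2 : m x = m t := hmAB x t ((colK_support hne htx).1.mono
        (Finset.union_subset_union ((hS x hx).trans (Finset.filter_subset _ _)) le_rfl))
      show (zset A (m t) t).card < (zset A (m x) x).card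
      rwa [← h2]
    · intro x _ hx
      have hx' : q x = 1 := if_pos hx
      calc ∑ b ∈ Finset.univ.erase b₀, (h b x + ε) = ∑ _b ∈ Finset.univ.erase b₀, 2 * ε :=
            Finset.sum_congr rfl fun b hb => by
              simp [hh, hx', Finset.ne_of_mem_erase hb]; ring
        _ ≤ ∑ _b : Cl, 2 * ε :=
            Finset.sum_le_sum_of_subset_of_nonneg (Finset.subset_univ _) fun _ _ _ => by positivity
        _ = _ := by simp [D, hkdef]; ring
    · intro g
      simp only [RData.rem]
      refine le_trans (Finset.card_le_card_of_injOn (t := Finset.univ)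
        (fun x => fun i : ↥C => x i) (fun _ _ => Finset.mem_univ _) ?_) (by simp)
      intro x hx y hy hxy
      have h1 : grp x = g := (Finset.mem_filter.1 hx).2
      have h2 : grp y = g := (Finset.mem_filter.1 hy).2
      funext i
      by_cases hi : i ∈ C
      · exact congrFun hxy ⟨i, hi⟩
      · exact (hgrp_iff x y).1 (h1.trans h2.symm) i hi
    · show 2 * k * ε * ((Fintype.card Ω ^ C.card : ℕ) : ℝ) ≤ 1
      push_cast; exact hεC
    · rw [hphi]; exact hlam
    · show ∑ x ∈ H, ∑ b, (h b x + ε) * cost b x ≤ sumA0 + capQ + 2 * ε * sumA1 + η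
      have h1 : ∑ x ∈ H, ∑ b, (h b x + ε) * cost b x ≤ ∑ x, ∑ b, (h b x + ε) * cost b x :=
        Finset.sum_le_sum_of_subset_of_nonneg (Finset.subset_univ _) fun x _ _ =>
          Finset.sum_nonneg fun b _ => mul_nonneg (by linarith [hh_lb b x]) (hcost b x)
      have h2 : ∀ x, ∑ b, (h b x + ε) * cost b x
          ≤ (∑ b, h₀ b x * cost b x) + q x * cap x + 2 * ε * ∑ b, cost b x := by
        intro x
        have h3 : q x * cost b₀ x ≤ q x * cap x :=
          mul_le_mul_of_nonneg_left (hcap b₀ x) (hq01 x).1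
        calc ∑ b, (h b x + ε) * cost b x
            ≤ ∑ b, ((h₀ b x + q x * if b = b₀ then 1 else 0) + 2 * ε) * cost b x := by
              refine Finset.sum_le_sum fun b _ => mul_le_mul_of_nonneg_right ?_ (hcost b x)
              have e1 : (1 - q x) * h₀ b x ≤ h₀ b x :=
                mul_le_of_le_one_left (h₀nn b x) (by linarith [(hq01 x).1])
              have e2 : 0 ≤ (1 - q x) * h₀ b x + q x * if b = b₀ then (1 : ℝ) else 0 :=
                add_nonneg (mul_nonneg (by linarith [(hq01 x).2]) (h₀nn b x))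
                  (mul_nonneg (hq01 x).1 (by split <;> norm_num))
              have e3 : (1 - k * ε) * ((1 - q x) * h₀ b x + q x * if b = b₀ then (1 : ℝ) else 0)
                  ≤ (1 - q x) * h₀ b x + q x * if b = b₀ then (1 : ℝ) else 0 :=
                mul_le_of_le_one_left e2 (by
                  have : 0 ≤ k * ε := by positivity
                  linarith)
              simp only [hh]; linarith
          _ = (∑ b, h₀ b x * cost b x) + q x * cost b₀ x + 2 * ε * ∑ b, cost b x := by
              simp only [add_mul, Finset.sum_add_distrib, mul_assoc, Finset.mul_sum, ite_mul,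
                one_mul, zero_mul, mul_ite, mul_zero, Finset.sum_ite_eq', Finset.mem_univ, if_true]
          _ ≤ _ := by linarith
      have h4 : ∑ x, q x * cap x = capQ := by
        simp [hq, hcapQ, ite_mul, Finset.sum_ite_mem]
      have h5 := Finset.sum_le_sum fun x (_ : x ∈ (Finset.univ : Finset (ι → Ω))) => h2 x
      rw [Finset.sum_add_distrib, Finset.sum_add_distrib, h4, ← Finset.mul_sum, ← hA1, ← hA0] at h5
      linarith
  have hcolW : ∀ x ∈ D.H, D.col x ∈ Low (A ∪ B) s := fun x hx =>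
    colK_mem A B (S x) s x ((hS x hx).trans (Finset.filter_subset _ _)) (hScard x hx).ge hAB
  obtain ⟨c, v, hvW, hvH, hvn, hbad, hcst⟩ := rounding hyp (Low (A ∪ B) s) hcolW
  have hv_low : ∀ b, v b ∈ Low (A ∪ B) s := fun b => by
    have := Submodule.add_mem _ (hvW b) (hh_low b)
    convert this using 1
    funext x; simp [D]
  -- integral rounding
  have hcas : ∀ b, ∃ g ∈ Low (Ω := Ω) (A ∪ B) s, (∀ t, ∃ z : ℤ, g t = z) ∧
      (∀ x, s ≤ (zset A (m x) x).card → g x = v b x) ∧
      ∀ t, |g t - v b t| ≤ ((A ∪ B).card.choose s : ℕ) := fun b =>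
    cascade A B s m hmAB (v b) (hv_low b) fun x hx =>
      ⟨if c x = b then 1 else 0, by
        rw [hvH x (Finset.mem_filter.2 ⟨Finset.mem_univ _, hx⟩) b]; split <;> simp⟩
  choose g hg hgz hgH hgb using hcas
  choose z hz using hgz
  have hzabs : ∀ b x, (z b x).natAbs ≤ (A ∪ B).card.choose s + 2 := by
    intro b x
    have h1 : |v b x| ≤ 2 := by
      by_cases hx : x ∈ H
      · rw [hvH x hx b]; split <;> norm_num
      · have h1 : |v b x - h b x| ≤ ε := hvn x hx b
        have := abs_le.1 h1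
        have := hh_lb b x
        have := hh_ub b x
        have := hh_ub b₀ x
        have := hh_lb b₀ x
        rw [abs_le]; constructor <;> linarith
    have h2 := abs_le.1 (hgb b x)
    have h3 := abs_le.1 h1
    have h4 : |((z b x : ℤ) : ℝ)| ≤ (((A ∪ B).card.choose s + 2 : ℕ) : ℝ) := by
      rw [← hz b x, abs_le]; push_cast; constructor <;> linarith
    rw [← Nat.cast_le (α := ℝ), Nat.cast_natAbs, Int.cast_abs]
    exact h4
  -- sources, fibre by fibre
  set I := Finset.univ.filter (fun j : (ι → Ω) × Cl => j.1 ∈ Q ∧ j.2 ≠ b₀ ∧ z j.2 j.1 ≠ 0) with hI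
  have hfib : ∀ r, (I.filter fun j => grp j.1 = r).card ≤ Fintype.card Cl * (t₀ + K) := by
    intro r
    set P1 := Finset.univ.filter fun y => grp y = r ∧ (zset A (m y) y).card < s
    set P2 := (H ∩ Q).filter fun y => grp y = r ∧ c y ≠ b₀
    have hP1 : P1.card ≤ t₀ := by
      by_cases hne : P1.Nonempty
      · obtain ⟨y₀, hy₀⟩ := hne
        refine le_trans (Finset.card_le_card fun y hy => ?_) (hmfew y₀).le
        simp only [P1, Finset.mem_filter, Finset.mem_univ, true_and] at hy hy₀ ⊢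
        exact ⟨(hgrp_iff y₀ y).1 (hy₀.1.trans hy.1.symm), hy.2⟩
      · simp [Finset.not_nonempty_iff_eq_empty.1 hne]
    have hP2 : P2.card ≤ K := by
      have h1 : (2 : ℝ) ^ P2.card < 2 ^ K := lt_of_le_of_lt (hbad r) (hphi ▸ hK)
      exact ((pow_lt_pow_iff_right₀ (by norm_num)).1 h1).le
    calc (I.filter fun j => grp j.1 = r).card ≤ ((P1 ∪ P2) ×ˢ (Finset.univ : Finset Cl)).card := by
          refine Finset.card_le_card fun j hj => ?_
          simp only [hI, Finset.mem_filter, Finset.mem_univ, true_and] at hj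
          obtain ⟨⟨hjQ, hjb, hjz⟩, hjr⟩ := hj
          refine Finset.mem_product.2 ⟨?_, Finset.mem_univ _⟩
          by_cases hjA : (zset A (m j.1) j.1).card < s
          · exact Finset.mem_union_left _ (by simp [P1, hjr, hjA])
          · refine Finset.mem_union_right _ ?_
            have hjH : j.1 ∈ H := by simp [hH, not_lt.1 hjA]
            refine Finset.mem_filter.2 ⟨Finset.mem_inter.2 ⟨hjH, hjQ⟩, hjr, fun hc => hjz ?_⟩
            have := hgH j.2 j.1 (not_lt.1 hjA)
            rw [hz, hvH j.1 hjH, if_neg (hc ▸ Ne.symm hjb)] at this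
            exact_mod_cast this
      _ ≤ (P1.card + P2.card) * Fintype.card Cl := by
          rw [Finset.card_product, Finset.card_univ]
          exact Nat.mul_le_mul_right _ (Finset.card_union_le _ _)
      _ ≤ _ := by rw [mul_comm]; exact Nat.mul_le_mul_left _ (add_le_add hP1 hP2)
  have habs := fun r => absorb C s w ((A ∪ B).card.choose s + 2) (I.filter fun j => grp j.1 = r)
    (fun j => j.1) (fun j => z j.2 j.1) (fun j _ => hzabs j.2 j.1) hk
    (lt_of_le_of_lt (Nat.mul_le_mul_right _ (Nat.mul_le_mul_right _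
      (Nat.add_le_add_right (hfib r) 1))) hbig)
  choose Fl hFag hFdis hFlow using habs
  let fl : (ι → Ω) × Cl → Finset (ι → Ω) := fun j => Fl (grp j.1) j
  have hag : ∀ j ∈ I, ∀ y ∈ fl j, AgreeOff C j.1 y := fun j hj y hy =>
    hFag (grp j.1) j (Finset.mem_filter.2 ⟨hj, rfl⟩) y hy
  have huniq : ∀ j ∈ I, ∀ j' ∈ I, ∀ y, y ∈ fl j → y ∈ fl j' → j = j' := by
    intro j hj j' hj' y hy hy'
    by_contra hne
    have h1 : grp j.1 = grp j'.1 :=
      ((hgrp_iff _ _).2 (hag j hj y hy)).trans ((hgrp_iff _ _).2 (hag j' hj' y hy')).symm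
    have hy'' : y ∈ Fl (grp j.1) j' := by rw [h1]; exact hy'
    exact Finset.disjoint_left.1 (hFdis (grp j.1) j (Finset.mem_filter.2 ⟨hj, rfl⟩) j'
      (Finset.mem_filter.2 ⟨hj', h1.symm⟩) hne) hy hy''
  let F : (ι → Ω) → Cl := fun x =>
    if x ∈ Q then (if hx : ∃ j, j ∈ I ∧ x ∈ fl j then hx.choose.2 else b₀) else c x
  have hflQ : ∀ j ∈ I, ∀ y ∈ fl j, y ∈ Q := fun j hj y hy =>
    hQC j.1 y (hag j hj y hy) (Finset.mem_filter.1 hj).2.1
  have hlow' : ∀ b ≠ b₀, (fun x => if F x = b then (1 : ℝ) else 0)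
      ∈ Low (Finset.univ : Finset ι) s := by
    intro b hb
    have heq : (fun x => if F x = b then (1 : ℝ) else 0) = g b + ∑ j ∈ I.filter (fun j => j.2 = b),
        fun y => (if y ∈ fl j then (1 : ℝ) else 0) - (z j.2 j.1 : ℝ) * if y = j.1 then 1 else 0 := by
      funext x
      simp only [Pi.add_apply, Finset.sum_apply, Finset.sum_sub_distrib]
      have e2 : ∑ j ∈ I.filter (fun j => j.2 = b), (z j.2 j.1 : ℝ) * (if x = j.1 then 1 else 0)
          = if (x, b) ∈ I then (z b x : ℝ) else 0 := by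
        have : ∀ j ∈ I.filter (fun j => j.2 = b),
            (z j.2 j.1 : ℝ) * (if x = j.1 then 1 else 0) = if j = (x, b) then (z b x : ℝ) else 0 := by
          intro j hj
          obtain ⟨-, hjb⟩ := Finset.mem_filter.1 hj
          obtain ⟨j1, j2⟩ := j
          simp only at hjb; subst hjb
          by_cases hxj : x = j1 <;> simp [hxj, Ne.symm]
        rw [Finset.sum_congr rfl this, Finset.sum_ite_eq']
        simp
      rw [e2]
      by_cases hxQ : x ∈ Q
      · have e1 : g b x = if (x, b) ∈ I then (z b x : ℝ) else 0 := by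
          rw [hz b x]
          by_cases h0 : z b x = 0 <;> simp [hI, hxQ, hb, h0]
        rw [e1]
        by_cases hex : ∃ j, j ∈ I ∧ x ∈ fl j
        · have hFx : F x = hex.choose.2 := by simp only [F]; rw [if_pos hxQ, dif_pos hex]
          obtain ⟨h1, h2⟩ := hex.choose_spec
          have : ∑ j ∈ I.filter (fun j => j.2 = b), (if x ∈ fl j then (1 : ℝ) else 0)
              = if hex.choose.2 = b then 1 else 0 := by
            have e3 : ∀ j ∈ I.filter (fun j => j.2 = b), (if x ∈ fl j then (1 : ℝ) else 0)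
                = if j = hex.choose then 1 else 0 := by
              intro j hj
              by_cases hxj : x ∈ fl j
              · rw [if_pos hxj, if_pos (huniq j (Finset.mem_filter.1 hj).1 _ h1 x hxj h2)]
              · rw [if_neg hxj, if_neg fun h => hxj (by rw [h]; exact h2)]
            rw [Finset.sum_congr rfl e3, Finset.sum_ite_eq']
            simp [h1]
          rw [this, hFx]; ring
        · have hFx : F x = b₀ := by simp only [F]; rw [if_pos hxQ, dif_neg hex]
          rw [Finset.sum_eq_zero fun j hj => if_neg fun h =>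
            hex ⟨j, (Finset.mem_filter.1 hj).1, h⟩, hFx, if_neg (Ne.symm hb)]
          ring
      · have hxH : x ∈ H := by
          by_contra h
          exact hxQ (hnH x h)
        have hFx : F x = c x := by simp [F, hxQ]
        rw [hFx, hgH b x (Finset.mem_filter.1 hxH).2, hvH x hxH b,
          if_neg (show (x, b) ∉ I by simp [hI, hxQ]),
          Finset.sum_eq_zero fun j hj => if_neg fun h => hxQ (hflQ j (Finset.mem_filter.1 hj).1 x h)]
        ring
    rw [heq]
    refine Submodule.add_mem _ (low_mono (Finset.subset_univ _) le_rfl (hg b))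
      (Submodule.sum_mem _ fun j hj => low_mono (D := C) (s := s) (Finset.subset_univ _) le_rfl ?_)
    exact hFlow (grp j.1) j (Finset.mem_filter.2 ⟨(Finset.mem_filter.1 hj).1, rfl⟩)
  refine ⟨F, fun b => ?_, ?_⟩
  · by_cases hb : b = b₀
    · subst hb
      have hs2 : s ≤ (Finset.univ : Finset ι).card :=
        le_trans (by omega) (Finset.card_le_card (Finset.subset_univ (A ∪ B)))
      have heq : (fun x => if F x = b then (1 : ℝ) else 0)
          = (fun _ => (1 : ℝ)) - ∑ b' ∈ Finset.univ.erase b,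
              fun x => if F x = b' then (1 : ℝ) else 0 := by
        funext x
        simp only [Pi.sub_apply, Finset.sum_apply, Finset.sum_ite_eq, Finset.mem_erase,
          Finset.mem_univ, and_true]
        by_cases hFx : F x = b <;> simp [hFx]
      rw [heq]
      exact Submodule.sub_mem _ (const_mem_low hs2 1)
        (Submodule.sum_mem _ fun b' hb' => hlow' b' (Finset.ne_of_mem_erase hb'))
    · exact hlow' b hb
  · have h1 : ∑ x ∈ Qᶜ, cost (F x) x ≤ ∑ x ∈ H, cost (c x) x := by
      refine le_of_eq_of_le (Finset.sum_congr rfl fun x hx => ?_)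
        (Finset.sum_le_sum_of_subset_of_nonneg (fun x hx => ?_) fun x _ _ => hcost _ _)
      · simp [F, Finset.mem_compl.1 hx]
      · by_contra h
        exact Finset.mem_compl.1 hx (hnH x h)
    have h2 : ∑ x ∈ Q, cost (F x) x ≤ capQ := Finset.sum_le_sum fun x _ => hcap _ x
    have h3 := Finset.sum_add_sum_compl Q fun x => cost (F x) x
    have h4 : ∑ x ∈ H, cost (c x) x ≤ 2 * (sumA0 + capQ + 2 * ε * sumA1 + η) := hcst
    linarith

end Vale.Agent.P047
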