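import Mathlib

/-! Basic notions for the disproof of the Gopalan-Servedio square-root conjecture. -/

namespace Vale.Agent.P047

variable {ι Ω : Type*}

/-- `f` does not depend on the coordinates in `T`. -/
def Indep (f : (ι → Ω) → ℝ) (T : Finset ι) : Prop :=
  ∀ x y : ι → Ω, (∀ i, i ∉ T → x i = y i) → f x = f y

/-- Linear combinations of functions, each ignoring at least `s` coordinates of `D`. -/
def Low (D : Finset ι) (s : ℕ) : Submodule ℝ ((ι → Ω) → ℝ) :=
  Submodule.span ℝ {f | ∃ T : Finset ι, T ⊆ D ∧ s ≤ T.card ∧ Indep f T}

/-- Two points agree outside `D`. -/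
def AgreeOff (D : Finset ι) (x y : ι → Ω) : Prop := ∀ i, i ∉ D → x i = y i

section

variable [DecidableEq Ω]

/-- The positions of `D` at which `x` shows the marker `m`. -/
def zset (D : Finset ι) (m x : ι → Ω) : Finset ι := D.filter fun i => x i = m i

/-- The positions of `C` at which `y` differs from `v`. -/
def diffSet (C : Finset ι) (v y : ι → Ω) : Finset ι := C.filter fun i => y i ≠ v i

end

end Vale.Agent.P047
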