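import Mathlib

/-!
# P047: a nonnegative polynomial partition of unity on `[-1,1]` concentrated at scale `1/D`.
-/

namespace Vale.Agent.P047

open Finset Real

/-- The squared Fejer kernel of order `m`. -/
private noncomputable def fejerSq (m : ℕ) (φ : ℝ) : ℝ :=
  ((∑ a : Fin m, cos ((a : ℕ) * φ)) ^ 2 + (∑ a : Fin m, sin ((a : ℕ) * φ)) ^ 2) ^ 2

private theorem fejerSq_nonneg (m : ℕ) (φ : ℝ) : 0 ≤ fejerSq m φ := sq_nonneg _

/-- Frequency of a quadruple. -/
private def quadFreq (m : ℕ) (x : (Fin m × Fin m) × (Fin m × Fin m)) : ℤ :=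
  (((x.1.1 : ℕ) : ℤ) + ((x.1.2 : ℕ) : ℤ)) - (((x.2.1 : ℕ) : ℤ) + ((x.2.2 : ℕ) : ℤ))

private theorem fejerSq_eq (m : ℕ) (φ : ℝ) :
    fejerSq m φ = ∑ x : (Fin m × Fin m) × (Fin m × Fin m), cos ((quadFreq m x : ℝ) * φ) := by
  set C := ∑ a : Fin m, cos ((a : ℕ) * φ) with hC
  set S := ∑ a : Fin m, sin ((a : ℕ) * φ) with hS
  set A : Fin m × Fin m → ℝ := fun y => (((y.1 : ℕ) : ℝ) + ((y.2 : ℕ) : ℝ)) * φ with hA
  have hP : ∑ y, cos (A y) = C * C - S * S := by
    simp only [hA, add_mul, cos_add, sum_sub_distrib, Fintype.sum_prod_type, ← sum_mul_sum]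
    rw [hC, hS]
  have hR : ∑ y, sin (A y) = S * C + C * S := by
    simp only [hA, add_mul, sin_add, sum_add_distrib, Fintype.sum_prod_type, ← sum_mul_sum]
    rw [hC, hS]
  have : ∑ x : (Fin m × Fin m) × (Fin m × Fin m), cos ((quadFreq m x : ℝ) * φ)
      = (∑ y, cos (A y)) * (∑ y, cos (A y)) + (∑ y, sin (A y)) * (∑ y, sin (A y)) := by
    rw [sum_mul_sum, sum_mul_sum, ← sum_add_distrib, Fintype.sum_prod_type]
    refine sum_congr rfl fun u _ => ?_
    rw [← sum_add_distrib]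
    refine sum_congr rfl fun v _ => ?_
    rw [← cos_sub]
    congr 1
    simp only [hA, quadFreq]
    push_cast
    ring
  rw [this, hP, hR, fejerSq, ← hC, ← hS]
  ring

private theorem fejer_mul_le (m : ℕ) (φ : ℝ) :
    ((∑ a : Fin m, cos ((a : ℕ) * φ)) ^ 2 + (∑ a : Fin m, sin ((a : ℕ) * φ)) ^ 2)
      * (4 * sin (φ / 2) ^ 2) ≤ 4 := by
  have hc : ∀ k : ℕ, 2 * sin (φ / 2) * ∑ a : Fin k, cos ((a : ℕ) * φ)
      = sin (((k : ℝ) - 1 / 2) * φ) + sin (φ / 2) := by
    intro k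
    induction k with
    | zero =>
      simp only [univ_eq_empty, sum_empty, mul_zero, Nat.cast_zero]
      rw [show (0 - 1 / 2 : ℝ) * φ = -(φ / 2) by ring, sin_neg, neg_add_cancel]
    | succ k ih =>
      rw [Fin.sum_univ_castSucc, mul_add]
      simp only [Fin.val_castSucc, Fin.val_last, Nat.cast_succ]
      rw [ih]
      have e : sin (((k : ℝ) + 1 - 1 / 2) * φ) - sin (((k : ℝ) - 1 / 2) * φ)
          = 2 * sin (φ / 2) * cos ((k : ℝ) * φ) := by
        rw [sin_sub_sin]; ring_nf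
      linarith
  have hs : ∀ k : ℕ, 2 * sin (φ / 2) * ∑ a : Fin k, sin ((a : ℕ) * φ)
      = cos (φ / 2) - cos (((k : ℝ) - 1 / 2) * φ) := by
    intro k
    induction k with
    | zero =>
      simp only [univ_eq_empty, sum_empty, mul_zero, Nat.cast_zero]
      rw [show (0 - 1 / 2 : ℝ) * φ = -(φ / 2) by ring, cos_neg, sub_self]
    | succ k ih =>
      rw [Fin.sum_univ_castSucc, mul_add]
      simp only [Fin.val_castSucc, Fin.val_last, Nat.cast_succ]
      rw [ih]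
      have e : cos (((k : ℝ) - 1 / 2) * φ) - cos (((k : ℝ) + 1 - 1 / 2) * φ)
          = 2 * sin (φ / 2) * sin ((k : ℝ) * φ) := by
        rw [cos_sub_cos, show (((k : ℝ) - 1 / 2) * φ - ((k : ℝ) + 1 - 1 / 2) * φ) / 2 = -(φ / 2) by ring,
          sin_neg]
        ring_nf
      linarith
  have e := sin_sq_add_cos_sq (φ / 2)
  have e' := sin_sq_add_cos_sq (((m : ℝ) - 1 / 2) * φ)
  calc _ = (2 * sin (φ / 2) * ∑ a : Fin m, cos ((a : ℕ) * φ)) ^ 2
        + (2 * sin (φ / 2) * ∑ a : Fin m, sin ((a : ℕ) * φ)) ^ 2 := by ring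
    _ = (sin (((m : ℝ) - 1 / 2) * φ) + sin (φ / 2)) ^ 2
        + (cos (φ / 2) - cos (((m : ℝ) - 1 / 2) * φ)) ^ 2 := by rw [hc, hs]
    _ ≤ 4 := by
        nlinarith [sq_nonneg (sin (((m : ℝ) - 1 / 2) * φ) - sin (φ / 2)),
          sq_nonneg (cos (((m : ℝ) - 1 / 2) * φ) + cos (φ / 2))]

/-- The grid. -/
private noncomputable def gridAngle (Q : ℕ) (j : Fin Q) : ℝ := 2 * π * (j : ℕ) / Q

private theorem sum_grid {Q : ℕ} (hQ : 0 < Q) (l : ℤ) (hl : |l| < (Q : ℤ)) (θ : ℝ) :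
    ∑ j : Fin Q, cos ((l : ℝ) * (θ + gridAngle Q j))
      = if l = 0 then (Q : ℝ) else 0 := by
  split_ifs with h
  · simp [h]
  set ζ := Complex.exp (2 * π * Complex.I / Q) with hζ
  have hp : IsPrimitiveRoot ζ Q := Complex.isPrimitiveRoot_exp Q hQ.ne'
  have hne : ζ ^ l ≠ 1 := fun e => h
    (Int.eq_zero_of_abs_lt_dvd ((hp.zpow_eq_one_iff_dvd l).1 e) hl)
  have hzero : ∑ j : Fin Q, (ζ ^ l) ^ (j : ℕ) = 0 := by
    rw [Fin.sum_univ_eq_sum_range (fun j => (ζ ^ l) ^ j), geom_sum_eq hne]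
    have : (ζ ^ l) ^ Q = 1 := by
      rw [← zpow_natCast, ← zpow_mul, mul_comm, zpow_mul, zpow_natCast, hp.pow_eq_one, one_zpow]
    rw [this, sub_self, zero_div]
  have key : ∀ j : Fin Q, Complex.exp ((((l : ℝ) * (θ + gridAngle Q j) : ℝ) : ℂ) * Complex.I)
      = Complex.exp (((l : ℝ) * θ : ℝ) * Complex.I) * (ζ ^ l) ^ (j : ℕ) := by
    intro j
    rw [hζ, ← Complex.exp_int_mul, ← Complex.exp_nat_mul, ← Complex.exp_add]
    congr 1
    unfold gridAngle
    push_cast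
    ring
  have := congrArg Complex.re (show ∑ j : Fin Q,
      Complex.exp ((((l : ℝ) * (θ + gridAngle Q j) : ℝ) : ℂ) * Complex.I) = 0 by
    simp only [key, ← mul_sum, hzero, mul_zero])
  simpa only [Complex.re_sum, Complex.exp_ofReal_mul_I_re, Complex.zero_re] using this

private theorem sum_grid_neg {Q : ℕ} (hQ : 0 < Q) (l : ℤ) (hl : |l| < (Q : ℤ)) (θ : ℝ) :
    ∑ j : Fin Q, cos ((l : ℝ) * (θ - gridAngle Q j))
      = if l = 0 then (Q : ℝ) else 0 := by
  have := sum_grid hQ (-l) (by simpa using hl) (-θ)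
  simp only [neg_eq_zero] at this
  rw [← this]
  refine sum_congr rfl fun j _ => ?_
  push_cast
  congr 1
  ring

theorem partition_unity (D : ℕ) (hD : 4 ≤ D) :
    ∃ (Q : ℕ) (c : Fin Q → ℝ) (q : Fin Q → Polynomial ℝ),
      (∀ j, (q j).natDegree ≤ D) ∧ (∀ j, -1 ≤ c j ∧ c j ≤ 1) ∧
      ∀ t : ℝ, -1 ≤ t → t ≤ 1 →
        (∀ j, 0 ≤ (q j).eval t) ∧ ∑ j, (q j).eval t = 1 ∧
        ∑ j, (q j).eval t * (t - c j) ^ 2 ≤ 1000 / (D : ℝ) ^ 2 := by
  set m := D / 2 + 1 with hm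
  set Q := 4 * m + 1 with hQ
  have hQ0 : 0 < Q := by omega
  set Z := univ.filter fun x : (Fin m × Fin m) × (Fin m × Fin m) => quadFreq m x = 0 with hZ
  -- the number of additive quadruples
  have hc0 : (m : ℝ) ^ 3 ≤ 2 * (Z.card : ℝ) := by
    set r := fun s : ℕ => (univ.filter fun y : Fin m × Fin m => (y.1 : ℕ) + (y.2 : ℕ) = s) with hr
    have h1 : (univ : Finset (Fin m × Fin m)).card = ∑ s ∈ range (2 * m), (r s).card :=
      card_eq_sum_card_fiberwise fun y _ => by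
        simp only [coe_range, Set.mem_Iio]; omega
    have h2 : Z.card = ∑ s ∈ range (2 * m), (r s).card * (r s).card := by
      rw [card_eq_sum_card_fiberwise (f := fun x => (x.1.1 : ℕ) + (x.1.2 : ℕ))
        (t := range (2 * m)) fun x _ => by simp only [coe_range, Set.mem_Iio]; omega]
      refine sum_congr rfl fun s _ => ?_
      rw [← card_product]
      congr 1
      ext x
      rw [mem_filter, hZ, mem_filter]
      simp only [hr, mem_filter, mem_univ, true_and, mem_product, quadFreq]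
      omega
    have h3 := sq_sum_le_card_mul_sum_sq (s := range (2 * m)) (f := fun s => ((r s).card : ℝ))
    simp only [card_range, sq, ← Nat.cast_mul, ← Nat.cast_sum, ← h1, ← h2, card_univ,
      Fintype.card_prod, Fintype.card_fin] at h3
    push_cast at h3
    have hm0 : (0 : ℝ) < m := by positivity
    nlinarith
  have hm1 : (1 : ℝ) ≤ m := by exact_mod_cast (by omega : 1 ≤ m)
  have hc0pos : (0 : ℝ) < Z.card := by
    have := one_le_pow₀ hm1 (n := 3)
    linarith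
  set c0 := (Z.card : ℝ) with hc0def
  have hl : ∀ x, |quadFreq m x| < (Q : ℤ) := fun x => by
    unfold quadFreq
    rw [abs_lt]
    omega
  refine ⟨Q, fun j => cos (gridAngle Q j), fun j =>
    ∑ x : (Fin m × Fin m) × (Fin m × Fin m),
      Polynomial.C (cos ((quadFreq m x : ℝ) * gridAngle Q j) / (Q * c0))
        * Polynomial.Chebyshev.T ℝ (quadFreq m x),
    fun j => ?_, fun j => ⟨neg_one_le_cos _, cos_le_one _⟩, fun t ht1 ht2 => ?_⟩
  · refine Polynomial.natDegree_sum_le_of_forall_le _ _ fun x _ => ?_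
    refine (Polynomial.natDegree_C_mul_le _ _).trans ?_
    rw [Polynomial.Chebyshev.natDegree_T]
    unfold quadFreq
    have := x.1.1.isLt; have := x.1.2.isLt; have := x.2.1.isLt; have := x.2.2.isLt
    omega
  set θ := arccos t with hθ
  have hcos : cos θ = t := cos_arccos ht1 ht2
  have hev : ∀ j : Fin Q,
      (∑ x : (Fin m × Fin m) × (Fin m × Fin m),
        Polynomial.C (cos ((quadFreq m x : ℝ) * gridAngle Q j) / (Q * c0))
          * Polynomial.Chebyshev.T ℝ (quadFreq m x)).eval t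
      = (fejerSq m (θ - gridAngle Q j) + fejerSq m (θ + gridAngle Q j)) / (2 * (Q * c0)) := by
    intro j
    rw [fejerSq_eq, fejerSq_eq, ← sum_add_distrib, sum_div, Polynomial.eval_finset_sum]
    refine sum_congr rfl fun x _ => ?_
    rw [Polynomial.eval_mul, Polynomial.eval_C, ← hcos, Polynomial.Chebyshev.T_real_cos,
      mul_sub, mul_add, cos_sub, cos_add]
    ring
  simp only [hev]
  have hQc : (0 : ℝ) < 2 * (Q * c0) := by positivity
  refine ⟨fun j => div_nonneg (add_nonneg (fejerSq_nonneg _ _) (fejerSq_nonneg _ _)) hQc.le, ?_, ?_⟩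
  · rw [← sum_div, div_eq_one_iff_eq hQc.ne', sum_add_distrib]
    simp only [fejerSq_eq]
    rw [sum_comm, sum_comm (γ := Fin Q)]
    simp only [sum_grid hQ0 _ (hl _), sum_grid_neg hQ0 _ (hl _)]
    rw [← sum_filter, ← hZ, sum_const, nsmul_eq_mul]
    ring
  · have hterm : ∀ φ ψ : ℝ, (∃ s : ℝ, cos θ - cos ψ = 2 * sin (φ / 2) * s ∧ |s| ≤ 1) →
        fejerSq m φ * (t - cos ψ) ^ 2
          ≤ 4 * ((∑ a : Fin m, cos ((a : ℕ) * φ)) ^ 2 + (∑ a : Fin m, sin ((a : ℕ) * φ)) ^ 2) := by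
      rintro φ ψ ⟨s, hs, hs1⟩
      have hle : (t - cos ψ) ^ 2 ≤ 4 * sin (φ / 2) ^ 2 := by
        rw [← hcos, hs, mul_pow, mul_pow]
        have h' : s ^ 2 ≤ 1 := (sq_le_one_iff_abs_le_one s).2 hs1
        nlinarith [sq_nonneg (sin (φ / 2))]
      refine (mul_le_mul_of_nonneg_left hle (fejerSq_nonneg _ _)).trans ?_
      unfold fejerSq
      have := fejer_mul_le m φ
      have hF : 0 ≤ (∑ a : Fin m, cos ((a : ℕ) * φ)) ^ 2 + (∑ a : Fin m, sin ((a : ℕ) * φ)) ^ 2 := by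
        positivity
      nlinarith
    have hsub : ∀ j : Fin Q, ∃ s : ℝ, cos θ - cos (gridAngle Q j)
        = 2 * sin ((θ - gridAngle Q j) / 2) * s ∧ |s| ≤ 1 := fun j =>
      ⟨-sin ((θ + gridAngle Q j) / 2), by rw [cos_sub_cos]; ring,
        by rw [abs_neg]; exact abs_sin_le_one _⟩
    have hadd : ∀ j : Fin Q, ∃ s : ℝ, cos θ - cos (gridAngle Q j)
        = 2 * sin ((θ + gridAngle Q j) / 2) * s ∧ |s| ≤ 1 := fun j =>
      ⟨-sin ((θ - gridAngle Q j) / 2), by rw [cos_sub_cos]; ring,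
        by rw [abs_neg]; exact abs_sin_le_one _⟩
    have hF : ∀ φ : ℝ, (∑ a : Fin m, cos ((a : ℕ) * φ)) ^ 2 + (∑ a : Fin m, sin ((a : ℕ) * φ)) ^ 2
        = ∑ a : Fin m, ∑ b : Fin m, cos ((((a : ℕ) : ℤ) - ((b : ℕ) : ℤ) : ℤ) * φ) := by
      intro φ
      rw [sq, sq, sum_mul_sum, sum_mul_sum, ← sum_add_distrib]
      refine sum_congr rfl fun a _ => ?_
      rw [← sum_add_distrib]
      refine sum_congr rfl fun b _ => ?_
      push_cast
      rw [sub_mul, cos_sub]
    have hsum : ∀ σ : Fin Q → ℝ,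
        (∀ l : ℤ, |l| < (Q : ℤ) → ∑ j, cos ((l : ℝ) * σ j) = if l = 0 then (Q : ℝ) else 0) →
        ∑ j, ((∑ a : Fin m, cos ((a : ℕ) * σ j)) ^ 2 + (∑ a : Fin m, sin ((a : ℕ) * σ j)) ^ 2)
          = Q * m := by
      intro σ hσ
      simp only [hF]
      rw [sum_comm]
      have hrow : ∀ a : Fin m,
          ∑ j, ∑ b : Fin m, cos ((((a : ℕ) : ℤ) - ((b : ℕ) : ℤ) : ℤ) * σ j) = (Q : ℝ) := by
        intro a
        rw [sum_comm, sum_eq_single a]
        · rw [hσ _ (by rw [abs_lt]; omega), if_pos (sub_self _)]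
        · intro b _ hb
          rw [hσ _ (by rw [abs_lt]; omega), if_neg]
          intro e
          exact hb (Fin.ext (by omega))
        · simp
      simp only [hrow, sum_const, card_univ, Fintype.card_fin, nsmul_eq_mul]
      ring
    calc ∑ j : Fin Q, (fejerSq m (θ - gridAngle Q j) + fejerSq m (θ + gridAngle Q j))
          / (2 * (Q * c0)) * (t - cos (gridAngle Q j)) ^ 2
        = (∑ j : Fin Q, (fejerSq m (θ - gridAngle Q j) * (t - cos (gridAngle Q j)) ^ 2
          + fejerSq m (θ + gridAngle Q j) * (t - cos (gridAngle Q j)) ^ 2)) / (2 * (Q * c0)) := by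
          rw [sum_div]; refine sum_congr rfl fun j _ => ?_; ring
      _ ≤ (4 * (Q * m) + 4 * (Q * m)) / (2 * (Q * c0)) := by
          refine div_le_div_of_nonneg_right ?_ hQc.le
          rw [sum_add_distrib]
          refine add_le_add ((sum_le_sum fun j _ => hterm _ _ (hsub j)).trans (le_of_eq ?_))
            ((sum_le_sum fun j _ => hterm _ _ (hadd j)).trans (le_of_eq ?_))
          · rw [← mul_sum, hsum _ fun l hl => sum_grid_neg hQ0 l hl θ]
          · rw [← mul_sum, hsum _ fun l hl => sum_grid hQ0 l hl θ]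
      _ ≤ 1000 / (D : ℝ) ^ 2 := by
          have hDm : (D : ℝ) ≤ 2 * m := by exact_mod_cast (by omega : D ≤ 2 * m)
          have hD0 : (0 : ℝ) < D := by exact_mod_cast (by omega : 0 < D)
          have hQR : (0 : ℝ) < Q := by exact_mod_cast hQ0
          rw [div_le_div_iff₀ hQc (pow_pos hD0 2)]
          have h1 : (D : ℝ) ^ 2 ≤ 4 * (m : ℝ) ^ 2 := by nlinarith
          have h2 : (Q : ℝ) * (m : ℝ) * (D : ℝ) ^ 2 ≤ 4 * ((Q : ℝ) * (m : ℝ) ^ 3) := by
            nlinarith [mul_le_mul_of_nonneg_left h1 (mul_nonneg hQR.le (Nat.cast_nonneg m))]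
          nlinarith [mul_le_mul_of_nonneg_left hc0 hQR.le]

end Vale.Agent.P047
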