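import Mathlib

/-! Fourier coefficients and Fourier degree of functions on the Boolean cube. -/

namespace Vale.Agent.P047

/-- The sign attached to a Boolean: `true ↦ 1`, `false ↦ -1`. -/
def sgn (b : Bool) : ℝ := if b then 1 else -1

/-- The Fourier coefficient `f̂(S) = E_x [f x * ∏ i ∈ S, x_i]` for the uniform distribution. -/
noncomputable def fourier {n : ℕ} (f : (Fin n → Bool) → ℝ) (S : Finset (Fin n)) : ℝ :=
  (∑ x, f x * ∏ i ∈ S, sgn (x i)) / 2 ^ n

open Classical in
/-- The Fourier degree: the largest `|S|` with `f̂(S) ≠ 0`. -/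
noncomputable def fdeg {n : ℕ} (f : (Fin n → Bool) → ℝ) : ℕ :=
  (Finset.univ.filter fun S => fourier f S ≠ 0).sup Finset.card

end Vale.Agent.P047
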