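import Vale.Agent.P047.Defs

namespace Vale.Agent.P047

variable {ι Ω : Type*}

theorem Indep.mono {f : (ι → Ω) → ℝ} {S T : Finset ι} (h : Indep f T) (hST : S ⊆ T) :
    Indep f S := fun x y hxy => h x y fun i hi => hxy i fun hS => hi (hST hS)

theorem indep_empty (f : (ι → Ω) → ℝ) : Indep f ∅ := fun x y h => by
  rw [funext fun i => h i (Finset.notMem_empty i)]

theorem mem_low {D T : Finset ι} {s : ℕ} {f : (ι → Ω) → ℝ} (hT : T ⊆ D) (hs : s ≤ T.card)
    (hf : Indep f T) : f ∈ Low D s := Submodule.subset_span ⟨T, hT, hs, hf⟩

theorem low_mono {D D' : Finset ι} {s s' : ℕ} (hD : D ⊆ D') (hs : s' ≤ s) :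
    Low (Ω := Ω) D s ≤ Low D' s' := by
  refine Submodule.span_mono ?_
  rintro f ⟨T, hT, hsT, hf⟩
  exact ⟨T, hT.trans hD, hs.trans hsT, hf⟩

theorem const_mem_low {D : Finset ι} {s : ℕ} (hs : s ≤ D.card) (c : ℝ) :
    (fun _ : ι → Ω => c) ∈ Low D s :=
  mem_low (Finset.Subset.refl D) hs fun _ _ _ => rfl

theorem mul_mem_low [DecidableEq ι] {D E : Finset ι} {s : ℕ} {f g : (ι → Ω) → ℝ}
    (hf : f ∈ Low D (s + E.card)) (hg : ∀ x y, (∀ i ∈ E, x i = y i) → g x = g y) :
    (fun x => g x * f x) ∈ Low D s := by
  have key : Low D (s + E.card) ≤ (Low D s).comap (LinearMap.mulLeft ℝ g) := by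
    refine Submodule.span_le.2 ?_
    rintro f ⟨T, hT, hsT, hf⟩
    show g * f ∈ Low D s
    refine mem_low (T := T \ E) (Finset.sdiff_subset.trans hT) ?_ ?_
    · have := Finset.le_card_sdiff E T
      omega
    · intro x y h
      show g x * f x = g y * f y
      rw [hg x y fun i hi => h i (by simp [hi]), hf x y fun i hi => h i (by simp [hi])]
  exact key hf

theorem mul_mem_low_of_disjoint {D : Finset ι} {s : ℕ} {f g : (ι → Ω) → ℝ}
    (hf : f ∈ Low D s) (hg : Indep g D) :
    (fun x => g x * f x) ∈ Low D s := by
  have key : Low D s ≤ (Low D s).comap (LinearMap.mulLeft ℝ g) := by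
    refine Submodule.span_le.2 ?_
    rintro f ⟨T, hT, hsT, hf⟩
    show g * f ∈ Low D s
    refine mem_low hT hsT fun x y h => ?_
    show g x * f x = g y * f y
    rw [(hg.mono hT) x y h, hf x y h]
  exact key hf

theorem indep_ite_agreeOff (D : Finset ι) (x : ι → Ω) [∀ y, Decidable (AgreeOff D x y)] :
    Indep (fun y => if AgreeOff D x y then (1 : ℝ) else 0) D := by
  intro a b h
  have : AgreeOff D x a ↔ AgreeOff D x b := by
    constructor <;> intro ha i hi
    · rw [← h i hi]; exact ha i hi
    · rw [h i hi]; exact ha i hi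
  simp only [this]

theorem comp_update_mem [DecidableEq ι] {D : Finset ι} {a : ι} {c : Ω} {s : ℕ}
    {f : (ι → Ω) → ℝ} (hf : f ∈ Low (insert a D) s) :
    (fun x => f (Function.update x a c)) ∈ Low D (s - 1) ∧
      (fun x => f x - f (Function.update x a c)) ∈ Low D s := by
  induction hf using Submodule.span_induction with
  | mem f hf =>
    obtain ⟨T, hT, hsT, hf⟩ := hf
    refine ⟨mem_low (T := T.erase a) ?_ ?_ ?_, ?_⟩
    · intro i hi
      obtain ⟨hia, hiT⟩ := Finset.mem_erase.1 hi
      exact Finset.mem_of_mem_insert_of_ne (hT hiT) hia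
    · have := Finset.pred_card_le_card_erase (a := a) (s := T)
      omega
    · intro x y h
      refine hf _ _ fun i hi => ?_
      by_cases hia : i = a
      · simp [hia]
      · simpa [hia] using h i (by simp [hi])
    · by_cases ha : a ∈ T
      · have : (fun x => f x - f (Function.update x a c)) = 0 := by
          funext x
          have : f x = f (Function.update x a c) := hf _ _ fun i hi => by
            rw [Function.update_of_ne (fun h : i = a => hi (h ▸ ha))]
          simp [this]
        rw [this]; exact Submodule.zero_mem _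
      · refine mem_low (T := T) ((Finset.subset_insert_iff_of_notMem ha).1 hT) hsT fun x y h => ?_
        have h1 := hf x y h
        have h2 : f (Function.update x a c) = f (Function.update y a c) := hf _ _ fun i hi => by
          by_cases hia : i = a
          · simp [hia]
          · simpa [hia] using h i hi
        simp [h1, h2]
  | zero =>
    refine ⟨Submodule.zero_mem _, ?_⟩
    convert Submodule.zero_mem (Low D s) using 1
    funext x
    simp
  | add f g _ _ hf hg =>
    refine ⟨Submodule.add_mem _ hf.1 hg.1, ?_⟩
    convert Submodule.add_mem _ hf.2 hg.2 using 1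
    funext x; simp; ring
  | smul r f _ hf =>
    refine ⟨Submodule.smul_mem _ r hf.1, ?_⟩
    convert Submodule.smul_mem _ r hf.2 using 1
    funext x; simp; ring

theorem low_empty {s : ℕ} (hs : 1 ≤ s) : Low (Ω := Ω) (∅ : Finset ι) s = ⊥ := by
  refine le_antisymm (Submodule.span_le.2 ?_) bot_le
  rintro f ⟨T, hT, hsT, -⟩
  simp [Finset.subset_empty.1 hT] at hsT
  omega

/-- A function of `Low D s` is determined by its values at points with at least `s` markers. -/
theorem low_eq_zero [DecidableEq ι] [DecidableEq Ω] (m : ι → Ω) :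
    ∀ (D : Finset ι) (s : ℕ) (f : (ι → Ω) → ℝ), f ∈ Low D s →
      (∀ x, s ≤ (zset D m x).card → f x = 0) → f = 0 := by
  intro D
  induction D using Finset.induction_on with
  | empty =>
    intro s f hf h
    rcases Nat.eq_zero_or_pos s with hs | hs
    · funext x; exact h x (by simp [hs])
    · simpa [low_empty hs] using hf
  | @insert a D ha ih =>
    intro s f hf h
    obtain ⟨h0, h1⟩ := comp_update_mem (c := m a) hf
    have hz : (fun x => f (Function.update x a (m a))) = 0 := by
      refine ih (s - 1) _ h0 fun x hx => h _ ?_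
      have : zset (insert a D) m (Function.update x a (m a)) = insert a (zset D m x) := by
        ext i
        by_cases hia : i = a
        · simp [zset, hia]
        · simp [zset, hia]
      rw [this, Finset.card_insert_of_notMem (by simp [zset, ha])]
      omega
    have hfe : (fun x => f x - f (Function.update x a (m a))) = f := by
      funext x
      simp [congrFun hz x]
    rw [hfe] at h1
    refine ih s f h1 fun x hx => h x (hx.trans (Finset.card_le_card ?_))
    exact Finset.filter_subset_filter _ (Finset.subset_insert a D)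

end Vale.Agent.P047
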