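import Vale.Agent.P047.Moments
import Vale.Agent.P047.Low

/-! The statement of one amplification stage. -/

namespace Vale.Agent.P047

/-- Normalized sum of the symbol values. -/
noncomputable def normSum {n M : ℕ} (X : Fin M → ℝ) (x : Fin n → Fin M) : ℝ :=
  (∑ i, X (x i)) / Real.sqrt n

/-- An amplification gadget: for every normalized symbol distribution some classifier whose class
indicators each ignore `s` of the `n` coordinates predicts the normalized sum up to mean square
error `κ`. -/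
def IsGadget (n s M : ℕ) (κ : ℝ) : Prop :=
  ∀ p X : Fin M → ℝ, (∀ a, 0 ≤ p a) → ∑ a, p a = 1 → ∑ a, p a * X a = 0 →
    ∑ a, p a * X a ^ 2 = 1 → ∑ a, p a * X a ^ 6 ≤ 30 →
    ∃ (F : (Fin n → Fin M) → Fin M) (Y : Fin M → ℝ),
      (∀ b, (fun x => if F x = b then (1 : ℝ) else 0) ∈ Low (Finset.univ : Finset (Fin n)) s) ∧
      ∑ x, pmu p x * (normSum X x - Y (F x)) ^ 2 ≤ κ

/-- Numerical requirements under which iterating a gadget beats the square root. -/
def GadgetParams (n s M : ℕ) (κ : ℝ) : Prop :=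
  2 ≤ M ∧ 0 < s ∧ s + 2 ≤ n ∧ 0 ≤ κ ∧ ((n : ℝ) - s) < (n : ℝ) * (1 - κ) ∧
    15 + 100000 / (n : ℝ) ≤ 30 * (1 - κ) ^ 3

end Vale.Agent.P047
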