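import Vale.Agent.P047.Gadget
import Vale.Agent.P047.Fourier

/-!
# P047: iterating a gadget gives linear Fourier weight above a power `> 1/2` of the degree.
-/

namespace Vale.Agent.P047

open Finset

/-- Linear combinations of functions of at most `d` coordinates. -/
private def DegLe (N d : ℕ) : Submodule ℝ ((Fin N → Bool) → ℝ) :=
  Submodule.span ℝ {g | ∃ U : Finset (Fin N), U.card ≤ d ∧
    ∀ x y : Fin N → Bool, (∀ i ∈ U, x i = y i) → g x = g y}

private theorem mem_degLe {N d : ℕ} {g : (Fin N → Bool) → ℝ} (U : Finset (Fin N))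
    (hU : U.card ≤ d) (hg : ∀ x y : Fin N → Bool, (∀ i ∈ U, x i = y i) → g x = g y) :
    g ∈ DegLe N d :=
  Submodule.subset_span ⟨U, hU, hg⟩

private theorem degLe_mono {N d e : ℕ} (hde : d ≤ e) {g : (Fin N → Bool) → ℝ}
    (hg : g ∈ DegLe N d) : g ∈ DegLe N e := by
  refine Submodule.span_mono ?_ hg
  rintro g ⟨U, hU, h⟩
  exact ⟨U, hU.trans hde, h⟩

private theorem degLe_mul {N d e : ℕ} {f g : (Fin N → Bool) → ℝ} (hf : f ∈ DegLe N d)
    (hg : g ∈ DegLe N e) : f * g ∈ DegLe N (d + e) := by
  induction hf using Submodule.span_induction with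
  | mem f hf =>
    obtain ⟨U, hU, hfu⟩ := hf
    induction hg using Submodule.span_induction with
    | mem g hg =>
      obtain ⟨V, hV, hgv⟩ := hg
      refine mem_degLe (U ∪ V) ((card_union_le _ _).trans (Nat.add_le_add hU hV)) fun x y h => ?_
      simp only [Pi.mul_apply]
      rw [hfu x y fun i hi => h i (mem_union_left _ hi),
        hgv x y fun i hi => h i (mem_union_right _ hi)]
    | zero => rw [mul_zero]; exact Submodule.zero_mem _
    | add a b _ _ ha hb => rw [mul_add]; exact Submodule.add_mem _ ha hb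
    | smul r a _ ha => rw [mul_smul_comm]; exact Submodule.smul_mem _ r ha
  | zero => rw [zero_mul]; exact Submodule.zero_mem _
  | add a b _ _ ha hb => rw [add_mul]; exact Submodule.add_mem _ ha hb
  | smul r a _ ha => rw [smul_mul_assoc]; exact Submodule.smul_mem _ r ha

private theorem fdeg_le_of_degLe {N d : ℕ} {g : (Fin N → Bool) → ℝ} (hg : g ∈ DegLe N d) :
    fdeg g ≤ d := by
  classical
  have key : ∀ S : Finset (Fin N), d < S.card → ∑ x, g x * ∏ i ∈ S, sgn (x i) = 0 := by
    intro S hS
    induction hg using Submodule.span_induction with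
    | mem f hf =>
      obtain ⟨U, hU, hfu⟩ := hf
      obtain ⟨i, hiS, hiU⟩ : ∃ i ∈ S, i ∉ U := by
        by_contra hc
        push Not at hc
        have := card_le_card hc
        omega
      have hinv : Function.Involutive (fun x : Fin N → Bool => Function.update x i (!x i)) := by
        intro x
        funext k
        rcases eq_or_ne k i with rfl | hk
        · simp
        · simp [hk]
      have hflip : ∀ x : Fin N → Bool,
          f (Function.update x i (!x i)) * ∏ k ∈ S, sgn (Function.update x i (!x i) k)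
            = -(f x * ∏ k ∈ S, sgn (x k)) := by
        intro x
        rw [hfu (Function.update x i (!x i)) x fun k hk =>
          Function.update_of_ne (fun (e : k = i) => hiU (by rw [← e]; exact hk)) _ _]
        rw [← mul_prod_erase S _ hiS, ← mul_prod_erase S _ hiS,
          prod_congr rfl (s₂ := S.erase i) (fun k hk => by
            rw [Function.update_of_ne (ne_of_mem_erase hk)])]
        have : sgn (!x i) = -sgn (x i) := by cases x i <;> simp [sgn]
        simp only [Function.update_self, this]
        ring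
      have h2 : ∑ x : Fin N → Bool, f x * ∏ k ∈ S, sgn (x k)
          = -∑ x : Fin N → Bool, f x * ∏ k ∈ S, sgn (x k) := by
        rw [← sum_neg_distrib]
        exact (Fintype.sum_equiv hinv.toPerm _ _ fun x => by
          simp only [Function.Involutive.coe_toPerm]; rw [hflip]).symm
      linarith
    | zero => simp
    | add a b _ _ ha hb =>
      simp only [Pi.add_apply, add_mul, sum_add_distrib, ha, hb, add_zero]
    | smul r a _ ha => simp only [Pi.smul_apply, smul_eq_mul, mul_assoc, ← mul_sum, ha, mul_zero]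
  unfold fdeg
  refine Finset.sup_le fun S hS => ?_
  by_contra hlt
  push Not at hlt
  simp only [mem_filter, mem_univ, true_and] at hS
  exact hS (by rw [fourier, key S hlt, zero_div])

/-- The sum of the signs. -/
private noncomputable def signSum {N : ℕ} (x : Fin N → Bool) : ℝ := ∑ i, sgn (x i)

private theorem sum_signSum (N : ℕ) : ∑ x : Fin N → Bool, signSum x = 0 := by
  have hinv : Function.Involutive (fun (x : Fin N → Bool) i => !x i) := fun x => by simp
  have : ∑ x : Fin N → Bool, signSum x = -∑ x : Fin N → Bool, signSum x := by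
    rw [← sum_neg_distrib]
    exact (Fintype.sum_equiv hinv.toPerm _ _ fun x => by
      simp only [Function.Involutive.coe_toPerm, signSum, ← sum_neg_distrib]
      exact sum_congr rfl fun i _ => by cases x i <;> simp [sgn]).symm
  linarith

/-- Indicator of a class. -/
private def classInd {N M : ℕ} (κc : (Fin N → Bool) → Fin M) (b : Fin M) :
    (Fin N → Bool) → ℝ := fun x => if κc x = b then 1 else 0

/-- Class probability. -/
private noncomputable def classProb {N M : ℕ} (κc : (Fin N → Bool) → Fin M) (b : Fin M) : ℝ :=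
  (∑ x, classInd κc b x) / 2 ^ N

/-- Class mean of the sign sum. -/
private noncomputable def classMean {N M : ℕ} (κc : (Fin N → Bool) → Fin M) (b : Fin M) : ℝ :=
  (∑ x, classInd κc b x * signSum x) / ∑ x, classInd κc b x

private theorem classInd_nonneg {N M : ℕ} (κc : (Fin N → Bool) → Fin M) (b : Fin M)
    (x : Fin N → Bool) : 0 ≤ classInd κc b x := by
  unfold classInd; split_ifs <;> norm_num

private theorem classProb_nonneg {N M : ℕ} (κc : (Fin N → Bool) → Fin M) (b : Fin M) :
    0 ≤ classProb κc b :=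
  div_nonneg (sum_nonneg fun x _ => classInd_nonneg κc b x) (by positivity)

private theorem sum_classProb {N M : ℕ} (κc : (Fin N → Bool) → Fin M) :
    ∑ b, classProb κc b = 1 := by
  unfold classProb
  rw [← sum_div, sum_comm]
  simp [classInd]

private theorem count_mul_classMean {N M : ℕ} (κc : (Fin N → Bool) → Fin M) (b : Fin M) :
    (∑ x, classInd κc b x) * classMean κc b = ∑ x, classInd κc b x * signSum x := by
  unfold classMean
  rcases eq_or_ne (∑ x, classInd κc b x) 0 with h | h
  · have h0 : ∀ x, classInd κc b x = 0 := fun x =>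
      (sum_eq_zero_iff_of_nonneg fun y _ => classInd_nonneg κc b y).1 h x (mem_univ x)
    simp [h0]
  · field_simp

private theorem sum_prob_mul_mean {N M : ℕ} (κc : (Fin N → Bool) → Fin M) :
    ∑ b, classProb κc b * classMean κc b = 0 := by
  have : ∀ b, classProb κc b * classMean κc b
      = (∑ x, classInd κc b x * signSum x) / 2 ^ N := fun b => by
    rw [classProb, div_mul_eq_mul_div, count_mul_classMean]
  simp only [this, ← sum_div]
  rw [sum_comm]
  simp [classInd, sum_signSum]

/-- A classifier of degree `d` whose class means have mean square at least `V₀`. -/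
private def Stage (M N d : ℕ) (V₀ : ℝ) : Prop :=
  ∃ κc : (Fin N → Bool) → Fin M, (∀ b, classInd κc b ∈ DegLe N d) ∧
    V₀ ≤ ∑ b, classProb κc b * classMean κc b ^ 2 ∧
    ∑ b, classProb κc b * classMean κc b ^ 6
      ≤ 30 * (∑ b, classProb κc b * classMean κc b ^ 2) ^ 3

private theorem stage_zero {M : ℕ} (hM : 2 ≤ M) : Stage M 1 1 1 := by
  let b0 : Fin M := ⟨0, by omega⟩
  let b1 : Fin M := ⟨1, by omega⟩
  have hne : b0 ≠ b1 := by simp [b0, b1, Fin.ext_iff]
  refine ⟨fun x => if x 0 then b1 else b0, fun b => mem_degLe univ (by simp) fun x y h => by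
    simp [classInd, h 0 (mem_univ _)], ?_, ?_⟩
  all_goals
    have hsum : ∀ φ : (Fin 1 → Bool) → ℝ,
        ∑ x, φ x = φ (fun _ => true) + φ (fun _ => false) := fun φ => by
      rw [← (Equiv.funUnique (Fin 1) Bool).symm.sum_comp]
      simp [Equiv.funUnique]
      rfl
    have key : ∀ k, ∑ b, classProb (fun x : Fin 1 → Bool => if x 0 then b1 else b0) b
        * classMean (fun x : Fin 1 → Bool => if x 0 then b1 else b0) b ^ k
        = (1 / 2) * 1 ^ k + (1 / 2) * (-1) ^ k := by
      intro k
      rw [← sum_subset (subset_univ {b1, b0}) (fun b _ hb => ?_), sum_pair hne.symm]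
      · simp [classProb, classMean, classInd, signSum, hsum, sgn, hne, hne.symm]
      · simp only [mem_insert, mem_singleton, not_or] at hb
        simp [classProb, classInd, hsum, Ne.symm hb.1, Ne.symm hb.2]
  · rw [key]; norm_num
  · rw [key, key]; norm_num

/-- The block decomposition of the cube. -/
private def blockEquiv (n N : ℕ) : (Fin (n * N) → Bool) ≃ (Fin n → Fin N → Bool) :=
  (finProdFinEquiv.symm.arrowCongr (Equiv.refl Bool)).trans (Equiv.curry (Fin n) (Fin N) Bool)

private theorem blockEquiv_apply {n N : ℕ} (x : Fin (n * N) → Bool) (i : Fin n) (k : Fin N) :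
    blockEquiv n N x i k = x (finProdFinEquiv (i, k)) := rfl

private theorem signSum_blocks {n N : ℕ} (x : Fin (n * N) → Bool) :
    signSum x = ∑ i, signSum (blockEquiv n N x i) := by
  unfold signSum
  rw [← finProdFinEquiv.sum_comp, Fintype.sum_prod_type]
  rfl

private theorem comp_degLe {n N M d : ℕ} (κc : (Fin N → Bool) → Fin M)
    (hκ : ∀ b, classInd κc b ∈ DegLe N d) (U : Finset (Fin n)) :
    ∀ h : (Fin n → Fin M) → ℝ,
      (∀ a a', (∀ i ∈ U, a i = a' i) → h a = h a') →
      (fun x => h fun i => κc (blockEquiv n N x i)) ∈ DegLe (n * N) (U.card * d) := by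
  induction U using Finset.induction_on with
  | empty =>
    intro h hh
    exact mem_degLe ∅ (by simp) fun x y _ => hh _ _ (by simp)
  | insert a U ha ih =>
    intro h hh
    have e : (fun x => h fun i => κc (blockEquiv n N x i))
        = ∑ b, (fun x => classInd κc b (blockEquiv n N x a))
            * (fun x => (fun c => h (Function.update c a b)) fun i => κc (blockEquiv n N x i)) := by
      funext x
      simp only [Finset.sum_apply, Pi.mul_apply, classInd, ite_mul, one_mul, zero_mul, sum_ite_eq,
        mem_univ, if_true]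
      rw [Function.update_eq_self a (fun i => κc (blockEquiv n N x i))]
    rw [e, card_insert_of_notMem ha, Nat.succ_mul, Nat.add_comm]
    refine Submodule.sum_mem _ fun b _ => degLe_mul ?_
      (ih (fun c => h (Function.update c a b)) fun c c' hc => hh _ _ fun i hi => ?_)
    · have hb := hκ b
      have : ∀ g ∈ DegLe N d, (fun x => g (blockEquiv n N x a)) ∈ DegLe (n * N) d := by
        intro g hg
        induction hg using Submodule.span_induction with
        | mem g hg =>
          obtain ⟨V, hV, hgv⟩ := hg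
          refine mem_degLe (V.image fun k => finProdFinEquiv (a, k))
            (card_image_le.trans hV) fun x y h' => hgv _ _ fun k hk => ?_
          rw [blockEquiv_apply, blockEquiv_apply]
          exact h' _ (mem_image_of_mem _ hk)
        | zero => exact Submodule.zero_mem _
        | add f g _ _ hf hg => exact Submodule.add_mem _ hf hg
        | smul r f _ hf => exact Submodule.smul_mem _ r hf
      exact this _ hb
    · rcases eq_or_ne i a with rfl | hia
      · simp
      · simp only [Function.update_of_ne hia]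
        exact hc i ((mem_insert.1 hi).resolve_left hia)

private theorem low_comp_degLe {n N M d s : ℕ} (κc : (Fin N → Bool) → Fin M)
    (hκ : ∀ b, classInd κc b ∈ DegLe N d) {h : (Fin n → Fin M) → ℝ}
    (hh : h ∈ Low (univ : Finset (Fin n)) s) :
    (fun x => h fun i => κc (blockEquiv n N x i)) ∈ DegLe (n * N) ((n - s) * d) := by
  classical
  induction hh using Submodule.span_induction with
  | mem f hf =>
    obtain ⟨T, -, hT, hfT⟩ := hf
    refine degLe_mono (Nat.mul_le_mul_right d ?_) (comp_degLe κc hκ Tᶜ f fun a a' h' => hfT a a'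
      fun i hi => h' i (mem_compl.2 hi))
    rw [card_compl, Fintype.card_fin]
    omega
  | zero => exact Submodule.zero_mem _
  | add f g _ _ hf hg => exact Submodule.add_mem _ hf hg
  | smul r f _ hf => exact Submodule.smul_mem _ r hf

private theorem law_lemma {n N M : ℕ} (κc : (Fin N → Bool) → Fin M) (G : (Fin n → Fin M) → ℝ) :
    (∑ x : Fin (n * N) → Bool, G (fun i => κc (blockEquiv n N x i))
        = 2 ^ (n * N) * ∑ a, pmu (classProb κc) a * G a) ∧
    (∑ x : Fin (n * N) → Bool, G (fun i => κc (blockEquiv n N x i)) * signSum x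
        = 2 ^ (n * N) * ∑ a, pmu (classProb κc) a * G a * ∑ i, classMean κc (a i)) := by
  classical
  have h2 : (2 : ℝ) ^ (n * N) = ∏ _i : Fin n, (2 : ℝ) ^ N := by
    simp [← pow_mul, mul_comm n N]
  have cnt : ∀ a : Fin n → Fin M,
      2 ^ (n * N) * pmu (classProb κc) a = ∏ i, ∑ x, classInd κc (a i) x := fun a => by
    rw [h2, pmu, ← prod_mul_distrib]
    refine prod_congr rfl fun i _ => ?_
    unfold classProb
    field_simp
  have fib : ∀ φ : Fin n → (Fin N → Bool) → ℝ,
      ∑ z : Fin n → Fin N → Bool, G (fun i => κc (z i)) * ∏ i, φ i (z i)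
        = ∑ a, G a * ∏ i, ∑ x, classInd κc (a i) x * φ i x := by
    intro φ
    simp only [Fintype.prod_sum, mul_sum]
    rw [sum_comm]
    refine sum_congr rfl fun z _ => ?_
    rw [sum_eq_single (fun i => κc (z i))]
    · congr 1
      exact prod_congr rfl fun i _ => by simp [classInd]
    · intro a _ ha
      obtain ⟨i, hi⟩ := Function.ne_iff.1 ha
      rw [prod_eq_zero (mem_univ i), mul_zero]
      simp [classInd, Ne.symm hi]
    · simp
  constructor
  · rw [← (blockEquiv n N).symm.sum_comp]
    simp only [Equiv.apply_symm_apply]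
    have := fib fun _ _ => 1
    simp only [prod_const_one, mul_one] at this
    rw [this, mul_sum]
    refine sum_congr rfl fun a _ => ?_
    rw [← cnt]
    ring
  · rw [← (blockEquiv n N).symm.sum_comp]
    simp only [Equiv.apply_symm_apply, signSum_blocks, mul_sum]
    rw [sum_comm (f := fun (z : Fin n → Fin N → Bool) (i : Fin n) =>
      G (fun i => κc (z i)) * signSum (z i)),
      sum_comm (f := fun (a : Fin n → Fin M) (i : Fin n) =>
      2 ^ (n * N) * (pmu (classProb κc) a * G a * classMean κc (a i)))]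
    refine sum_congr rfl fun i _ => ?_
    have := fib fun k x => if k = i then signSum x else 1
    simp only [prod_ite_eq', mem_univ, if_true] at this
    rw [this]
    refine sum_congr rfl fun a _ => ?_
    have e : ∏ k, ∑ x, classInd κc (a k) x * (if k = i then signSum x else 1)
        = (∏ k, ∑ x, classInd κc (a k) x) * classMean κc (a i) := by
      rw [← mul_prod_erase univ _ (mem_univ i), ← mul_prod_erase univ _ (mem_univ i),
        mul_right_comm, count_mul_classMean]
      congr 1
      · simp
      · exact prod_congr rfl fun k hk => by simp [ne_of_mem_erase hk]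
    rw [e, ← cnt]
    ring

private theorem stage_succ {n s M N d : ℕ} {κ : ℝ} (hp : GadgetParams n s M κ)
    (hg : IsGadget n s M κ) {V₀ : ℝ} (hV₀ : 0 < V₀) (h : Stage M N d V₀) :
    Stage M (n * N) ((n - s) * d) ((n : ℝ) * (1 - κ) * V₀) := by
  classical
  obtain ⟨hM, hs0, hsn, hκ0, hgap, hsix⟩ := hp
  obtain ⟨κc, hdeg, hV, hM6⟩ := h
  have hn : (0 : ℝ) < n := by exact_mod_cast (by omega : 0 < n)
  have hκ1 : 0 < 1 - κ := by
    by_contra hc
    push Not at hc
    have : (1 - κ) ^ 3 ≤ 0 := by nlinarith [sq_nonneg (1 - κ)]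
    have : (0 : ℝ) ≤ 100000 / n := by positivity
    linarith
  set p := classProb κc with hpdef
  set m := classMean κc with hmdef
  set V := ∑ b, p b * m b ^ 2 with hVdef
  have hVpos : 0 < V := lt_of_lt_of_le hV₀ hV
  set X : Fin M → ℝ := fun b => m b / Real.sqrt V with hX
  have hsV : Real.sqrt V ^ 2 = V := Real.sq_sqrt hVpos.le
  have hX1 : ∑ b, p b * X b = 0 := by
    simp only [hX, ← mul_div_assoc, ← sum_div]
    rw [sum_prob_mul_mean κc, zero_div]
  have hX2 : ∑ b, p b * X b ^ 2 = 1 := by
    simp only [hX, div_pow, hsV, ← mul_div_assoc, ← sum_div]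
    exact div_self hVpos.ne'
  have hX6 : ∑ b, p b * X b ^ 6 ≤ 30 := by
    have e : Real.sqrt V ^ 6 = V ^ 3 := by
      rw [show (6 : ℕ) = 2 * 3 by norm_num, pow_mul, hsV]
    simp only [hX, div_pow, e, ← mul_div_assoc, ← sum_div]
    rw [div_le_iff₀ (by positivity)]
    exact hM6
  obtain ⟨F, Y, hF, herr⟩ := hg p X (classProb_nonneg κc) (sum_classProb κc) hX1 hX2 hX6
  refine ⟨fun x => F fun i => κc (blockEquiv n N x i), fun b => ?_, ?_⟩
  · exact low_comp_degLe κc hdeg (hF b)
  set κ' : (Fin (n * N) → Bool) → Fin M := fun x => F fun i => κc (blockEquiv n N x i) with hκ'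
  set w : Fin M → (Fin n → Fin M) → ℝ := fun b a => if F a = b then pmu p a else 0 with hw
  have hpmu : ∀ a : Fin n → Fin M, 0 ≤ pmu p a := fun a => prod_nonneg fun i _ => classProb_nonneg κc _
  have hw0 : ∀ b a, 0 ≤ w b a := fun b a => by simp only [hw]; split_ifs <;> simp [hpmu]
  have hwsum : ∀ φ : (Fin n → Fin M) → ℝ, ∀ b,
      ∑ a, w b a * φ a = ∑ a, pmu p a * (if F a = b then φ a else 0) := fun φ b => by
    simp only [hw, ite_mul, zero_mul, mul_ite, mul_zero]
  have hcount : ∀ b, ∑ x, classInd κ' b x = 2 ^ (n * N) * ∑ a, w b a := by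
    intro b
    exact ((law_lemma κc fun a => if F a = b then 1 else 0).1).trans (by
      congr 1
      exact sum_congr rfl fun a _ => by simp only [hw, hpdef]; split_ifs <;> simp)
  have hp' : ∀ b, classProb κ' b = ∑ a, w b a := fun b => by
    rw [classProb, hcount]; field_simp
  set c := Real.sqrt n * Real.sqrt V with hc
  have hcpos : 0 < c := by positivity
  set S : Fin M → ℝ := fun b => ∑ a, w b a * normSum X a with hS
  have hm' : ∀ b, classMean κ' b = c * (S b / ∑ a, w b a) := by
    intro b
    have hnum : ∑ x, classInd κ' b x * signSum x = 2 ^ (n * N) * (c * S b) := by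
      refine ((law_lemma κc fun a => if F a = b then 1 else 0).2).trans ?_
      congr 1
      rw [hS, mul_sum]
      refine sum_congr rfl fun a _ => ?_
      have : c * normSum X a = ∑ i, m (a i) := by
        simp only [normSum, hX, hc, ← sum_div]
        have := Real.sqrt_pos.2 hn
        have := Real.sqrt_pos.2 hVpos
        field_simp
      simp only [hw]
      split_ifs <;> simp [← this, mul_left_comm, ← hmdef, ← hpdef]
    rw [classMean, hnum, hcount, mul_div_mul_left _ _ (by positivity), mul_div_assoc]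
  set Q : ℕ → ℝ := fun k => ∑ b, (∑ a, w b a) * (S b / ∑ a, w b a) ^ k with hQ
  have hmom : ∀ k, ∑ b, classProb κ' b * classMean κ' b ^ k = c ^ k * Q k := fun k => by
    simp only [hQ, mul_sum, hp', hm', mul_pow]
    exact sum_congr rfl fun b _ => by ring
  have hNS2 : ∑ a : Fin n → Fin M, pmu p a * normSum X a ^ 2 = 1 := by
    simp only [normSum, div_pow, Real.sq_sqrt hn.le, ← mul_div_assoc, ← sum_div]
    rw [pmu_sum_sq (sum_classProb κc) X, hX1, hX2, Fintype.card_fin]
    field_simp
    ring
  have hsplit : ∀ φ : (Fin n → Fin M) → ℝ, ∑ b, ∑ a, w b a * φ a = ∑ a, pmu p a * φ a := fun φ => by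
    simp only [hwsum]
    rw [sum_comm]
    simp [← mul_sum]
  have hQ2 : 1 - κ ≤ Q 2 := by
    have hb : ∀ b, ∑ a, w b a * normSum X a ^ 2 - ∑ a, w b a * (normSum X a - Y (F a)) ^ 2
        ≤ (∑ a, w b a) * (S b / ∑ a, w b a) ^ 2 := by
      intro b
      have e : ∑ a, w b a * (normSum X a - Y (F a)) ^ 2
          = ∑ a, w b a * normSum X a ^ 2 - 2 * Y b * S b + Y b ^ 2 * ∑ a, w b a := by
        rw [hS, mul_sum, mul_sum, ← sum_sub_distrib, ← sum_add_distrib]
        refine sum_congr rfl fun a _ => ?_
        simp only [hw]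
        split_ifs with h
        · rw [h]; ring
        · ring
      rw [e]
      rcases eq_or_ne (∑ a, w b a) 0 with h0 | h0
      · have hS0 : S b = 0 := sum_eq_zero fun a _ => by
          rw [(sum_eq_zero_iff_of_nonneg fun a _ => hw0 b a).1 h0 a (mem_univ a), zero_mul]
        simp [h0, hS0]
      · have hpos : 0 < ∑ a, w b a := lt_of_le_of_ne (sum_nonneg fun a _ => hw0 b a) h0.symm
        rw [div_pow, ← mul_div_assoc, pow_two (∑ a, w b a), mul_div_mul_left _ _ h0,
          le_div_iff₀ hpos]
        nlinarith [sq_nonneg (Y b * (∑ a, w b a) - S b)]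
    have := sum_le_sum (s := (univ : Finset (Fin M))) fun b _ => hb b
    rw [sum_sub_distrib, hsplit, hsplit, hNS2] at this
    simp only [hQ]
    linarith
  have hQ6 : Q 6 ≤ 15 + 100000 / (n : ℝ) := by
    have hb : ∀ b, (∑ a, w b a) * (S b / ∑ a, w b a) ^ 6 ≤ ∑ a, w b a * normSum X a ^ 6 := by
      intro b
      rcases eq_or_ne (∑ a, w b a) 0 with h0 | h0
      · rw [h0, zero_mul]
        exact sum_nonneg fun a _ => mul_nonneg (hw0 b a) ((show Even 6 by decide).pow_nonneg _)
      · have hpos : 0 < ∑ a, w b a := lt_of_le_of_ne (sum_nonneg fun a _ => hw0 b a) h0.symm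
        have hconv := ((show Even 6 by decide).convexOn_pow (𝕜 := ℝ)).map_sum_le
          (t := univ) (w := fun a => w b a / ∑ a, w b a) (p := fun a => normSum X a)
          (fun a _ => div_nonneg (hw0 b a) hpos.le) (by rw [← sum_div, div_self h0])
          (fun a _ => Set.mem_univ _)
        simp only [smul_eq_mul, div_mul_eq_mul_div, ← sum_div] at hconv
        rw [le_div_iff₀ hpos] at hconv
        rw [mul_comm]
        exact hconv
    calc Q 6 ≤ ∑ b, ∑ a, w b a * normSum X a ^ 6 := sum_le_sum fun b _ => hb b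
      _ = ∑ a, pmu p a * normSum X a ^ 6 := hsplit _
      _ ≤ 15 + 100000 / (n : ℝ) := by
          have e : Real.sqrt n ^ 6 = (n : ℝ) ^ 3 := by
            rw [show (6 : ℕ) = 2 * 3 by norm_num, pow_mul, Real.sq_sqrt hn.le]
          simp only [normSum, div_pow, e, ← mul_div_assoc, ← sum_div]
          rw [div_le_iff₀ (by positivity)]
          have := pmu_sixth (ι := Fin n) (classProb_nonneg κc) (sum_classProb κc) hX1 hX2 hX6
          rw [Fintype.card_fin] at this
          refine this.trans (le_of_eq ?_)
          field_simp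
  have hc2 : c ^ 2 = n * V := by rw [hc, mul_pow, Real.sq_sqrt hn.le, hsV]
  rw [hmom, hmom, hc2]
  refine ⟨?_, ?_⟩
  · calc (n : ℝ) * (1 - κ) * V₀ ≤ (n : ℝ) * (1 - κ) * V := by gcongr
      _ = (n : ℝ) * V * (1 - κ) := by ring
      _ ≤ _ := by gcongr
  · rw [show c ^ 6 = ((n : ℝ) * V) ^ 3 by rw [← hc2]; ring, mul_pow _ (Q 2)]
    calc ((n : ℝ) * V) ^ 3 * Q 6 ≤ ((n : ℝ) * V) ^ 3 * (30 * Q 2 ^ 3) := by
          refine mul_le_mul_of_nonneg_left (hQ6.trans (hsix.trans ?_)) (by positivity)
          gcongr
      _ = _ := by ring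

theorem iterate {n s M : ℕ} {κ : ℝ} (hp : GadgetParams n s M κ) (hg : IsGadget n s M κ) :
    ∃ c : ℝ, 0 < c ∧ ∀ C : ℝ, ∃ (N : ℕ) (f : (Fin N → Bool) → ℝ),
      (∀ x, f x = 1 ∨ f x = -1) ∧ C * (fdeg f : ℝ) ^ (1/2 + c) < ∑ i, fourier f {i} := by
  classical
  obtain ⟨hM, hs0, hsn, hκ0, hgap, hsix⟩ := hp
  set A := (n : ℝ) * (1 - κ) with hA
  set B := ((n - s : ℕ) : ℝ) with hB
  have hB2 : (2 : ℝ) ≤ B := by rw [hB]; exact_mod_cast (by omega : 2 ≤ n - s)
  have hAB : B < A := by rw [hB, Nat.cast_sub (by omega)]; exact hgap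
  have hA0 : 0 < A := by linarith
  have hlB : 0 < Real.log B := Real.log_pos (by linarith)
  have hlAB : Real.log B < Real.log A := Real.log_lt_log (by linarith) hAB
  set c := (Real.log A - Real.log B) / (4 * Real.log B) with hc
  have hc0 : 0 < c := div_pos (by linarith) (by positivity)
  refine ⟨c, hc0, fun C => ?_⟩
  set r := Real.sqrt A / B ^ (1 / 2 + c) with hr
  have hBp : 0 < B ^ (1 / 2 + c) := Real.rpow_pos_of_pos (by linarith) _
  have hr1 : 1 < r := by
    rw [hr, one_lt_div hBp, ← Real.log_lt_log_iff hBp (Real.sqrt_pos.2 hA0),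
      Real.log_rpow (by linarith), Real.log_sqrt hA0.le]
    have : c * Real.log B = (Real.log A - Real.log B) / 4 := by rw [hc]; field_simp
    linarith
  obtain ⟨j, hj⟩ := pow_unbounded_of_one_lt (6 * |C| + 1) hr1
  have hstage : ∀ j : ℕ, Stage M (n ^ j) ((n - s) ^ j) (A ^ j) := by
    intro j
    induction j with
    | zero => simpa using stage_zero hM
    | succ j ih =>
      rw [pow_succ', pow_succ', pow_succ']
      exact stage_succ ⟨hM, hs0, hsn, hκ0, hgap, hsix⟩ hg (pow_pos hA0 j) ih
  obtain ⟨κc, hdeg, hV, hM6⟩ := hstage j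
  set m := classMean κc with hm
  set p := classProb κc with hpdef
  set f : (Fin (n ^ j) → Bool) → ℝ := fun x => if 0 ≤ m (κc x) then 1 else -1 with hf
  refine ⟨n ^ j, f, fun x => by simp only [hf]; split_ifs <;> simp, ?_⟩
  have hfd : (fdeg f : ℝ) ≤ B ^ j := by
    have : f ∈ DegLe (n ^ j) ((n - s) ^ j) := by
      have e : f = ∑ b, (if 0 ≤ m b then (1 : ℝ) else -1) • classInd κc b := by
        funext x
        simp only [hf, Finset.sum_apply, Pi.smul_apply, smul_eq_mul, classInd, mul_ite, mul_one,
          mul_zero, sum_ite_eq, mem_univ, if_true]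
      rw [e]
      exact Submodule.sum_mem _ fun b _ => Submodule.smul_mem _ _ (hdeg b)
    calc (fdeg f : ℝ) ≤ (((n - s) ^ j : ℕ) : ℝ) := Nat.cast_le.2 (fdeg_le_of_degLe this)
      _ = B ^ j := by rw [hB]; push_cast; rfl
  have hlin : ∑ i, fourier f {i} = ∑ b, p b * |m b| := by
    simp only [fourier, prod_singleton, ← sum_div]
    rw [sum_comm]
    simp only [← mul_sum]
    have e : ∀ x, f x * (∑ i, sgn (x i))
        = ∑ b, (if 0 ≤ m b then (1 : ℝ) else -1) * (classInd κc b x * signSum x) := fun x => by
      simp [classInd, hf, signSum]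
    rw [sum_congr rfl fun x _ => e x, sum_comm, sum_div]
    refine sum_congr rfl fun b _ => ?_
    rw [← mul_sum, ← count_mul_classMean, ← hm, hpdef, classProb]
    split_ifs with h
    · rw [abs_of_nonneg h]; ring
    · rw [abs_of_neg (lt_of_not_ge h)]; ring
  set V := ∑ b, p b * m b ^ 2 with hVdef
  have hVpos : 0 < V := lt_of_lt_of_le (pow_pos hA0 j) hV
  have hsV : 0 < Real.sqrt V := Real.sqrt_pos.2 hVpos
  have hlow : Real.sqrt V / 6 ≤ ∑ b, p b * |m b| := by
    have hpt : ∀ b, p b * m b ^ 2 ≤
        3 * Real.sqrt V * (p b * |m b|) + p b * m b ^ 6 / (81 * Real.sqrt V ^ 4) := by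
      intro b
      rw [mul_left_comm, mul_div_assoc, ← mul_add]
      refine mul_le_mul_of_nonneg_left ?_ (classProb_nonneg κc b)
      have habs : m b ^ 2 = |m b| ^ 2 := (sq_abs _).symm
      have h6' : 0 ≤ m b ^ 6 / (81 * Real.sqrt V ^ 4) :=
        div_nonneg ((show Even 6 by decide).pow_nonneg _) (by positivity)
      rcases le_total |m b| (3 * Real.sqrt V) with hle | hle
      · have := mul_le_mul_of_nonneg_right hle (abs_nonneg (m b))
        rw [habs, sq]
        linarith
      · refine le_trans ?_ (le_add_of_nonneg_left (by positivity))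
        rw [le_div_iff₀ (by positivity)]
        have h4 := pow_le_pow_left₀ (by positivity) hle 4
        calc m b ^ 2 * (81 * Real.sqrt V ^ 4) = m b ^ 2 * (3 * Real.sqrt V) ^ 4 := by ring
          _ ≤ m b ^ 2 * |m b| ^ 4 := mul_le_mul_of_nonneg_left h4 (sq_nonneg _)
          _ = m b ^ 6 := by rw [(show Even 4 by decide).pow_abs]; ring
    have hsum := sum_le_sum (s := (univ : Finset (Fin M))) fun b _ => hpt b
    rw [sum_add_distrib, ← mul_sum, ← sum_div] at hsum
    have h4 : Real.sqrt V ^ 4 = V ^ 2 := by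
      rw [show (4 : ℕ) = 2 * 2 by norm_num, pow_mul, Real.sq_sqrt hVpos.le]
    have h6 : (∑ b, p b * m b ^ 6) / (81 * Real.sqrt V ^ 4) ≤ 30 / 81 * V := by
      rw [h4, div_le_iff₀ (by positivity)]
      refine hM6.trans (le_of_eq ?_)
      ring
    have hVs : Real.sqrt V * Real.sqrt V = V := Real.mul_self_sqrt hVpos.le
    refine le_of_mul_le_mul_left (a := 3 * Real.sqrt V) ?_ (by positivity)
    calc 3 * Real.sqrt V * (Real.sqrt V / 6) = V / 2 := by linear_combination (1 / 2) * hVs
      _ ≤ _ := by linarith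
  rw [hlin]
  refine lt_of_lt_of_le ?_ hlow
  have hexp : (0 : ℝ) ≤ 1 / 2 + c := by linarith
  have hB0 : (0 : ℝ) ≤ B := by linarith
  have h1 : C * (fdeg f : ℝ) ^ (1 / 2 + c) ≤ |C| * (B ^ (1 / 2 + c)) ^ j := by
    refine (mul_le_mul_of_nonneg_right (le_abs_self C) (by positivity)).trans ?_
    refine mul_le_mul_of_nonneg_left ?_ (abs_nonneg C)
    rw [Real.rpow_pow_comm hB0]
    exact Real.rpow_le_rpow (Nat.cast_nonneg _) hfd hexp
  have h2 : Real.sqrt A ^ j ≤ Real.sqrt V := by
    have : (Real.sqrt A ^ j) ^ 2 ≤ V := by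
      rw [← pow_mul, mul_comm j 2, pow_mul, Real.sq_sqrt hA0.le]; exact hV
    exact Real.le_sqrt_of_sq_le this
  have h3 : (6 * |C| + 1) * (B ^ (1 / 2 + c)) ^ j < Real.sqrt A ^ j := by
    rw [hr, div_pow, lt_div_iff₀ (pow_pos hBp j)] at hj
    exact hj
  have : 0 < (B ^ (1 / 2 + c)) ^ j := pow_pos hBp j
  linarith

end Vale.Agent.P047
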