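import Vale.Agent.P047.Low

/-! The spreading kernel and the rounding columns. -/

namespace Vale.Agent.P047

variable {ι Ω : Type*} [Fintype ι] [DecidableEq ι] [Fintype Ω] [DecidableEq Ω]

instance (D : Finset ι) (x y : ι → Ω) : Decidable (AgreeOff D x y) := by
  unfold AgreeOff; infer_instance

/-- Equality indicator in one coordinate. -/
def dlt (x t : ι → Ω) (i : ι) : ℝ := if t i = x i then 1 else 0

/-- The kernel of the projection to the high-degree part on the coordinates `B`. -/
noncomputable def piK (B : Finset ι) (s : ℕ) (x t : ι → Ω) : ℝ :=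
  ∑ U ∈ B.powerset.filter (fun U => U.card < s),
    (∏ _i ∈ U, (Fintype.card Ω : ℝ)⁻¹) * ∏ i ∈ B \ U, (dlt x t i - (Fintype.card Ω : ℝ)⁻¹)

/-- The column attached to the point `x`. -/
noncomputable def colK (B S : Finset ι) (s : ℕ) (x t : ι → Ω) : ℝ :=
  (if AgreeOff B x t then ((∏ i ∈ B, dlt x t i) - piK B s x t) else 0)
    + if AgreeOff (S ∪ B) x t then piK B s x t else 0

omit [Fintype ι] in
theorem piK_congr (B : Finset ι) (s : ℕ) (x : ι → Ω) {t u : ι → Ω}
    (h : ∀ i ∈ B, t i = u i) : piK B s x t = piK B s x u := by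
  unfold piK
  refine Finset.sum_congr rfl fun U _ => congrArg _ (Finset.prod_congr rfl fun i hi => ?_)
  simp [dlt, h i (Finset.mem_sdiff.1 hi).1]

omit [Fintype ι] in
theorem delta_sub_piK_mem (B : Finset ι) (s : ℕ) (x : ι → Ω) :
    (fun t => (∏ i ∈ B, dlt x t i) - piK B s x t) ∈ Low B s := by
  have h : (fun t => (∏ i ∈ B, dlt x t i) - piK B s x t)
      = ∑ U ∈ B.powerset.filter (fun U => ¬ U.card < s), fun t =>
        (∏ _i ∈ U, (Fintype.card Ω : ℝ)⁻¹)
          * ∏ i ∈ B \ U, (dlt x t i - (Fintype.card Ω : ℝ)⁻¹) := by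
    funext t
    rw [Finset.sum_apply, sub_eq_iff_eq_add', piK, Finset.sum_filter_add_sum_filter_not,
      ← Finset.prod_add]
    exact Finset.prod_congr rfl fun i _ => by ring
  rw [h]
  refine Submodule.sum_mem _ fun U hU => ?_
  obtain ⟨hUB, hUs⟩ := Finset.mem_filter.1 hU
  refine mem_low (Finset.mem_powerset.1 hUB) (not_lt.1 hUs) fun t u htu => ?_
  refine congrArg _ (Finset.prod_congr rfl fun i hi => ?_)
  simp [dlt, htu i (Finset.mem_sdiff.1 hi).2]

theorem colK_mem (A B S : Finset ι) (s : ℕ) (x : ι → Ω) (hSA : S ⊆ A) (hs : s ≤ S.card)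
    (hdis : Disjoint A B) : colK B S s x ∈ Low (A ∪ B) s := by
  refine Submodule.add_mem (Low (A ∪ B) s) (x := fun t : ι → Ω =>
      if AgreeOff B x t then ((∏ i ∈ B, dlt x t i) - piK B s x t) else 0)
    (y := fun t => if AgreeOff (S ∪ B) x t then piK B s x t else 0) ?_ ?_
  · have := mul_mem_low_of_disjoint (delta_sub_piK_mem B s x)
      (indep_ite_agreeOff B x)
    refine low_mono Finset.subset_union_right le_rfl ?_
    convert this using 1
    funext t
    split <;> simp
  · refine mem_low (T := S) (hSA.trans Finset.subset_union_left) hs fun t u htu => ?_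
    have h2 := indep_ite_agreeOff (S ∪ B) x t u fun i hi =>
      htu i fun h => hi (Finset.mem_union_left _ h)
    have h3 : piK B s x t = piK B s x u := piK_congr B s x fun i hi =>
      htu i fun h => Finset.disjoint_left.1 hdis (hSA h) hi
    by_cases h : AgreeOff (S ∪ B) x t <;> by_cases h' : AgreeOff (S ∪ B) x u <;>
      simp [h, h'] at h2 ⊢
    exact h3

theorem prod_dlt_eq_one (B : Finset ι) (x : ι → Ω) : ∏ i ∈ B, dlt x x i = 1 :=
  Finset.prod_eq_one fun i _ => by simp [dlt]

theorem colK_self (B S : Finset ι) (s : ℕ) (x : ι → Ω) : colK B S s x x = 1 := by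
  simp [colK, AgreeOff, prod_dlt_eq_one]

theorem colK_support {B S : Finset ι} {s : ℕ} {x t : ι → Ω} (hne : colK B S s x t ≠ 0)
    (htx : t ≠ x) : AgreeOff (S ∪ B) x t ∧ ¬ AgreeOff B x t := by
  by_cases hB : AgreeOff B x t
  · have hSB : AgreeOff (S ∪ B) x t := fun i hi => hB i fun h => hi (Finset.mem_union_right _ h)
    exfalso
    have : ∏ i ∈ B, dlt x t i = 0 := by
      obtain ⟨i, hi⟩ := Function.ne_iff.1 htx
      refine Finset.prod_eq_zero (i := i) ?_ (by simp [dlt, hi])
      by_contra hiB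
      exact hi (hB i hiB).symm
    simp [colK, hB, hSB, this] at hne
  · exact ⟨by by_contra h; simp [colK, hB, h] at hne, hB⟩

theorem colK_eq_zero_or {B S : Finset ι} {s : ℕ} {x t : ι → Ω} (htx : t ≠ x) :
    colK B S s x t = 0 ∨ (colK B S s x t = piK B s x t ∧ AgreeOff (S ∪ B) x t) := by
  by_cases h : colK B S s x t = 0
  · exact Or.inl h
  · obtain ⟨h1, h2⟩ := colK_support h htx
    exact Or.inr ⟨by simp [colK, h1, h2], h1⟩

theorem zset_card_lt {A B S : Finset ι} {s : ℕ} {m x t : ι → Ω} (hdis : Disjoint A B)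
    (hS : S ⊆ zset A m x) (hne : colK B S s x t ≠ 0) (htx : t ≠ x) :
    (zset A m t).card < (zset A m x).card := by
  obtain ⟨h1, h2⟩ := colK_support hne htx
  have hsub : zset A m t ⊆ zset A m x := fun i hi => by
    obtain ⟨hiA, hit⟩ := Finset.mem_filter.1 hi
    by_cases hiS : i ∈ S
    · exact hS hiS
    · refine Finset.mem_filter.2 ⟨hiA, ?_⟩
      rw [h1 i (by simp [hiS, Finset.disjoint_left.1 hdis hiA]), hit]
  refine Finset.card_lt_card ((Finset.ssubset_iff_of_subset hsub).2 ?_)
  simp only [AgreeOff, not_forall] at h2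
  obtain ⟨i, hiB, hi⟩ := h2
  have hiS : i ∈ S := by
    by_contra h
    exact hi (h1 i (by simp [h, hiB]))
  refine ⟨i, hS hiS, fun h => hi ?_⟩
  rw [(Finset.mem_filter.1 (hS hiS)).2, (Finset.mem_filter.1 h).2]

omit [Fintype ι] in
theorem card_filter_powerset_lt (B : Finset ι) (s : ℕ) :
    (B.powerset.filter fun U => U.card < s).card ≤ s * (B.card + 1) ^ s := by
  calc (B.powerset.filter fun U => U.card < s).card
      ≤ ((Finset.range s).biUnion fun j => B.powersetCard j).card := by
        refine Finset.card_le_card fun U hU => ?_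
        obtain ⟨h1, h2⟩ := Finset.mem_filter.1 hU
        exact Finset.mem_biUnion.2
          ⟨U.card, by simpa using h2, Finset.mem_powersetCard.2 ⟨Finset.mem_powerset.1 h1, rfl⟩⟩
    _ ≤ ∑ j ∈ Finset.range s, (B.powersetCard j).card := Finset.card_biUnion_le
    _ ≤ ∑ _j ∈ Finset.range s, (B.card + 1) ^ s := by
        refine Finset.sum_le_sum fun j hj => ?_
        rw [Finset.card_powersetCard]
        exact (Nat.choose_le_pow _ _).trans ((Nat.pow_le_pow_left (Nat.le_succ _) _).trans
          (Nat.pow_le_pow_right (Nat.succ_pos _) (Finset.mem_range.1 hj).le))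
    _ = _ := by simp

theorem sum_piK_sq_le [Nonempty Ω] (B : Finset ι) (s : ℕ) (a t : ι → Ω) :
    ∑ x ∈ Finset.univ.filter (fun x => AgreeOff B x a), piK B s x t ^ 2
      ≤ ((s * (B.card + 1) ^ s : ℕ) : ℝ) ^ 2 * (1 - (Fintype.card Ω : ℝ)⁻¹) ^ (B.card - s) := by
  set M : ℝ := (Fintype.card Ω : ℝ) with hM
  have hM1 : (1 : ℝ) ≤ M := by
    rw [hM]; exact_mod_cast (Fintype.card_pos : 0 < Fintype.card Ω)
  have hinv : M⁻¹ ≤ 1 := inv_le_one_of_one_le₀ hM1
  have hinv0 : 0 ≤ M⁻¹ := by positivity
  set Us := B.powerset.filter fun U => U.card < s with hUs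
  set g : Finset ι → ι → Ω → ℝ := fun U i o =>
    if i ∈ U then (M⁻¹) ^ 2 else if i ∈ B then ((if t i = o then 1 else 0) - M⁻¹) ^ 2 else 1
    with hg
  have hprod : ∀ U ∈ Us, ∀ x : ι → Ω,
      ((∏ _i ∈ U, M⁻¹) * ∏ i ∈ B \ U, (dlt x t i - M⁻¹)) ^ 2 = ∏ i, g U i (x i) := by
    intro U hU x
    have hUB := Finset.mem_powerset.1 (Finset.mem_filter.1 hU).1
    rw [mul_pow, ← Finset.prod_pow, ← Finset.prod_pow, ← Finset.prod_mul_prod_compl B,
      show ∏ i ∈ Bᶜ, g U i (x i) = 1 from Finset.prod_eq_one fun i hi => by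
        have hiB : i ∉ B := Finset.mem_compl.1 hi
        simp [g, hiB, show i ∉ U from fun h => hiB (hUB h)],
      mul_one, ← Finset.prod_sdiff hUB, mul_comm]
    congr 1
    · exact Finset.prod_congr rfl fun i hi => by
        obtain ⟨h1, h2⟩ := Finset.mem_sdiff.1 hi
        simp [g, h1, h2, dlt]
    · exact Finset.prod_congr rfl fun i hi => by simp [g, hi]
  have hbox : Finset.univ.filter (fun x => AgreeOff B x a)
      = Fintype.piFinset (fun i => if i ∈ B then Finset.univ else {a i}) := by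
    ext x
    rw [Finset.mem_filter, Fintype.mem_piFinset]
    constructor
    · intro h i
      by_cases hi : i ∈ B
      · simp [hi]
      · simp [hi, h.2 i hi]
    · intro h
      exact ⟨Finset.mem_univ x, fun i hi => by simpa [hi] using h i⟩
  have hU : ∀ U ∈ Us, ∑ x ∈ Finset.univ.filter (fun x => AgreeOff B x a), ∏ i, g U i (x i)
      ≤ (1 - M⁻¹) ^ (B.card - s) := by
    intro U hU
    obtain ⟨hUB', hUcard⟩ := Finset.mem_filter.1 hU
    have hUB := Finset.mem_powerset.1 hUB'
    rw [hbox, ← Finset.prod_univ_sum]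
    have h1 : ∀ i, (∑ o ∈ (if i ∈ B then Finset.univ else ({a i} : Finset Ω)), g U i o)
        ≤ if i ∈ B \ U then 1 - M⁻¹ else 1 := by
      intro i
      by_cases hiU : i ∈ U
      · have hsum : (∑ _o : Ω, (M⁻¹) ^ 2) = M⁻¹ := by
          simp [← hM]; field_simp
        simp [g, hiU, hUB hiU]
        rw [hM] at hsum
        simpa [Finset.sum_const, nsmul_eq_mul, inv_pow] using hsum.le.trans hinv
      · by_cases hiB : i ∈ B
        · simp only [g, hiU, hiB, if_false, if_true, Finset.mem_sdiff, not_false_iff, and_self]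
          have : ∀ o, ((if t i = o then (1 : ℝ) else 0) - M⁻¹) ^ 2
              = (if t i = o then 1 - 2 * M⁻¹ else 0) + (M⁻¹) ^ 2 := fun o => by
            split <;> ring
          simp only [this, Finset.sum_add_distrib, Finset.sum_ite_eq, Finset.mem_univ, if_true,
            Finset.sum_const, Finset.card_univ, nsmul_eq_mul, ← hM]
          rw [show M * M⁻¹ ^ 2 = M⁻¹ by field_simp]
          linarith
        · simp [g, hiU, hiB]
    calc ∏ i, _ ≤ ∏ i, (if i ∈ B \ U then 1 - M⁻¹ else 1) :=
          Finset.prod_le_prod (fun i _ => Finset.sum_nonneg fun o _ => by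
            simp only [g]; split_ifs <;> positivity) fun i _ => h1 i
      _ = (1 - M⁻¹) ^ (B \ U).card := by
          rw [Finset.prod_ite_mem, Finset.univ_inter, Finset.prod_const]
      _ ≤ _ := pow_le_pow_of_le_one (by linarith) (by linarith) (by
          rw [Finset.card_sdiff_of_subset hUB]; omega)
  have hc : (Us.card : ℝ) ≤ ((s * (B.card + 1) ^ s : ℕ) : ℝ) := by
    exact_mod_cast card_filter_powerset_lt B s
  have hp0 : 0 ≤ (1 - M⁻¹) ^ (B.card - s) := pow_nonneg (by linarith) _
  calc ∑ x ∈ Finset.univ.filter (fun x => AgreeOff B x a), piK B s x t ^ 2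
      ≤ ∑ x ∈ Finset.univ.filter (fun x => AgreeOff B x a),
          (Us.card : ℝ) * ∑ U ∈ Us, ∏ i, g U i (x i) := by
        refine Finset.sum_le_sum fun x _ => ?_
        unfold piK
        refine (sq_sum_le_card_mul_sum_sq (s := Us)
          (f := fun U => (∏ _i ∈ U, M⁻¹) * ∏ i ∈ B \ U, (dlt x t i - M⁻¹))).trans_eq ?_
        rw [Finset.sum_congr rfl fun U hU' => hprod U hU' x]
    _ = (Us.card : ℝ) * ∑ U ∈ Us,
          ∑ x ∈ Finset.univ.filter (fun x => AgreeOff B x a), ∏ i, g U i (x i) := by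
        rw [← Finset.mul_sum, Finset.sum_comm]
    _ ≤ (Us.card : ℝ) * ((Us.card : ℝ) * (1 - M⁻¹) ^ (B.card - s)) := by
        refine mul_le_mul_of_nonneg_left ((Finset.sum_le_sum hU).trans_eq ?_) (by positivity)
        simp
    _ ≤ _ := by rw [← mul_assoc, ← sq]; gcongr

theorem var_bound [Nonempty Ω] (A B : Finset ι) (s : ℕ) (m : (ι → Ω) → ι → Ω)
    (H : Finset (ι → Ω)) (S : (ι → Ω) → Finset ι) (hdis : Disjoint A B)
    (hm : ∀ x y, AgreeOff (A ∪ B) x y → m x = m y)
    (hS : ∀ x ∈ H, S x ⊆ zset A (m x) x ∧ (S x).card = s) (t : ι → Ω) :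
    ∑ x ∈ H.erase t, colK B (S x) s x t ^ 2
      ≤ ((A.card.choose s : ℕ) : ℝ) * (((s * (B.card + 1) ^ s : ℕ) : ℝ) ^ 2
          * (1 - (Fintype.card Ω : ℝ)⁻¹) ^ (B.card - s)) := by
  classical
  set a : Finset ι → ι → Ω := fun T => T.piecewise (m t) t with ha
  calc ∑ x ∈ H.erase t, colK B (S x) s x t ^ 2
      ≤ ∑ x ∈ H.erase t, ∑ T ∈ A.powersetCard s,
          if AgreeOff B x (a T) then piK B s x t ^ 2 else 0 := by
        refine Finset.sum_le_sum fun x hx => ?_
        obtain ⟨hxt, hxH⟩ := Finset.mem_erase.1 hx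
        have hnn : ∀ T ∈ A.powersetCard s,
            (0 : ℝ) ≤ if AgreeOff B x (a T) then piK B s x t ^ 2 else 0 := fun T _ => by
          split <;> positivity
        rcases colK_eq_zero_or (B := B) (S := S x) (s := s) (Ne.symm hxt) with h | ⟨h, hag⟩
        · rw [h]; simpa using Finset.sum_nonneg hnn
        · obtain ⟨hsub, hcard⟩ := hS x hxH
          have hSA : S x ⊆ A := hsub.trans (Finset.filter_subset _ _)
          refine le_trans ?_ (Finset.single_le_sum hnn
            (Finset.mem_powersetCard.2 ⟨hSA, hcard⟩))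
          have : AgreeOff B x (a (S x)) := fun i hi => by
            by_cases hiS : i ∈ S x
            · rw [ha]
              simp only [Finset.piecewise, hiS, if_true]
              rw [(Finset.mem_filter.1 (hsub hiS)).2, hm x t fun j hj => hag j fun h' =>
                hj (by rcases Finset.mem_union.1 h' with h' | h'
                       · exact Finset.mem_union_left _ (hSA h')
                       · exact Finset.mem_union_right _ h')]
            · simp only [ha, Finset.piecewise, hiS, if_false]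
              exact hag i (by simp [hiS, hi])
          rw [if_pos this, h]
    _ ≤ ∑ T ∈ A.powersetCard s, ∑ x ∈ Finset.univ.filter (fun x => AgreeOff B x (a T)),
          piK B s x t ^ 2 := by
        rw [Finset.sum_comm]
        refine Finset.sum_le_sum fun T _ => ?_
        rw [Finset.sum_filter]
        exact Finset.sum_le_sum_of_subset_of_nonneg (Finset.subset_univ _) fun x _ _ => by
          split <;> positivity
    _ ≤ ∑ _T ∈ A.powersetCard s, ((s * (B.card + 1) ^ s : ℕ) : ℝ) ^ 2
          * (1 - (Fintype.card Ω : ℝ)⁻¹) ^ (B.card - s) :=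
        Finset.sum_le_sum fun T _ => sum_piK_sq_le B s (a T) t
    _ = _ := by simp

end Vale.Agent.P047
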