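import Vale.Agent.P047.Gadget
import Vale.Agent.P047.Fejer

/-! The fractional predictor of one stage and its mean square loss. -/

namespace Vale.Agent.P047

open Polynomial

/-- Truncation to `[-L, L]`. -/
noncomputable def clip (L v : ℝ) : ℝ := max (-L) (min v L)

theorem abs_clip_le {L : ℝ} (hL : 0 ≤ L) (v : ℝ) : |clip L v| ≤ L :=
  abs_le.2 ⟨le_max_left _ _, max_le (by linarith) (min_le_right _ _)⟩

theorem abs_clip_sub_clip (L v v' : ℝ) : |clip L v - clip L v'| ≤ |v - v'| := by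
  refine le_trans (abs_max_sub_max_le_max _ _ _ _) (max_le (by simp) ?_)
  exact le_trans (abs_min_sub_min_le_max _ _ _ _) (max_le le_rfl (by simp))

theorem sub_clip_cases {L : ℝ} (hL : 0 ≤ L) (v : ℝ) :
    v - clip L v = 0 ∨ L ≤ |v| ∧ |v - clip L v| ≤ |v| := by
  rcases le_total v (-L) with h | h
  · right
    have : clip L v = -L := by rw [clip, min_eq_left (by linarith), max_eq_left h]
    rw [this, abs_of_nonpos (show v ≤ 0 by linarith), abs_of_nonpos (by linarith)]
    constructor <;> linarith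
  · rcases le_total v L with h' | h'
    · left
      rw [clip, min_eq_left h', max_eq_right h, sub_self]
    · right
      have : clip L v = L := by rw [clip, min_eq_right h', max_eq_right (by linarith)]
      rw [this, abs_of_nonneg (show 0 ≤ v by linarith), abs_of_nonneg (by linarith)]
      constructor <;> linarith

theorem sub_clip_sq_le {L : ℝ} (hL : 0 < L) (v : ℝ) : (v - clip L v) ^ 2 ≤ v ^ 6 / L ^ 4 := by
  rcases sub_clip_cases hL.le v with h | ⟨h1, h2⟩
  · rw [h, le_div_iff₀ (by positivity)]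
    simpa using (by positivity : (0 : ℝ) ≤ v ^ 6)
  · rw [le_div_iff₀ (by positivity), ← sq_abs (v - clip L v), ← Even.pow_abs ⟨3, rfl⟩ v,
      show |v| ^ 6 = |v| ^ 2 * |v| ^ 4 by ring]
    exact mul_le_mul (pow_le_pow_left₀ (abs_nonneg _) h2 2) (pow_le_pow_left₀ hL.le h1 4)
      (by positivity) (by positivity)

theorem abs_sub_clip_le {L : ℝ} (hL : 0 < L) (v : ℝ) : |v - clip L v| ≤ v ^ 6 / L ^ 5 := by
  rcases sub_clip_cases hL.le v with h | ⟨h1, h2⟩
  · rw [h, abs_zero]; positivity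
  · rw [le_div_iff₀ (by positivity), ← Even.pow_abs ⟨3, rfl⟩ v,
      show |v| ^ 6 = |v| * |v| ^ 5 by ring]
    exact mul_le_mul h2 (pow_le_pow_left₀ hL.le h1 5) (by positivity) (abs_nonneg _)

theorem sq_le_sq_add_sixth {T : ℝ} (hT : 0 < T) (v : ℝ) : v ^ 2 ≤ T ^ 2 + v ^ 6 / T ^ 4 := by
  rcases le_total (v ^ 2) (T ^ 2) with h | h
  · have : (0 : ℝ) ≤ v ^ 6 / T ^ 4 := by positivity
    linarith
  · have h1 : v ^ 2 ≤ v ^ 6 / T ^ 4 := by
      rw [le_div_iff₀ (by positivity), show v ^ 6 = v ^ 2 * (v ^ 2) ^ 2 by ring,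
        show T ^ 4 = (T ^ 2) ^ 2 by ring]
      exact mul_le_mul_of_nonneg_left (pow_le_pow_left₀ (sq_nonneg _) h 2) (sq_nonneg _)
    nlinarith [sq_nonneg T]

section moments

variable {n M : ℕ} {p X : Fin M → ℝ}

theorem pmu_nonneg' (hp : ∀ a, 0 ≤ p a) (x : Fin n → Fin M) : 0 ≤ pmu p x :=
  Finset.prod_nonneg fun i _ => hp (x i)

theorem normSum_sq (hn : 0 < n) (hs : ∑ a, p a = 1) (h1 : ∑ a, p a * X a = 0)
    (h2 : ∑ a, p a * X a ^ 2 = 1) :
    ∑ x : Fin n → Fin M, pmu p x * normSum X x ^ 2 = 1 := by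
  have hn' : (0 : ℝ) < n := by exact_mod_cast hn
  simp only [normSum, div_pow, Real.sq_sqrt hn'.le, ← mul_div_assoc, ← Finset.sum_div]
  rw [pmu_sum_sq hs X, h1, h2]
  simp [hn'.ne']

theorem normSum_sixth (hn : 0 < n) (hp : ∀ a, 0 ≤ p a) (hs : ∑ a, p a = 1)
    (h1 : ∑ a, p a * X a = 0) (h2 : ∑ a, p a * X a ^ 2 = 1) (h6 : ∑ a, p a * X a ^ 6 ≤ 30) :
    ∑ x : Fin n → Fin M, pmu p x * normSum X x ^ 6 ≤ 15 + 100000 / (n : ℝ) := by
  have hn' : (0 : ℝ) < n := by exact_mod_cast hn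
  have h : Real.sqrt n ^ 6 = (n : ℝ) ^ 3 := by
    rw [show Real.sqrt n ^ 6 = (Real.sqrt n ^ 2) ^ 3 by ring, Real.sq_sqrt hn'.le]
  simp only [normSum, div_pow, h, ← mul_div_assoc, ← Finset.sum_div]
  rw [div_le_iff₀ (by positivity)]
  have := pmu_sixth (ι := Fin n) hp hs h1 h2 h6
  simp only [Fintype.card_fin] at this
  refine this.trans (le_of_eq ?_)
  field_simp

/-- The truncation error of the sum is small in mean square. -/
theorem normSum_clip (hn : 0 < n) (hp : ∀ a, 0 ≤ p a) (hs : ∑ a, p a = 1)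
    (h6 : ∑ a, p a * X a ^ 6 ≤ 30) {L : ℝ} (hL : 0 < L) :
    ∑ x : Fin n → Fin M, pmu p x * (normSum X x - normSum (fun a => clip L (X a)) x) ^ 2
      ≤ 30 / L ^ 4 + 900 * n / L ^ 10 := by
  have hn' : (0 : ℝ) < n := by exact_mod_cast hn
  have e : ∀ x : Fin n → Fin M, normSum X x - normSum (fun a => clip L (X a)) x
      = (∑ i, (X (x i) - clip L (X (x i)))) / Real.sqrt n := fun x => by
    rw [normSum, normSum, Finset.sum_sub_distrib, sub_div]
  simp only [e, div_pow, Real.sq_sqrt hn'.le, ← mul_div_assoc, ← Finset.sum_div]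
  rw [pmu_sum_sq hs (fun a => X a - clip L (X a)), div_le_iff₀ hn', Fintype.card_fin]
  have a2 : ∑ a, p a * (X a - clip L (X a)) ^ 2 ≤ 30 / L ^ 4 := by
    refine le_trans (Finset.sum_le_sum fun a _ =>
      mul_le_mul_of_nonneg_left (sub_clip_sq_le hL (X a)) (hp a)) ?_
    simp only [← mul_div_assoc, ← Finset.sum_div]
    gcongr
  have a1 : |∑ a, p a * (X a - clip L (X a))| ≤ 30 / L ^ 5 := by
    refine (Finset.abs_sum_le_sum_abs _ _).trans ?_
    refine le_trans (Finset.sum_le_sum fun a _ => ?_)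
      (b := ∑ a, p a * (X a ^ 6 / L ^ 5)) ?_
    · rw [abs_mul, abs_of_nonneg (hp a)]
      exact mul_le_mul_of_nonneg_left (abs_sub_clip_le hL (X a)) (hp a)
    · simp only [← mul_div_assoc, ← Finset.sum_div]
      gcongr
  have a1' : (∑ a, p a * (X a - clip L (X a))) ^ 2 ≤ 900 / L ^ 10 := by
    rw [← sq_abs]
    refine (pow_le_pow_left₀ (abs_nonneg _) a1 2).trans (le_of_eq ?_)
    ring
  have h10 : (1 : ℝ) ≤ n := by exact_mod_cast hn
  calc (n : ℝ) * ∑ a, p a * (X a - clip L (X a)) ^ 2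
        + n * ((n : ℝ) - 1) * (∑ a, p a * (X a - clip L (X a))) ^ 2
      ≤ n * (30 / L ^ 4) + n * n * (900 / L ^ 10) := by
        refine add_le_add (mul_le_mul_of_nonneg_left a2 hn'.le)
          (mul_le_mul ?_ a1' (sq_nonneg _) (by positivity))
        exact mul_le_mul_of_nonneg_left (by linarith) hn'.le
    _ = _ := by ring

end moments

/-- Powers of an additive statistic lose one ignorable coordinate per degree. -/
theorem pow_sum_mem_low {n M : ℕ} (U : Finset (Fin n)) (φ : Fin M → ℝ) :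
    ∀ l : ℕ, (fun x : Fin n → Fin M => (∑ i, φ (x i)) ^ l) ∈ Low U (U.card - l) := by
  intro l
  induction l with
  | zero =>
    simpa using const_mem_low (Ω := Fin M) (le_refl U.card) (1 : ℝ)
  | succ l ih =>
    by_cases hl : l + 1 ≤ U.card
    · have : (fun x : Fin n → Fin M => (∑ i, φ (x i)) ^ (l + 1))
          = ∑ i, fun x => φ (x i) * (∑ i', φ (x i')) ^ l := by
        funext x
        rw [Finset.sum_apply, ← Finset.sum_mul, pow_succ']
      rw [this]
      refine Submodule.sum_mem _ fun i _ => mul_mem_low (E := {i}) (g := fun x => φ (x i)) ?_ ?_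
      · exact low_mono le_rfl (by rw [Finset.card_singleton]; omega) ih
      · intro x y h
        show φ (x i) = φ (y i)
        rw [h i (Finset.mem_singleton_self i)]
    · rw [Nat.sub_eq_zero_of_le (by omega)]
      exact mem_low (Finset.empty_subset U) (Nat.zero_le _) (indep_empty _)

theorem poly_mem_low {n M : ℕ} (U : Finset (Fin n)) (φ : Fin M → ℝ) {D s : ℕ}
    (hs : D + s ≤ U.card) (r : ℝ[X]) (hr : r.natDegree ≤ D) :
    (fun x : Fin n → Fin M => r.eval (∑ i, φ (x i))) ∈ Low U s := by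
  have : (fun x : Fin n → Fin M => r.eval (∑ i, φ (x i)))
      = ∑ l ∈ Finset.range (r.natDegree + 1), r.coeff l • fun x => (∑ i, φ (x i)) ^ l := by
    funext x
    rw [Finset.sum_apply, Polynomial.eval_eq_sum_range]
    simp
  rw [this]
  refine Submodule.sum_mem _ fun l hl => Submodule.smul_mem _ _
    (low_mono le_rfl ?_ (pow_sum_mem_low U φ l))
  have := Finset.mem_range.1 hl
  omega

theorem sq_le_four {y a b c w : ℝ} (h : |y| ≤ a + b + c + w) :
    y ^ 2 ≤ 4 * (a ^ 2 + b ^ 2 + c ^ 2 + w ^ 2) := by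
  have h' := pow_le_pow_left₀ (abs_nonneg y) h 2
  rw [sq_abs] at h'
  nlinarith [sq_nonneg (a - b), sq_nonneg (a - c), sq_nonneg (a - w), sq_nonneg (b - c),
    sq_nonneg (b - w), sq_nonneg (c - w)]

theorem predictor {n M D : ℕ} (hn : 0 < n) (hM : 2 ≤ M) (hD : 4 ≤ D) (p X : Fin M → ℝ)
    (hp : ∀ a, 0 ≤ p a) (hs : ∑ a, p a = 1) (h1 : ∑ a, p a * X a = 0)
    (h2 : ∑ a, p a * X a ^ 2 = 1) (h6 : ∑ a, p a * X a ^ 6 ≤ 30)
    (U : Finset (Fin n)) (s : ℕ) (hU : D + s ≤ U.card) (T L : ℝ) (hT : 0 < T) (hL : 0 < L) :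
    ∃ (h₀ : Fin M → (Fin n → Fin M) → ℝ) (Y : Fin M → ℝ),
      (∀ b x, 0 ≤ h₀ b x) ∧ (∀ x, ∑ b, h₀ b x = 1) ∧ (∀ b, h₀ b ∈ Low U s) ∧
      (∀ b, |Y b| ≤ T) ∧
      ∑ x, pmu p x * ∑ b, h₀ b x * (normSum X x - Y b) ^ 2
        ≤ 4 * ((15 + 100000 / (n : ℝ)) / T ^ 4 + (30 / L ^ 4 + 900 * n / L ^ 10)
            + n * L ^ 2 * (1000 / (D : ℝ) ^ 2) + (2 * T / ((M : ℝ) - 1)) ^ 2) := by
  classical
  obtain ⟨Q, c, q, hqd, hc, hq⟩ := partition_unity D hD
  have hn' : (0 : ℝ) < n := by exact_mod_cast hn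
  have hM' : (0 : ℝ) < (M : ℝ) - 1 := by
    have : (2 : ℝ) ≤ M := by exact_mod_cast hM
    linarith
  set w : ℝ := 2 * T / ((M : ℝ) - 1) with hw
  have hw0 : 0 < w := by positivity
  set R : ℝ := Real.sqrt n * L with hR
  set φ : Fin M → ℝ := fun a => clip L (X a) / ((n : ℝ) * L) with hφ
  have ht : ∀ x : Fin n → Fin M, -1 ≤ ∑ i, φ (x i) ∧ ∑ i, φ (x i) ≤ 1 := by
    intro x
    rw [← abs_le]
    refine (Finset.abs_sum_le_sum_abs _ _).trans ?_
    refine (Finset.sum_le_sum (g := fun _ => ((n : ℝ))⁻¹) fun i _ => ?_).trans (le_of_eq ?_)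
    · simp only [hφ]
      rw [abs_div, abs_of_pos (show (0 : ℝ) < n * L by positivity), div_le_iff₀ (by positivity)]
      calc |clip L (X (x i))| ≤ L := abs_clip_le hL.le _
        _ = (n : ℝ)⁻¹ * (n * L) := by field_simp
    · simp [hn'.ne']
  have hRt : ∀ x : Fin n → Fin M,
      normSum (fun a => clip L (X a)) x = R * ∑ i, φ (x i) := by
    intro x
    simp only [normSum, hφ, hR, ← Finset.sum_div]
    have hsq : Real.sqrt n ≠ 0 := (Real.sqrt_pos.2 hn').ne'
    field_simp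
    rw [Real.sq_sqrt hn'.le]
  set bin : ℝ → ℕ := fun v => ⌊(clip T v + T) / w⌋₊ with hbin
  have hb : ∀ v, 0 ≤ clip T v + T ∧ (clip T v + T) / w ≤ (M : ℝ) - 1 := by
    intro v
    have := abs_le.1 (abs_clip_le hT.le v)
    refine ⟨by linarith, ?_⟩
    rw [div_le_iff₀ hw0, hw, mul_div_cancel₀ _ hM'.ne']
    linarith
  have hbinM : ∀ v, bin v < M := by
    intro v
    rw [hbin, Nat.floor_lt (div_nonneg (hb v).1 hw0.le)]
    linarith [(hb v).2]
  set β : Fin Q → Fin M := fun j => ⟨bin (R * c j), hbinM _⟩ with hβ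
  set Y : Fin M → ℝ := fun b => -T + w * (b : ℕ) with hY
  have hYT : ∀ b, |Y b| ≤ T := by
    intro b
    have h0 : 0 ≤ w * ((b : ℕ) : ℝ) := by positivity
    have h' : ((b : ℕ) : ℝ) ≤ (M : ℝ) - 1 := by
      have : ((b : ℕ) : ℝ) + 1 ≤ M := by exact_mod_cast b.2
      linarith
    have h'' : w * ((b : ℕ) : ℝ) ≤ 2 * T := by
      refine (mul_le_mul_of_nonneg_left h' hw0.le).trans (le_of_eq ?_)
      rw [hw, div_mul_cancel₀ _ hM'.ne']
    rw [abs_le, hY]; constructor <;> linarith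
  have hYβ : ∀ j, |clip T (R * c j) - Y (β j)| ≤ w := by
    intro j
    have e1 := Nat.floor_le (div_nonneg (hb (R * c j)).1 hw0.le)
    have e2 := Nat.lt_floor_add_one ((clip T (R * c j) + T) / w)
    rw [le_div_iff₀ hw0] at e1
    rw [div_lt_iff₀ hw0] at e2
    simp only [hY, hβ, hbin]
    rw [abs_le]; constructor <;> nlinarith
  refine ⟨fun b x => ∑ j ∈ Finset.univ.filter (fun j => β j = b), (q j).eval (∑ i, φ (x i)), Y,
    fun b x => Finset.sum_nonneg fun j _ => (hq _ (ht x).1 (ht x).2).1 j, fun x => ?_,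
    fun b => ?_, hYT, ?_⟩
  · rw [Finset.sum_fiberwise]
    exact (hq _ (ht x).1 (ht x).2).2.1
  · suffices h : (∑ j ∈ Finset.univ.filter (fun j => β j = b),
        fun x : Fin n → Fin M => (q j).eval (∑ i, φ (x i))) ∈ Low U s by
      convert h using 1
      funext x; rw [Finset.sum_apply]
    exact Submodule.sum_mem _ fun j _ => poly_mem_low U φ hU (q j) (hqd j)
  have hpt : ∀ x : Fin n → Fin M, ∑ b, (∑ j ∈ Finset.univ.filter (fun j => β j = b),
        (q j).eval (∑ i, φ (x i))) * (normSum X x - Y b) ^ 2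
      ≤ 4 * (normSum X x ^ 6 / T ^ 4 + (normSum X x - normSum (fun a => clip L (X a)) x) ^ 2
          + n * L ^ 2 * (1000 / (D : ℝ) ^ 2) + w ^ 2) := by
    intro x
    obtain ⟨q0, q1, qv⟩ := hq _ (ht x).1 (ht x).2
    set t := ∑ i, φ (x i) with htdef
    set S := normSum X x with hS
    set S' := normSum (fun a => clip L (X a)) x with hS'
    have e : ∀ b, (∑ j ∈ Finset.univ.filter (fun j => β j = b), (q j).eval t) * (S - Y b) ^ 2
        = ∑ j ∈ Finset.univ.filter (fun j => β j = b), (q j).eval t * (S - Y (β j)) ^ 2 := by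
      intro b
      rw [Finset.sum_mul]
      exact Finset.sum_congr rfl fun j hj => by rw [(Finset.mem_filter.1 hj).2]
    simp only [e]
    rw [Finset.sum_fiberwise]
    have hR2 : R ^ 2 = n * L ^ 2 := by rw [hR, mul_pow, Real.sq_sqrt hn'.le]
    calc ∑ j, (q j).eval t * (S - Y (β j)) ^ 2
        ≤ ∑ j, (q j).eval t *
            (4 * (S ^ 6 / T ^ 4 + (S - S') ^ 2 + R ^ 2 * (t - c j) ^ 2 + w ^ 2)) := by
          refine Finset.sum_le_sum fun j _ => mul_le_mul_of_nonneg_left ?_ (q0 j)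
          have f1 : (S - clip T S) ^ 2 ≤ S ^ 6 / T ^ 4 := sub_clip_sq_le hT S
          have f2 : (S' - R * c j) ^ 2 = R ^ 2 * (t - c j) ^ 2 := by
            rw [hS', hRt x, ← htdef]; ring
          have f3 : |S - Y (β j)| ≤ |S - clip T S| + |S - S'| + |S' - R * c j| + w := by
            have := abs_add_three (S - clip T S) (clip T S - clip T (R * c j))
              (clip T (R * c j) - Y (β j))
            have g1 := abs_clip_sub_clip T S (R * c j)
            have g2 := abs_sub_le S S' (R * c j)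
            have g3 := hYβ j
            rw [show S - clip T S + (clip T S - clip T (R * c j))
              + (clip T (R * c j) - Y (β j)) = S - Y (β j) by ring] at this
            linarith
          have f4 := sq_le_four f3
          rw [sq_abs, sq_abs, sq_abs] at f4
          linarith
      _ = 4 * (S ^ 6 / T ^ 4 + (S - S') ^ 2 + w ^ 2) * (∑ j, (q j).eval t)
            + 4 * R ^ 2 * (∑ j, (q j).eval t * (t - c j) ^ 2) := by
          rw [Finset.mul_sum, Finset.mul_sum, ← Finset.sum_add_distrib]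
          exact Finset.sum_congr rfl fun j _ => by ring
      _ ≤ _ := by
          rw [q1, mul_one, hR2]
          have := mul_le_mul_of_nonneg_left qv (show (0 : ℝ) ≤ n * L ^ 2 by positivity)
          linarith
  refine (Finset.sum_le_sum fun x _ =>
    mul_le_mul_of_nonneg_left (hpt x) (pmu_nonneg' hp x)).trans ?_
  simp only [mul_left_comm (pmu p _) (4 : ℝ), ← Finset.mul_sum]
  simp only [mul_add, Finset.sum_add_distrib, ← Finset.sum_mul, pmu_sum hs, one_mul,
    ← mul_div_assoc (pmu p _), ← Finset.sum_div]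
  have b1 := div_le_div_of_nonneg_right (normSum_sixth hn hp hs h1 h2 h6)
    (show (0 : ℝ) ≤ T ^ 4 by positivity)
  have b2 := normSum_clip hn hp hs h6 hL
  linarith

end Vale.Agent.P047
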