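import Mathlib

/-!
# P047: moments of sums of independent copies under a finite product weight.
-/

namespace Vale.Agent.P047

open Finset

variable {ι Ω : Type*} [Fintype ι] [Fintype Ω]

/-- The product weight. -/
noncomputable def pmu (p : Ω → ℝ) (x : ι → Ω) : ℝ := ∏ i, p (x i)

/-- Expectation of a function of the sum, over `Fin n`. -/
private noncomputable def finExp (p Z : Ω → ℝ) (n : ℕ) (φ : ℝ → ℝ) : ℝ :=
  ∑ x : Fin n → Ω, pmu p x * φ (∑ i, Z (x i))

private theorem finExp_zero (p Z : Ω → ℝ) (φ : ℝ → ℝ) : finExp p Z 0 φ = φ 0 := by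
  simp [finExp, pmu]

private theorem finExp_succ (p Z : Ω → ℝ) (n : ℕ) (φ : ℝ → ℝ) :
    finExp p Z (n + 1) φ = ∑ a, p a * finExp p Z n (fun s => φ (Z a + s)) := by
  unfold finExp
  rw [← (Fin.consEquiv (fun _ : Fin (n + 1) => Ω)).sum_comp, Fintype.sum_prod_type]
  refine sum_congr rfl fun a _ => ?_
  rw [mul_sum]
  refine sum_congr rfl fun x _ => ?_
  simp [pmu, Fin.prod_univ_succ, Fin.sum_univ_succ, mul_assoc]

private theorem reindex [DecidableEq ι] (p Z : Ω → ℝ) (φ : ℝ → ℝ) :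
    ∑ x : ι → Ω, pmu p x * φ (∑ i, Z (x i)) = finExp p Z (Fintype.card ι) φ := by
  unfold finExp
  set e := Fintype.equivFin ι
  refine Fintype.sum_equiv (e.arrowCongr (Equiv.refl Ω)) _ _ fun x => ?_
  simp only [pmu, Equiv.arrowCongr_apply, Equiv.coe_refl, Function.id_comp, Function.comp_apply, id]
  rw [e.symm.prod_comp (fun i => p (x i)), e.symm.sum_comp (fun i => Z (x i))]

private theorem finExp_add (p Z : Ω → ℝ) (n : ℕ) (φ ψ : ℝ → ℝ) :
    finExp p Z n (fun s => φ s + ψ s) = finExp p Z n φ + finExp p Z n ψ := by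
  simp [finExp, mul_add, sum_add_distrib]

private theorem finExp_smul (p Z : Ω → ℝ) (n : ℕ) (c : ℝ) (φ : ℝ → ℝ) :
    finExp p Z n (fun s => c * φ s) = c * finExp p Z n φ := by
  simp [finExp, mul_sum, mul_left_comm]

private theorem finExp_pow_succ (p Z : Ω → ℝ) (n k : ℕ) :
    finExp p Z (n + 1) (fun s => s ^ k) = ∑ j ∈ range (k + 1),
      (k.choose j : ℝ) * (∑ a, p a * Z a ^ j) * finExp p Z n (fun s => s ^ (k - j)) := by
  rw [finExp_succ]
  simp only [finExp]
  calc ∑ a, p a * ∑ x : Fin n → Ω, pmu p x * (Z a + ∑ i, Z (x i)) ^ k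
      = ∑ a, ∑ j ∈ range (k + 1), (k.choose j : ℝ) * (p a * Z a ^ j)
          * ∑ x : Fin n → Ω, pmu p x * (∑ i, Z (x i)) ^ (k - j) := by
        refine sum_congr rfl fun a _ => ?_
        simp only [add_pow, mul_sum]
        rw [Finset.sum_comm]
        refine sum_congr rfl fun j _ => sum_congr rfl fun x _ => ?_
        ring
    _ = _ := by
        rw [Finset.sum_comm]
        refine sum_congr rfl fun j _ => ?_
        rw [← Finset.sum_mul, ← Finset.mul_sum]

private theorem fin_m0 {p : Ω → ℝ} (hs : ∑ a, p a = 1) (Z : Ω → ℝ) (n : ℕ) :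
    finExp p Z n (fun s => s ^ 0) = 1 := by
  induction n with
  | zero => simp [finExp_zero]
  | succ n ih =>
    rw [finExp_pow_succ, Finset.sum_range_one]
    simp only [Nat.choose_self, Nat.cast_one, one_mul, Nat.sub_zero, ih, mul_one]
    simpa using hs

private theorem fin_m1 {p : Ω → ℝ} (hs : ∑ a, p a = 1) (Z : Ω → ℝ) (n : ℕ) :
    finExp p Z n (fun s => s ^ 1) = n * ∑ a, p a * Z a := by
  induction n with
  | zero => simp [finExp_zero]
  | succ n ih =>
    have p0 : ∑ a, p a * Z a ^ 0 = 1 := by simpa using hs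
    rw [finExp_pow_succ, Finset.sum_range_succ, Finset.sum_range_one]
    simp only [show 1 - 0 = 1 from rfl, show 1 - 1 = 0 from rfl, fin_m0 hs, ih, p0]
    simp
    ring

theorem pmu_sum {p : Ω → ℝ} (hs : ∑ a, p a = 1) [DecidableEq ι] :
    ∑ x : ι → Ω, pmu p x = 1 := by
  have := (reindex (ι := ι) p p (fun _ => 1)).trans (by simpa using fin_m0 hs p (Fintype.card ι))
  simpa using this

theorem pmu_sum_single {p : Ω → ℝ} (hs : ∑ a, p a = 1) [DecidableEq ι] (Z : Ω → ℝ) :
    ∑ x : ι → Ω, pmu p x * (∑ i, Z (x i)) = (Fintype.card ι : ℝ) * ∑ a, p a * Z a := by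
  rw [reindex p Z (fun s => s), ← fin_m1 hs Z]
  simp

theorem pmu_sum_sq {p : Ω → ℝ} (hs : ∑ a, p a = 1) [DecidableEq ι] (Z : Ω → ℝ) :
    ∑ x : ι → Ω, pmu p x * (∑ i, Z (x i)) ^ 2 =
      (Fintype.card ι : ℝ) * ∑ a, p a * Z a ^ 2
        + (Fintype.card ι : ℝ) * ((Fintype.card ι : ℝ) - 1) * (∑ a, p a * Z a) ^ 2 := by
  rw [reindex p Z (fun s => s ^ 2)]
  generalize Fintype.card ι = n
  induction n with
  | zero => simp [finExp_zero]
  | succ n ih =>
    have p0 : ∑ a, p a * Z a ^ 0 = 1 := by simpa using hs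
    rw [finExp_pow_succ, Finset.sum_range_succ, Finset.sum_range_succ, Finset.sum_range_one]
    simp only [show 2 - 0 = 2 from rfl, show 2 - 1 = 1 from rfl, show 2 - 2 = 0 from rfl,
      fin_m0 hs, fin_m1 hs, ih, p0]
    norm_num [Nat.choose]
    ring

theorem pmu_sixth {p X : Ω → ℝ} (hp : ∀ a, 0 ≤ p a) (hs : ∑ a, p a = 1)
    (h1 : ∑ a, p a * X a = 0) (h2 : ∑ a, p a * X a ^ 2 = 1) (h6 : ∑ a, p a * X a ^ 6 ≤ 30)
    [DecidableEq ι] :
    ∑ x : ι → Ω, pmu p x * (∑ i, X (x i)) ^ 6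
      ≤ 15 * (Fintype.card ι : ℝ) ^ 3 + 100000 * (Fintype.card ι : ℝ) ^ 2 := by
  rw [reindex p X (fun s => s ^ 6)]
  set μ3 := ∑ a, p a * X a ^ 3 with hμ3
  set μ4 := ∑ a, p a * X a ^ 4 with hμ4
  have b4 : μ4 ≤ 31 := by
    calc μ4 ≤ ∑ a, (p a * X a ^ 6 + p a * X a ^ 2) := sum_le_sum fun a _ => by
          rw [← mul_add]
          refine mul_le_mul_of_nonneg_left ?_ (hp a)
          nlinarith [sq_nonneg (X a), sq_nonneg (X a ^ 3 - X a), pow_two_nonneg (X a ^ 2)]
      _ ≤ 31 := by rw [sum_add_distrib, h2]; linarith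
  have b4' : 0 ≤ μ4 := sum_nonneg fun a _ => mul_nonneg (hp a) (by positivity)
  have b3 : |μ3| ≤ 16 := by
    calc |μ3| ≤ ∑ a, |p a * X a ^ 3| := abs_sum_le_sum_abs _ _
      _ ≤ ∑ a, (p a * X a ^ 4 + p a * X a ^ 2) / 2 := sum_le_sum fun a _ => by
          rw [abs_mul, abs_of_nonneg (hp a), ← mul_add, mul_div_assoc]
          refine mul_le_mul_of_nonneg_left ?_ (hp a)
          rw [abs_le]
          constructor <;> nlinarith [sq_nonneg (X a ^ 2 + X a), sq_nonneg (X a ^ 2 - X a)]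
      _ ≤ 16 := by rw [← sum_div, sum_add_distrib, h2, ← hμ4]; linarith
  have hμ3sq : μ3 ^ 2 ≤ 256 := by
    nlinarith [(abs_le.1 b3).1, (abs_le.1 b3).2]
  have m0 : ∀ k, finExp p X k (fun s => s ^ 0) = 1 := fin_m0 hs X
  have m1 : ∀ k, finExp p X k (fun s => s ^ 1) = 0 := fun k => by
    rw [fin_m1 hs X, h1, mul_zero]
  have p0 : ∑ a, p a * X a ^ 0 = 1 := by simpa using hs
  have p1 : ∑ a, p a * X a ^ 1 = 0 := by simpa using h1
  have m2 : ∀ k : ℕ, finExp p X k (fun s => s ^ 2) = k := by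
    intro k
    induction k with
    | zero => simp [finExp_zero]
    | succ k ih =>
      rw [finExp_pow_succ]
      simp only [Finset.sum_range_succ, Finset.range_zero, sum_empty, zero_add, p0, p1, h2,
        show 2 - 0 = 2 from rfl, show 2 - 1 = 1 from rfl, show 2 - 2 = 0 from rfl, m0, m1, ih]
      norm_num [Nat.choose]
  have m3 : ∀ k : ℕ, finExp p X k (fun s => s ^ 3) = k * μ3 := by
    intro k
    induction k with
    | zero => simp [finExp_zero]
    | succ k ih =>
      rw [finExp_pow_succ]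
      simp only [Finset.sum_range_succ, Finset.range_zero, sum_empty, zero_add, p0, p1, h2, ← hμ3,
        show 3 - 0 = 3 from rfl, show 3 - 1 = 2 from rfl, show 3 - 2 = 1 from rfl,
        show 3 - 3 = 0 from rfl, m0, m1, m2, ih]
      norm_num [Nat.choose]
      ring
  have m4 : ∀ k : ℕ, finExp p X k (fun s => s ^ 4) ≤ 3 * (k : ℝ) ^ 2 + 31 * k := by
    intro k
    induction k with
    | zero => simp [finExp_zero]
    | succ k ih =>
      rw [finExp_pow_succ]
      simp only [Finset.sum_range_succ, Finset.range_zero, sum_empty, zero_add, p0, p1, h2, ← hμ3,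
        ← hμ4, show 4 - 0 = 4 from rfl, show 4 - 1 = 3 from rfl, show 4 - 2 = 2 from rfl,
        show 4 - 3 = 1 from rfl, show 4 - 4 = 0 from rfl, m0, m1, m2]
      norm_num [Nat.choose]
      nlinarith
  generalize Fintype.card ι = n
  induction n with
  | zero => simp [finExp_zero]
  | succ k ih =>
    rw [finExp_pow_succ]
    simp only [Finset.sum_range_succ, Finset.range_zero, sum_empty, zero_add, p0, p1, h2, ← hμ3,
      ← hμ4, show 6 - 0 = 6 from rfl, show 6 - 1 = 5 from rfl, show 6 - 2 = 4 from rfl,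
      show 6 - 3 = 3 from rfl, show 6 - 4 = 2 from rfl, show 6 - 5 = 1 from rfl,
      show 6 - 6 = 0 from rfl, m0, m1, m2, m3]
    norm_num [Nat.choose]
    have hk : (0 : ℝ) ≤ k := Nat.cast_nonneg k
    nlinarith [m4 k, mul_le_mul_of_nonneg_left hμ3sq hk, mul_le_mul_of_nonneg_left b4 hk]

end Vale.Agent.P047
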