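import Vale.Agent.P047.Hash

/-! Numerical facts about the parameters of one stage. -/

namespace Vale.Agent.P047

theorem inv_pow_le_half (M : ℕ) (hM : 1 ≤ M) : (1 - (M : ℝ)⁻¹) ^ M ≤ 1 / 2 := by
  have h := Real.one_sub_div_pow_le_exp_neg (n := M) (t := 1) (by exact_mod_cast hM)
  rw [one_div] at h
  refine h.trans ?_
  rw [Real.exp_neg, one_div]
  have : (2 : ℝ) ≤ Real.exp 1 := by linarith [Real.add_one_le_exp (1 : ℝ)]
  gcongr

theorem gam_nonneg (M a s : ℕ) : 0 ≤ gam M a s := by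
  refine mul_nonneg (Nat.cast_nonneg _) (pow_nonneg ?_ _)
  rcases Nat.eq_zero_or_pos M with h | h
  · simp [h]
  · have : (M : ℝ)⁻¹ ≤ 1 := inv_le_one_of_one_le₀ (by exact_mod_cast h)
    linarith

/-- The decay of the failure probability of markers. -/
theorem gam_le (M a s r E : ℕ) (hM : 1 ≤ M) (hr : M * r ≤ a - s) (hE : s * (a + 1) ^ s ≤ 2 ^ E) :
    gam M a s * 2 ^ r ≤ 2 ^ E := by
  have h0 : 0 ≤ 1 - (M : ℝ)⁻¹ := by
    have : (M : ℝ)⁻¹ ≤ 1 := inv_le_one_of_one_le₀ (by exact_mod_cast hM)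
    linarith
  have h1 : 1 - (M : ℝ)⁻¹ ≤ 1 := by
    have : 0 ≤ (M : ℝ)⁻¹ := by positivity
    linarith
  have h2 : (1 - (M : ℝ)⁻¹) ^ (a - s) ≤ (1 / 2) ^ r := by
    refine (pow_le_pow_of_le_one h0 h1 hr).trans ?_
    rw [pow_mul]
    exact pow_le_pow_left₀ (pow_nonneg h0 _) (inv_pow_le_half M hM) _
  have h3 : ((s * (a + 1) ^ s : ℕ) : ℝ) ≤ 2 ^ E := by exact_mod_cast hE
  calc gam M a s * 2 ^ r ≤ 2 ^ E * (1 / 2) ^ r * 2 ^ r := by
        refine mul_le_mul_of_nonneg_right ?_ (by positivity)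
        exact mul_le_mul h3 h2 (pow_nonneg h0 _) (by positivity)
    _ = 2 ^ E := by rw [mul_assoc, ← mul_pow]; norm_num

/-- The exponential bound behind the potential threshold. -/
theorem threshold_lt (M n : ℕ) (hM : 1 ≤ M) :
    2 * (((M : ℝ) + 1) * (M : ℝ) ^ n * Real.exp 1) < 2 ^ ((n + 1) * M + 4) := by
  have h1 : (M : ℝ) ≤ 2 ^ M := by exact_mod_cast (Nat.lt_two_pow_self (n := M)).le
  have h2 : (M : ℝ) + 1 ≤ 2 ^ M := by exact_mod_cast (Nat.lt_two_pow_self (n := M))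
  have h3 : Real.exp 1 < 4 := by linarith [Real.exp_one_lt_d9]
  have h4 : (0 : ℝ) < ((M : ℝ) + 1) * (M : ℝ) ^ n := by
    have : (1 : ℝ) ≤ M := by exact_mod_cast hM
    positivity
  calc 2 * (((M : ℝ) + 1) * (M : ℝ) ^ n * Real.exp 1)
      < 2 * (((M : ℝ) + 1) * (M : ℝ) ^ n * 4) := by gcongr
    _ ≤ 2 * ((2 : ℝ) ^ M * (2 ^ M) ^ n * 4) := by gcongr
    _ ≤ 2 ^ ((n + 1) * M + 4) := by
        rw [← pow_mul, show (2 : ℝ) * (2 ^ M * 2 ^ (M * n) * 4) = 2 ^ (M + M * n + 3) by ring]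
        exact pow_le_pow_right₀ (by norm_num) (by rw [add_mul, one_mul, mul_comm n M]; omega)

theorem threshold_lt_cosh (M n : ℕ) (hM : 1 ≤ M) :
    2 * (((M : ℝ) + 1) * (M : ℝ) ^ n * Real.exp 1) < Real.cosh ((((n + 6) * M : ℕ) : ℝ)) := by
  refine (threshold_lt M n hM).trans_le ?_
  have h1 : (2 : ℝ) ^ ((n + 6) * M) ≤ Real.exp ((((n + 6) * M : ℕ) : ℝ)) := by
    rw [← mul_one (((((n + 6) * M : ℕ)) : ℝ)), Real.exp_nat_mul]
    exact pow_le_pow_left₀ (by norm_num) (by linarith [Real.add_one_le_exp (1 : ℝ)]) _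
  have h2 : (2 : ℝ) * 2 ^ ((n + 1) * M + 4) ≤ 2 ^ ((n + 6) * M) := by
    rw [← pow_succ']
    refine pow_le_pow_right₀ (by norm_num) ?_
    nlinarith
  rw [Real.cosh_eq]
  have := Real.exp_pos (-(((n + 6) * M : ℕ) : ℝ))
  linarith

theorem choose_le_pow' (a s : ℕ) : a.choose s ≤ (a + 1) ^ s :=
  (Nat.choose_le_pow a s).trans (Nat.pow_le_pow_left (Nat.le_succ a) s)

/-- All purely numerical requirements of a stage, in exponent form. -/
theorem numerics (e : ℕ) (he : 20 ≤ e) (he' : 1000 * e ≤ 2 ^ e) (u : ℕ) (hu : u = 2 ^ e)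
    (M q a k n : ℕ) (hM : M = u ^ 22) (hq : q = u ^ 25) (ha : a = u ^ 47) (hk : k = 8 * u ^ 23)
    (hn : n = 2 * a + k) :
    (2 ≤ M ∧ 2 * M ≤ a ∧ M * (q - 1) ≤ a - M ∧ 5 * (u ^ 23 + 1) + M ≤ k) ∧
    ((((n + 6) * M : ℕ) : ℝ) * (M : ℝ) ^ (2 * k)) ^ 2 *
      (((a.choose M : ℕ) : ℝ) * (((M * (a + 1) ^ M : ℕ) : ℝ) ^ 2
        * (1 - (M : ℝ)⁻¹) ^ (a - M))) ≤ 2 ∧
    (M : ℝ) ^ n * ((M : ℝ) ^ k * gam M a M) ^ n
      + (M : ℝ) ^ k * gam M a M / (1 / (u : ℝ) ^ 60) < 1 ∧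
    (M * (n + ((n + 1) * M + 4)) + 1)
      * (((2 * a).choose M + 3) * (M + 1) * (k + 1) ^ M * 4 ^ M * (M + 1) ^ (2 * M))
      * 2 ^ (u ^ 23 + M + 2) < 4 ^ (u ^ 23) := by
  have hu20 : 2 ^ 20 ≤ u := by rw [hu]; exact Nat.pow_le_pow_right (by norm_num) he
  have hu1 : 1 ≤ u := le_trans (by norm_num) hu20
  have hmono : ∀ {i j : ℕ}, i ≤ j → u ^ i ≤ u ^ j := fun h => Nat.pow_le_pow_right hu1 h
  have hup : ∀ i, 1 ≤ u ^ i := fun i => Nat.one_le_pow _ _ hu1
  have two : ∀ i, u ^ i = 2 ^ (i * e) := fun i => by rw [hu, ← pow_mul, mul_comm]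
  have step : ∀ i j c, i + 1 ≤ j → c ≤ u → c * u ^ i ≤ u ^ j := fun i j c hij hc =>
    (Nat.mul_le_mul_right _ hc).trans (by rw [← pow_succ']; exact hmono hij)
  have haMq : a = M * q := by rw [ha, hM, hq, ← pow_add]
  have hk48 : k + 1 ≤ u ^ 48 := by
    have h1 := step 47 48 9 (by norm_num) (le_trans (by norm_num) hu20)
    have h2 := hmono (show 23 ≤ 47 by norm_num)
    have h3 := hup 47
    omega
  have hn48 : n + 6 ≤ u ^ 48 := by
    have h1 := step 47 48 17 (by norm_num) (le_trans (by norm_num) hu20)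
    have h2 := hmono (show 23 ≤ 47 by norm_num)
    have h3 := hup 47
    omega
  have hM48 : M + 1 ≤ u ^ 48 := by
    have h1 := step 47 48 2 (by norm_num) (le_trans (by norm_num) hu20)
    have h2 := hmono (show 22 ≤ 47 by norm_num)
    have h3 := hup 47
    omega
  have h2a : 2 * a + 1 ≤ u ^ 48 := by omega
  have ha1 : a + 1 ≤ u ^ 48 := by omega
  have hM2 : 2 ≤ M := by
    rw [hM]; exact le_trans (le_trans (by norm_num) hu20) (Nat.le_self_pow (by norm_num) u)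
  have hM1 : 1 ≤ M := by omega
  have hMa : 2 * M ≤ a := by
    have h1 := step 22 23 2 (by norm_num) (le_trans (by norm_num) hu20)
    have h2 := hmono (show 23 ≤ 47 by norm_num)
    omega
  have hMq : M * (q - 1) ≤ a - M := by rw [Nat.mul_sub, mul_one, ← haMq]
  have hkk : 5 * (u ^ 23 + 1) + M ≤ k := by
    have h1 := hmono (show 22 ≤ 23 by norm_num)
    have h2 := Nat.le_self_pow (show 23 ≠ 0 by norm_num) u
    omega
  refine ⟨⟨hM2, hMa, hMq, hkk⟩, ?_⟩
  -- exponent of the failure probability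
  have hexp : 88 * e * k + 400 * e * M + 400 * e + 10 ≤ q - 1 := by
    have g1 : 704 * e ≤ u := by omega
    have g2 : 400 * e ≤ u := by omega
    have g3 : 400 * e + 11 ≤ u := by omega
    have i1 : 88 * e * k ≤ u ^ 24 := by
      rw [hk, show 88 * e * (8 * u ^ 23) = 704 * e * u ^ 23 by ring]
      exact step 23 24 _ (by norm_num) g1
    have i2 : 400 * e * M ≤ u ^ 24 := by
      rw [hM]; exact (step 22 23 _ (by norm_num) g2).trans (hmono (by norm_num))
    have i3 : u ≤ u ^ 24 := Nat.le_self_pow (by norm_num) u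
    have i4 : 3 * u ^ 24 ≤ q := by rw [hq]; exact step 24 25 3 (by norm_num) (le_trans (by norm_num) hu20)
    omega
  have hM22 : (M : ℝ) = 2 ^ (22 * e) := by rw [hM, two 22]; norm_num
  have hsa : M * (a + 1) ^ M ≤ 2 ^ (48 * e + 48 * e * M) := by
    rw [pow_add, pow_mul 2 (48 * e) M, ← two 48]
    exact Nat.mul_le_mul (by omega) (Nat.pow_le_pow_left ha1 M)
  have hg := gam_le M a M (q - 1) (48 * e + 48 * e * M) hM1 hMq hsa
  have hg0 := gam_nonneg M a M
  refine ⟨?_, ?_, ?_⟩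
  · have c1 : ((a.choose M : ℕ) : ℝ) ≤ 2 ^ (48 * e * M) := by
      have : a.choose M ≤ 2 ^ (48 * e * M) := by
        rw [pow_mul, ← two 48]
        exact (choose_le_pow' a M).trans (Nat.pow_le_pow_left ha1 M)
      exact_mod_cast this
    have c2 : (((n + 6) * M : ℕ) : ℝ) ≤ 2 ^ (70 * e) := by
      have : (n + 6) * M ≤ 2 ^ (70 * e) := by
        rw [← two 70, hM, show u ^ 70 = u ^ 48 * u ^ 22 by rw [← pow_add]]
        exact Nat.mul_le_mul_right _ hn48
      exact_mod_cast this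
    have c3 : ((M * (a + 1) ^ M : ℕ) : ℝ) ≤ 2 ^ (48 * e + 48 * e * M) := by exact_mod_cast hsa
    have c4 : (M : ℝ) ^ (2 * k) = 2 ^ (44 * e * k) := by
      rw [hM22, ← pow_mul]; ring_nf
    have c5 : ((M * (a + 1) ^ M : ℕ) : ℝ) ^ 2 * (1 - (M : ℝ)⁻¹) ^ (a - M)
        = ((M * (a + 1) ^ M : ℕ) : ℝ) * gam M a M := by rw [gam]; ring
    rw [c5, c4]
    refine le_of_mul_le_mul_right (a := (2 : ℝ) ^ (q - 1)) ?_ (by positivity)
    calc ((((n + 6) * M : ℕ) : ℝ) * 2 ^ (44 * e * k)) ^ 2 *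
          (((a.choose M : ℕ) : ℝ) * (((M * (a + 1) ^ M : ℕ) : ℝ) * gam M a M)) * 2 ^ (q - 1)
        = ((((n + 6) * M : ℕ) : ℝ) * 2 ^ (44 * e * k)) ^ 2 *
          (((a.choose M : ℕ) : ℝ) * (((M * (a + 1) ^ M : ℕ) : ℝ) * (gam M a M * 2 ^ (q - 1)))) := by
          ring
      _ ≤ ((2 : ℝ) ^ (70 * e) * 2 ^ (44 * e * k)) ^ 2 *
          (2 ^ (48 * e * M) * (2 ^ (48 * e + 48 * e * M) * 2 ^ (48 * e + 48 * e * M))) := by
          gcongr
      _ = 2 ^ ((70 * e + 44 * e * k) * 2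
            + (48 * e * M + ((48 * e + 48 * e * M) + (48 * e + 48 * e * M)))) := by
          simp only [← pow_add, ← pow_mul]
      _ ≤ 2 ^ (q - 1) := pow_le_pow_right₀ (by norm_num) (by
          have : (70 * e + 44 * e * k) * 2 = 140 * e + 88 * e * k := by ring
          have : 400 * e * M = 144 * (e * M) + 256 * (e * M) := by ring
          have : 48 * e * M = 48 * (e * M) := by ring
          omega)
      _ ≤ 2 * 2 ^ (q - 1) := by linarith [pow_pos (show (0 : ℝ) < 2 by norm_num) (q - 1)]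
  · set G := (M : ℝ) ^ k * gam M a M with hG
    have hG0 : 0 ≤ G := by positivity
    have hGle : G * 2 ^ (60 * e + 4) ≤ 1 := by
      refine le_of_mul_le_mul_right (a := (2 : ℝ) ^ (q - 1)) ?_ (by positivity)
      calc G * 2 ^ (60 * e + 4) * 2 ^ (q - 1)
          = (M : ℝ) ^ k * 2 ^ (60 * e + 4) * (gam M a M * 2 ^ (q - 1)) := by rw [hG]; ring
        _ ≤ (M : ℝ) ^ k * 2 ^ (60 * e + 4) * 2 ^ (48 * e + 48 * e * M) := by gcongr
        _ = 2 ^ (22 * e * k + (60 * e + 4) + (48 * e + 48 * e * M)) := by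
            rw [hM22, ← pow_mul, ← pow_add, ← pow_add]
        _ ≤ 2 ^ (q - 1) := pow_le_pow_right₀ (by norm_num) (by
            have : 88 * e * k = 4 * (22 * e * k) := by ring
            have : 400 * e * M = 48 * e * M + 352 * (e * M) := by ring
            omega)
        _ = 1 * 2 ^ (q - 1) := (one_mul _).symm
    have h60 : G / (1 / (u : ℝ) ^ 60) ≤ 1 / 16 := by
      have hu60 : (u : ℝ) ^ 60 = 2 ^ (60 * e) := by exact_mod_cast two 60
      rw [div_div_eq_mul_div, div_one, hu60, le_div_iff₀ (by norm_num), mul_assoc]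
      rw [pow_add] at hGle
      norm_num at hGle ⊢
      linarith
    have hMG : (M : ℝ) * G ≤ 1 / 16 := by
      have : (2 : ℝ) ^ (22 * e) ≤ 2 ^ (60 * e) := pow_le_pow_right₀ (by norm_num) (by omega)
      have := mul_le_mul_of_nonneg_right this hG0
      rw [pow_add] at hGle
      rw [hM22]
      norm_num at hGle ⊢
      nlinarith
    have : (M : ℝ) ^ n * G ^ n ≤ 1 / 16 := by
      rw [← mul_pow]
      exact (pow_le_of_le_one (by positivity) (by linarith) (by omega)).trans hMG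
    linarith
  · have b1 : M * (n + ((n + 1) * M + 4)) + 1 ≤ 2 ^ (94 * e) := by
      rw [← two 94]
      have hn' : n + ((n + 1) * M + 4) ≤ 2 * u ^ 70 := by
        have p1 : (n + 1) * M ≤ u ^ 48 * u ^ 22 := by
          rw [← hM]; exact Nat.mul_le_mul_right _ (by omega)
        rw [show u ^ 48 * u ^ 22 = u ^ 70 by ring] at p1
        have p2 := hmono (show 48 ≤ 70 by norm_num)
        omega
      have p3 : M * (n + ((n + 1) * M + 4)) ≤ 2 * u ^ 92 := by
        calc M * (n + ((n + 1) * M + 4)) ≤ u ^ 22 * (2 * u ^ 70) := by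
              rw [← hM]; exact Nat.mul_le_mul_left _ hn'
          _ = 2 * u ^ 92 := by ring
      have p4 := step 92 93 3 (by norm_num) (le_trans (by norm_num) hu20)
      have p5 := hup 92
      have p6 := hmono (show 93 ≤ 94 by norm_num)
      omega
    have b2 : (2 * a).choose M + 3 ≤ 2 ^ (48 * e * M + 2) := by
      rw [pow_add, pow_mul, ← two 48]
      have h1 := (choose_le_pow' (2 * a) M).trans (Nat.pow_le_pow_left h2a M)
      have h2 : 1 ≤ (u ^ 48) ^ M := Nat.one_le_pow _ _ (hup 48)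
      omega
    have b3 : M + 1 ≤ 2 ^ (48 * e) := two 48 ▸ hM48
    have b4 : (k + 1) ^ M ≤ 2 ^ (48 * e * M) := by
      rw [pow_mul, ← two 48]; exact Nat.pow_le_pow_left hk48 M
    have b5 : 4 ^ M = 2 ^ (2 * M) := by rw [pow_mul]; norm_num
    have b6 : (M + 1) ^ (2 * M) ≤ 2 ^ (48 * e * (2 * M)) := by
      rw [pow_mul 2 (48 * e), ← two 48]; exact Nat.pow_le_pow_left hM48 _
    have b7 : 4 ^ (u ^ 23) = 2 ^ (2 * u ^ 23) := by rw [pow_mul]; norm_num
    rw [b7]
    refine lt_of_le_of_lt (Nat.mul_le_mul (Nat.mul_le_mul b1 (Nat.mul_le_mul (Nat.mul_le_mul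
      (Nat.mul_le_mul (Nat.mul_le_mul b2 b3) b4) b5.le) b6)) le_rfl) ?_
    simp only [← pow_add]
    refine Nat.pow_lt_pow_right (by norm_num) ?_
    have h400 : 400 * e * M + 400 * e < u ^ 23 := by
      have i1 : (400 * e + 400) * M ≤ u ^ 23 := by
        rw [hM]; exact step 22 23 _ (by norm_num) (by omega)
      have i2 : (400 * e + 400) * M = 400 * e * M + 400 * M := by ring
      have i3 : e < M := by
        have : e < u := by omega
        have := Nat.le_self_pow (show 22 ≠ 0 by norm_num) u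
        omega
      omega
    have e1 : 400 * e * M = 8 * (e * M) + 2 * (196 * (e * M)) := by ring
    have e2 : 48 * e * M = 48 * (e * M) := by ring
    have e3 : 48 * e * (2 * M) = 96 * (e * M) := by ring
    have e4 : M ≤ e * M := Nat.le_mul_of_pos_left M (by omega)
    omega

end Vale.Agent.P047
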