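import Vale.Agent.P047.Defs

/-! Derandomized rounding with a hyperbolic-cosine potential. -/

namespace Vale.Agent.P047

theorem cosh_convex_step (a w e : ℝ) (h1 : -1 ≤ e) (h2 : e ≤ 1) :
    Real.cosh (a + e * w) ≤
      (1 + e) / 2 * Real.cosh (a + w) + (1 - e) / 2 * Real.cosh (a - w) := by
  have key : ∀ a w : ℝ, Real.exp (a + e * w) ≤
      (1 + e) / 2 * Real.exp (a + w) + (1 - e) / 2 * Real.exp (a - w) := by
    intro a w
    have := (convexOn_exp : ConvexOn ℝ Set.univ Real.exp).2 (Set.mem_univ (a + w))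
      (Set.mem_univ (a - w)) (show (0 : ℝ) ≤ (1 + e) / 2 by linarith)
      (show (0 : ℝ) ≤ (1 - e) / 2 by linarith) (by ring)
    simp only [smul_eq_mul] at this
    rw [show (1 + e) / 2 * (a + w) + (1 - e) / 2 * (a - w) = a + e * w by ring] at this
    exact this
  have h3 := key a w
  have h4 := key (-a) (-w)
  rw [show -a + e * -w = -(a + e * w) by ring, show -a + -w = -(a + w) by ring,
    show -a - -w = -(a - w) by ring] at h4
  simp only [Real.cosh_eq]
  linarith

variable {Cl : Type*} [Fintype Cl] [DecidableEq Cl]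

/-- The indicator error at class `b` when class `c` is chosen. -/
def eerr (p : Cl → ℝ) (c b : Cl) : ℝ := (if c = b then 1 else 0) - p b

theorem sum_mul_eerr (p : Cl → ℝ) (hs : ∑ c, p c = 1) (b : Cl) :
    ∑ c, p c * eerr p c b = 0 := by
  simp only [eerr, mul_sub, Finset.sum_sub_distrib, mul_ite, mul_one, mul_zero,
    Finset.sum_ite_eq', Finset.mem_univ, if_true, ← Finset.sum_mul, hs]
  ring

theorem sum_eerr (p : Cl → ℝ) (hs : ∑ c, p c = 1) (c : Cl) : ∑ b, eerr p c b = 0 := by
  simp [eerr, Finset.sum_sub_distrib, hs]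

theorem cosh_step (p : Cl → ℝ) (h0 : ∀ c, 0 ≤ p c) (hs : ∑ c, p c = 1) (b : Cl) (a w : ℝ) :
    ∑ c, p c * Real.cosh (a + eerr p c b * w) ≤ Real.cosh a * Real.exp (w ^ 2 / 2) := by
  have hle : p b ≤ 1 := hs ▸ Finset.single_le_sum (fun c _ => h0 c) (Finset.mem_univ b)
  have hbd : ∀ c, -1 ≤ eerr p c b ∧ eerr p c b ≤ 1 := fun c => by
    unfold eerr; split <;> constructor <;> linarith [h0 b]
  calc ∑ c, p c * Real.cosh (a + eerr p c b * w)
      ≤ ∑ c, p c * ((1 + eerr p c b) / 2 * Real.cosh (a + w)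
          + (1 - eerr p c b) / 2 * Real.cosh (a - w)) :=
        Finset.sum_le_sum fun c _ =>
          mul_le_mul_of_nonneg_left (cosh_convex_step a w _ (hbd c).1 (hbd c).2) (h0 c)
    _ = (∑ c, p c) * ((Real.cosh (a + w) + Real.cosh (a - w)) / 2)
          + (∑ c, p c * eerr p c b) * ((Real.cosh (a + w) - Real.cosh (a - w)) / 2) := by
        simp only [Finset.sum_mul, ← Finset.sum_add_distrib]
        exact Finset.sum_congr rfl fun c _ => by ring
    _ = Real.cosh a * Real.cosh w := by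
        rw [hs, sum_mul_eerr p hs b, Real.cosh_add, Real.cosh_sub]; ring
    _ ≤ _ := mul_le_mul_of_nonneg_left (Real.cosh_le_exp_half_sq w) (Real.cosh_pos a).le

variable {P G : Type*} [Fintype P] [DecidableEq P] [Fintype G] [DecidableEq G]

/-- Input data of the rounding procedure. -/
structure RData (Cl P G : Type*) where
  H : Finset P
  rank : P → ℕ
  col : P → P → ℝ
  h : Cl → P → ℝ
  cost : Cl → P → ℝ
  grp : P → G
  pin : Finset P
  b0 : Cl
  lam : ℝ
  eps : ℝ
  d0 : ℝ
  phi0 : ℝ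
  L0 : ℝ

namespace RData

variable (D : RData Cl P G)

/-- Remaining squared influence on the point `t`. -/
noncomputable def var (R : Finset P) (t : P) : ℝ := ∑ x ∈ R.erase t, D.col x t ^ 2

/-- Number of pinned points of the group `g` that received a non-default class. -/
noncomputable def bad (S : Finset P) (c : P → Cl) (g : G) : ℕ :=
  ((S ∩ D.pin).filter fun x => D.grp x = g ∧ c x ≠ D.b0).card

/-- Number of pinned points of the group `g` still to be processed. -/
noncomputable def rem (R : Finset P) (g : G) : ℕ :=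
  ((R ∩ D.pin).filter fun x => D.grp x = g).card

/-- The potential. -/
noncomputable def pot (S : Finset P) (c : P → Cl) (Z : Cl → P → ℝ) : ℝ :=
  ((∑ b, ∑ t, Real.cosh (D.lam * Z b t) * Real.exp (D.lam ^ 2 / 2 * D.var (D.H \ S) t))
      + ∑ g, (2 : ℝ) ^ D.bad S c g * (1 + D.d0) ^ D.rem (D.H \ S) g) / D.phi0
    + ((∑ x ∈ S, D.cost (c x) x) + ∑ x ∈ D.H \ S, ∑ b, (D.h b x + D.eps) * D.cost b x) / D.L0

end RData

/-- The hypotheses of the rounding procedure. -/
structure RHyp (D : RData Cl P G) (V : ℝ) (Kc : ℕ) : Prop where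
  col_self : ∀ x ∈ D.H, D.col x x = 1
  col_rank : ∀ x ∈ D.H, ∀ t ∈ D.H, D.col x t ≠ 0 → t = x ∨ D.rank t < D.rank x
  var_le : ∀ t, ∑ x ∈ D.H.erase t, D.col x t ^ 2 ≤ V
  lam_var : D.lam ^ 2 * V ≤ 2
  h_lb : ∀ x ∈ D.H, ∀ b, D.eps ≤ D.h b x
  h_sum : ∀ x, ∑ b, D.h b x = 1
  cost_nn : ∀ b x, 0 ≤ D.cost b x
  eps_pos : 0 < D.eps
  pin_small : ∀ x ∈ D.H, x ∈ D.pin →
    ∑ b ∈ Finset.univ.erase D.b0, (D.h b x + D.eps) ≤ D.d0
  rem_le : ∀ g, D.rem D.H g ≤ Kc
  d0_nn : 0 ≤ D.d0
  d0_Kc : D.d0 * Kc ≤ 1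
  phi0_eq : D.phi0 = (Fintype.card Cl * Fintype.card P + Fintype.card G : ℝ) * Real.exp 1
  lam_eps : 2 * D.phi0 < Real.cosh (D.lam * D.eps)
  L0_pos : 0 < D.L0
  L0_le : ∑ x ∈ D.H, ∑ b, (D.h b x + D.eps) * D.cost b x ≤ D.L0

theorem RHyp.phi0_pos {D : RData Cl P G} {V : ℝ} {Kc : ℕ} (H : RHyp D V Kc) [Nonempty G] :
    0 < D.phi0 := by
  rw [H.phi0_eq]
  have : (0 : ℝ) < Fintype.card G := by exact_mod_cast Fintype.card_pos
  positivity

theorem RHyp.bound_of_pot [Nonempty G] {D : RData Cl P G} {V : ℝ} {Kc : ℕ} (H : RHyp D V Kc)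
    {S : Finset P} {c : P → Cl} {Z : Cl → P → ℝ} (hS : S ⊆ D.H) (hp : D.pot S c Z ≤ 2) :
    (∀ b t, |Z b t| ≤ D.eps) ∧ (∀ g, (2 : ℝ) ^ D.bad S c g ≤ 2 * D.phi0) ∧
      ∑ x ∈ S, D.cost (c x) x ≤ 2 * D.L0 := by
  classical
  have hphi := H.phi0_pos
  set A := ∑ b, ∑ t, Real.cosh (D.lam * Z b t) * Real.exp (D.lam ^ 2 / 2 * D.var (D.H \ S) t)
    with hA
  set B := ∑ g, (2 : ℝ) ^ D.bad S c g * (1 + D.d0) ^ D.rem (D.H \ S) g with hB
  set C := ∑ x ∈ S, D.cost (c x) x
  set R := ∑ x ∈ D.H \ S, ∑ b, (D.h b x + D.eps) * D.cost b x with hR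
  have hterm : ∀ (b : Cl) (t : P), 1 ≤ Real.exp (D.lam ^ 2 / 2 * D.var (D.H \ S) t) := fun b t =>
    Real.one_le_exp (mul_nonneg (by positivity) (Finset.sum_nonneg fun _ _ => sq_nonneg _))
  have hA0 : 0 ≤ A := Finset.sum_nonneg fun b _ => Finset.sum_nonneg fun t _ =>
    mul_nonneg (Real.cosh_pos _).le (Real.exp_pos _).le
  have hd0 := H.d0_nn
  have hB0 : 0 ≤ B := Finset.sum_nonneg fun g _ => by positivity
  have hC0 : 0 ≤ C := Finset.sum_nonneg fun _ _ => H.cost_nn _ _
  have hR0 : 0 ≤ R := Finset.sum_nonneg fun x hx => Finset.sum_nonneg fun b _ =>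
    mul_nonneg (by linarith [H.h_lb x (Finset.mem_sdiff.1 hx).1 b, H.eps_pos]) (H.cost_nn _ _)
  have hp' : (A + B) / D.phi0 + (C + R) / D.L0 ≤ 2 := hp
  have h1 : 0 ≤ (A + B) / D.phi0 := by positivity
  have h2 : 0 ≤ (C + R) / D.L0 := div_nonneg (by linarith) H.L0_pos.le
  have h3 : A + B ≤ 2 * D.phi0 := (div_le_iff₀ hphi).1 (by linarith)
  have h4 : C + R ≤ 2 * D.L0 := (div_le_iff₀ H.L0_pos).1 (by linarith)
  refine ⟨fun b t => ?_, fun g => ?_, by linarith⟩
  · by_contra hlt
    push Not at hlt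
    have h5 : Real.cosh (D.lam * Z b t) ≤ A := by
      calc Real.cosh (D.lam * Z b t)
          ≤ Real.cosh (D.lam * Z b t) * Real.exp (D.lam ^ 2 / 2 * D.var (D.H \ S) t) :=
            le_mul_of_one_le_right (Real.cosh_pos _).le (hterm b t)
        _ ≤ ∑ t, Real.cosh (D.lam * Z b t) * Real.exp (D.lam ^ 2 / 2 * D.var (D.H \ S) t) :=
            Finset.single_le_sum
              (f := fun t => Real.cosh (D.lam * Z b t)
                * Real.exp (D.lam ^ 2 / 2 * D.var (D.H \ S) t))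
              (fun t _ => mul_nonneg (Real.cosh_pos _).le (Real.exp_pos _).le) (Finset.mem_univ t)
        _ ≤ A := Finset.single_le_sum
              (f := fun b => ∑ t, Real.cosh (D.lam * Z b t)
                * Real.exp (D.lam ^ 2 / 2 * D.var (D.H \ S) t))
              (fun b _ => Finset.sum_nonneg fun t _ =>
                mul_nonneg (Real.cosh_pos _).le (Real.exp_pos _).le) (Finset.mem_univ b)
    have h6 : Real.cosh (D.lam * D.eps) ≤ Real.cosh (D.lam * Z b t) := by
      rw [Real.cosh_le_cosh, abs_mul, abs_mul, abs_of_pos H.eps_pos]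
      exact mul_le_mul_of_nonneg_left hlt.le (abs_nonneg _)
    linarith [H.lam_eps]
  · calc (2 : ℝ) ^ D.bad S c g
        ≤ (2 : ℝ) ^ D.bad S c g * (1 + D.d0) ^ D.rem (D.H \ S) g :=
          le_mul_of_one_le_right (by positivity) (one_le_pow₀ (by linarith))
      _ ≤ B := Finset.single_le_sum
            (f := fun g => (2 : ℝ) ^ D.bad S c g * (1 + D.d0) ^ D.rem (D.H \ S) g)
            (fun g _ => by positivity) (Finset.mem_univ g)
      _ ≤ _ := by linarith

/-- The invariant of the rounding procedure. -/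
def Good (D : RData Cl P G) (W : Submodule ℝ (P → ℝ)) (S : Finset P) : Prop :=
  ∃ (c : P → Cl) (Z : Cl → P → ℝ),
    (∀ b, (fun t => if t ∈ S then (if c t = b then (1 : ℝ) else 0) - D.h b t else Z b t) ∈ W) ∧
    (∀ t, ∑ b, Z b t = 0) ∧ D.pot S c Z ≤ 2

theorem good_empty [Nonempty G] {D : RData Cl P G} {V : ℝ} {Kc : ℕ} (H : RHyp D V Kc)
    (W : Submodule ℝ (P → ℝ)) : Good D W ∅ := by
  classical
  refine ⟨fun _ => D.b0, fun _ _ => 0, fun b => ?_, fun t => by simp, ?_⟩
  · have : (fun _ : P => (0 : ℝ)) ∈ W := W.zero_mem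
    simpa using this
  · have hphi := H.phi0_pos
    simp only [RData.pot, Finset.sdiff_empty, Finset.sum_empty, zero_add, mul_zero, Real.cosh_zero,
      one_mul, RData.bad, Finset.empty_inter, Finset.filter_empty, Finset.card_empty, pow_zero]
    have h1 : ∀ t, Real.exp (D.lam ^ 2 / 2 * D.var D.H t) ≤ Real.exp 1 := fun t => by
      refine Real.exp_le_exp.2 ?_
      have := mul_le_mul_of_nonneg_left (H.var_le t) (sq_nonneg D.lam)
      unfold RData.var
      nlinarith [H.lam_var]
    have h2 : ∀ g, (1 + D.d0) ^ D.rem D.H g ≤ Real.exp 1 := fun g => by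
      calc (1 + D.d0) ^ D.rem D.H g ≤ Real.exp D.d0 ^ D.rem D.H g :=
            pow_le_pow_left₀ (by linarith [H.d0_nn])
              (by linarith [Real.add_one_le_exp D.d0]) _
        _ = Real.exp (D.d0 * D.rem D.H g) := by rw [← Real.exp_nat_mul]; ring_nf
        _ ≤ _ := Real.exp_le_exp.2 <| (mul_le_mul_of_nonneg_left
              (by exact_mod_cast H.rem_le g) H.d0_nn).trans H.d0_Kc
    have hsum : (∑ _b : Cl, ∑ t, Real.exp (D.lam ^ 2 / 2 * D.var D.H t))
        + ∑ g, (1 + D.d0) ^ D.rem D.H g ≤ D.phi0 := by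
      rw [H.phi0_eq, add_mul]
      refine add_le_add ?_ ?_
      · calc _ ≤ ∑ _b : Cl, ∑ _t : P, Real.exp 1 :=
              Finset.sum_le_sum fun _ _ => Finset.sum_le_sum fun t _ => h1 t
          _ = _ := by simp [mul_assoc]
      · calc _ ≤ ∑ _g : G, Real.exp 1 := Finset.sum_le_sum fun g _ => h2 g
          _ = _ := by simp
    have h3 := (div_le_one hphi).2 hsum
    have h4 := (div_le_one H.L0_pos).2 H.L0_le
    linarith

theorem good_step [Nonempty G] {D : RData Cl P G} {V : ℝ} {Kc : ℕ} (H : RHyp D V Kc)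
    (W : Submodule ℝ (P → ℝ)) (hW : ∀ x ∈ D.H, D.col x ∈ W) {S : Finset P} {x : P}
    (hS : S ⊆ D.H) (hx : x ∈ D.H \ S) (hup : ∀ t ∈ S, D.rank x ≤ D.rank t)
    (hg : Good D W S) : Good D W (insert x S) := by
  classical
  obtain ⟨c, Z, hWm, hZ0, hpot⟩ := hg
  obtain ⟨hxH, hxS⟩ := Finset.mem_sdiff.1 hx
  have hphi := H.phi0_pos
  obtain ⟨hZe, -, -⟩ := H.bound_of_pot hS hpot
  set p : Cl → ℝ := fun b => D.h b x + Z b x with hp
  have hp0 : ∀ b, 0 ≤ p b := fun b => by
    have := (abs_le.1 (hZe b x)).1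
    have := H.h_lb x hxH b
    simp only [hp]; linarith
  have hps : ∑ b, p b = 1 := by
    simp [hp, Finset.sum_add_distrib, H.h_sum, hZ0]
  let c' : Cl → P → Cl := fun k => Function.update c x k
  let Z' : Cl → Cl → P → ℝ := fun k b t =>
    if t = x then Z b t else Z b t + eerr p k b * D.col x t
  have hR : D.H \ insert x S = (D.H \ S).erase x := by
    ext t; simp; tauto
  set R := D.H \ S with hRd
  -- the influence part
  have hA : ∀ b t, ∑ k, p k * (Real.cosh (D.lam * Z' k b t)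
      * Real.exp (D.lam ^ 2 / 2 * D.var (R.erase x) t))
      ≤ Real.cosh (D.lam * Z b t) * Real.exp (D.lam ^ 2 / 2 * D.var R t) := by
    intro b t
    by_cases htx : t = x
    · subst htx
      simp only [Z', if_true, ← Finset.sum_mul, hps, one_mul]
      have : D.var (R.erase t) t = D.var R t := by simp [RData.var]
      rw [this]
    · have hv : D.var R t = D.col x t ^ 2 + D.var (R.erase x) t := by
        unfold RData.var
        rw [← Finset.add_sum_erase (R.erase t) _ (Finset.mem_erase.2 ⟨Ne.symm htx, hx⟩),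
          Finset.erase_right_comm]
      simp only [Z', if_neg htx, ← mul_assoc, ← Finset.sum_mul]
      rw [hv, mul_add, Real.exp_add, ← mul_assoc]
      refine mul_le_mul_of_nonneg_right ?_ (Real.exp_pos _).le
      calc ∑ k, p k * Real.cosh (D.lam * (Z b t + eerr p k b * D.col x t))
          = ∑ k, p k * Real.cosh (D.lam * Z b t + eerr p k b * (D.lam * D.col x t)) :=
            Finset.sum_congr rfl fun k _ => by ring_nf
        _ ≤ _ := cosh_step p hp0 hps b _ _
        _ = _ := by ring_nf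
  -- the pinned part
  have hB : ∀ g, ∑ k, p k * ((2 : ℝ) ^ D.bad (insert x S) (c' k) g
      * (1 + D.d0) ^ D.rem (R.erase x) g)
      ≤ (2 : ℝ) ^ D.bad S c g * (1 + D.d0) ^ D.rem R g := by
    intro g
    have hbad : ∀ k, D.bad (insert x S) (c' k) g = D.bad S c g
        + if x ∈ D.pin ∧ D.grp x = g ∧ k ≠ D.b0 then 1 else 0 := by
      intro k
      have he : ∀ t ∈ S, c' k t = c t := fun t ht =>
        Function.update_of_ne (fun h : t = x => hxS (h ▸ ht)) _ _
      have hcx : c' k x = k := Function.update_self ..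
      unfold RData.bad
      split
      · next h =>
        rw [← Finset.card_insert_of_notMem (a := x) (s := (S ∩ D.pin).filter fun t =>
          D.grp t = g ∧ c t ≠ D.b0) (by simp [hxS])]
        congr 1
        ext t
        by_cases htx : t = x
        · subst htx; simp [h, hcx]
        · simp only [Finset.mem_filter, Finset.mem_inter, Finset.mem_insert, htx, false_or]
          constructor
          · rintro ⟨⟨a, b⟩, u, v⟩; exact ⟨⟨a, b⟩, u, he t a ▸ v⟩
          · rintro ⟨⟨a, b⟩, u, v⟩; exact ⟨⟨a, b⟩, u, (he t a).symm ▸ v⟩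
      · next h =>
        rw [add_zero]
        congr 1
        ext t
        by_cases htx : t = x
        · subst htx; simp [hcx, hxS]; tauto
        · simp only [Finset.mem_filter, Finset.mem_inter, Finset.mem_insert, htx, false_or]
          constructor
          · rintro ⟨⟨a, b⟩, u, v⟩; exact ⟨⟨a, b⟩, u, he t a ▸ v⟩
          · rintro ⟨⟨a, b⟩, u, v⟩; exact ⟨⟨a, b⟩, u, (he t a).symm ▸ v⟩
    have hrem : D.rem R g = D.rem (R.erase x) g
        + if x ∈ D.pin ∧ D.grp x = g then 1 else 0 := by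
      unfold RData.rem
      rw [Finset.erase_inter, Finset.filter_erase, Finset.card_erase_eq_ite]
      by_cases h : x ∈ D.pin ∧ D.grp x = g
      · rw [if_pos h, if_pos (by simp [hx, h.1, h.2])]
        have : 0 < ((R ∩ D.pin).filter fun t => D.grp t = g).card :=
          Finset.card_pos.2 ⟨x, by simp [hx, h.1, h.2]⟩
        omega
      · rw [if_neg h, if_neg (by simp; tauto)]; simp
    simp only [hbad, hrem, pow_add]
    by_cases h : x ∈ D.pin ∧ D.grp x = g
    · have hsum : ∑ k, p k * (2 : ℝ) ^ (if k ≠ D.b0 then 1 else 0 : ℕ) ≤ 1 + D.d0 := by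
        have h5 : ∀ k, p k * (2 : ℝ) ^ (if k ≠ D.b0 then 1 else 0 : ℕ)
            = p k + if k ≠ D.b0 then p k else 0 := fun k => by
          split <;> simp <;> ring
        rw [Finset.sum_congr rfl fun k _ => h5 k, Finset.sum_add_distrib, hps,
          ← Finset.sum_filter, Finset.filter_ne']
        refine add_le_add le_rfl (le_trans ?_ (H.pin_small x hxH h.1))
        exact Finset.sum_le_sum fun k _ => by
          simp only [hp]; linarith [(abs_le.1 (hZe k x)).2]
      simp only [h.1, h.2, true_and, and_self, if_true, pow_one]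
      calc _ = (2 : ℝ) ^ D.bad S c g * (1 + D.d0) ^ D.rem (R.erase x) g
            * ∑ k, p k * (2 : ℝ) ^ (if k ≠ D.b0 then 1 else 0 : ℕ) := by
              rw [Finset.mul_sum]; exact Finset.sum_congr rfl fun k _ => by ring
        _ ≤ (2 : ℝ) ^ D.bad S c g * (1 + D.d0) ^ D.rem (R.erase x) g * (1 + D.d0) :=
              mul_le_mul_of_nonneg_left hsum (by have := H.d0_nn; positivity)
        _ = _ := by ring
    · have h6 : ∀ k, ¬(x ∈ D.pin ∧ D.grp x = g ∧ k ≠ D.b0) := fun k hk => h ⟨hk.1, hk.2.1⟩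
      simp [h, h6, ← Finset.sum_mul, hps]
  -- the cost part
  have hC : ∑ k, p k * ((∑ t ∈ insert x S, D.cost (c' k t) t)
      + ∑ t ∈ R.erase x, ∑ b, (D.h b t + D.eps) * D.cost b t)
      ≤ (∑ t ∈ S, D.cost (c t) t) + ∑ t ∈ R, ∑ b, (D.h b t + D.eps) * D.cost b t := by
    have h7 : ∀ k, ∑ t ∈ insert x S, D.cost (c' k t) t
        = D.cost k x + ∑ t ∈ S, D.cost (c t) t := fun k => by
      rw [Finset.sum_insert hxS]
      congr 1
      · simp [c']
      · exact Finset.sum_congr rfl fun t ht => by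
          simp [c', Function.update_of_ne (fun h : t = x => hxS (h ▸ ht))]
    simp only [h7, mul_add, Finset.sum_add_distrib, ← Finset.sum_mul, hps, one_mul]
    rw [← Finset.add_sum_erase R _ hx]
    have h8 : ∑ k, p k * D.cost k x ≤ ∑ b, (D.h b x + D.eps) * D.cost b x :=
      Finset.sum_le_sum fun k _ => mul_le_mul_of_nonneg_right
        (by simp only [hp]; linarith [(abs_le.1 (hZe k x)).2]) (H.cost_nn k x)
    linarith
  have havg : ∑ k, p k * D.pot (insert x S) (c' k) (Z' k) ≤ D.pot S c Z := by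
    simp only [RData.pot, hR]
    simp only [mul_add, ← mul_div_assoc, Finset.sum_add_distrib, ← Finset.sum_div]
    have hA' := Finset.sum_le_sum fun b (_ : b ∈ (Finset.univ : Finset Cl)) =>
      Finset.sum_le_sum fun t (_ : t ∈ (Finset.univ : Finset P)) => hA b t
    have hB' := Finset.sum_le_sum fun g (_ : g ∈ (Finset.univ : Finset G)) => hB g
    simp only [Finset.mul_sum] at *
    have e1 : ∑ k, ∑ b, ∑ t, p k * (Real.cosh (D.lam * Z' k b t)
        * Real.exp (D.lam ^ 2 / 2 * D.var (R.erase x) t))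
        = ∑ b, ∑ t, ∑ k, p k * (Real.cosh (D.lam * Z' k b t)
        * Real.exp (D.lam ^ 2 / 2 * D.var (R.erase x) t)) := by
      rw [Finset.sum_comm]; exact Finset.sum_congr rfl fun b _ => Finset.sum_comm
    simp only [mul_add, Finset.sum_add_distrib, Finset.mul_sum] at hC
    rw [e1, Finset.sum_comm (f := fun k g => p k * ((2 : ℝ) ^ D.bad (insert x S) (c' k) g
      * (1 + D.d0) ^ D.rem (R.erase x) g))]
    refine add_le_add (div_le_div_of_nonneg_right (add_le_add hA' hB') hphi.le)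
      (div_le_div_of_nonneg_right ?_ H.L0_pos.le)
    exact hC
  obtain ⟨k, hk⟩ : ∃ k, D.pot (insert x S) (c' k) (Z' k) ≤ 2 := by
    by_contra hne
    push Not at hne
    have : ∑ k, p k * 2 < ∑ k, p k * D.pot (insert x S) (c' k) (Z' k) := by
      refine Finset.sum_lt_sum (fun k _ => mul_le_mul_of_nonneg_left (hne k).le (hp0 k)) ?_
      obtain ⟨k, -, hk⟩ := Finset.exists_lt_of_sum_lt
        (s := (Finset.univ : Finset Cl)) (f := fun _ => (0 : ℝ)) (g := p) (by simp [hps])
      exact ⟨k, Finset.mem_univ k, mul_lt_mul_of_pos_left (hne k) hk⟩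
    rw [← Finset.sum_mul, hps] at this
    linarith
  refine ⟨c' k, Z' k, fun b => ?_, fun t => ?_, hk⟩
  · convert W.add_mem (hWm b) (W.smul_mem (eerr p k b) (hW x hxH)) using 1
    funext t
    simp only [Pi.add_apply, Pi.smul_apply, smul_eq_mul, Finset.mem_insert]
    by_cases htx : t = x
    · subst htx
      simp [hxS, c', H.col_self t hxH, eerr, hp]
      ring
    · by_cases htS : t ∈ S
      · have hcol : D.col x t = 0 := by
          by_contra hne
          rcases H.col_rank x hxH t (hS htS) hne with h | h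
          · exact htx h
          · exact absurd (hup t htS) (not_le.2 h)
        simp [htx, htS, c', hcol, Function.update_of_ne htx]
      · simp [htx, htS, Z']
  · simp only [Z']
    by_cases htx : t = x
    · simp [htx, hZ0]
    · simp [htx, Finset.sum_add_distrib, hZ0, ← Finset.sum_mul, sum_eerr p hps k]

theorem good_all [Nonempty G] {D : RData Cl P G} {V : ℝ} {Kc : ℕ} (H : RHyp D V Kc)
    (W : Submodule ℝ (P → ℝ)) (hW : ∀ x ∈ D.H, D.col x ∈ W) : Good D W D.H := by
  classical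
  have key : ∀ n ≤ D.H.card, ∃ S ⊆ D.H, S.card = n ∧ Good D W S ∧
      ∀ x ∈ D.H \ S, ∀ t ∈ S, D.rank x ≤ D.rank t := by
    intro n
    induction n with
    | zero => exact fun _ => ⟨∅, Finset.empty_subset _, rfl, good_empty H W, by simp⟩
    | succ n ih =>
      intro hn
      obtain ⟨S, hS, hc, hg, hup⟩ := ih (by omega)
      have hne : (D.H \ S).Nonempty := by
        rw [← Finset.card_pos, Finset.card_sdiff_of_subset hS]; omega
      obtain ⟨x, hx, hmax⟩ := Finset.exists_max_image (D.H \ S) D.rank hne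
      obtain ⟨hxH, hxS⟩ := Finset.mem_sdiff.1 hx
      refine ⟨insert x S, Finset.insert_subset hxH hS, by simp [hxS, hc],
        good_step H W hW hS hx (hup x hx) hg, fun y hy t ht => ?_⟩
      have hy' : y ∈ D.H \ S := by simp at hy ⊢; tauto
      rcases Finset.mem_insert.1 ht with rfl | ht
      · exact hmax y hy'
      · exact hup y hy' t ht
  obtain ⟨S, hS, hc, hg, -⟩ := key _ le_rfl
  rwa [Finset.eq_of_subset_of_card_le hS hc.ge] at hg

/-- The outcome of the rounding procedure. -/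
theorem rounding [Nonempty G] {D : RData Cl P G} {V : ℝ} {Kc : ℕ} (H : RHyp D V Kc)
    (W : Submodule ℝ (P → ℝ)) (hW : ∀ x ∈ D.H, D.col x ∈ W) :
    ∃ (c : P → Cl) (v : Cl → P → ℝ),
      (∀ b, (fun t => v b t - D.h b t) ∈ W) ∧
      (∀ t ∈ D.H, ∀ b, v b t = if c t = b then 1 else 0) ∧
      (∀ t, t ∉ D.H → ∀ b, |v b t - D.h b t| ≤ D.eps) ∧
      (∀ g, (2 : ℝ) ^ D.bad D.H c g ≤ 2 * D.phi0) ∧
      ∑ x ∈ D.H, D.cost (c x) x ≤ 2 * D.L0 := by
  classical
  obtain ⟨c, Z, hWm, -, hpot⟩ := good_all H W hW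
  obtain ⟨hZ, hb, hc⟩ := H.bound_of_pot (Finset.Subset.refl _) hpot
  refine ⟨c, fun b t => if t ∈ D.H then (if c t = b then 1 else 0) else D.h b t + Z b t,
    fun b => ?_, fun t ht b => if_pos ht, fun t ht b => by simp [ht, hZ b t], hb, hc⟩
  convert hWm b using 1
  funext t
  by_cases ht : t ∈ D.H <;> simp [ht]

end Vale.Agent.P047
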