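import Vale.Agent.P047.Core
import Vale.Agent.P047.Loss
import Vale.Agent.P047.Params

/-! Existence of an amplification gadget with concrete parameters. -/

namespace Vale.Agent.P047

theorem card_attachFin_range {n lo hi : ℕ} (h : hi ≤ n) :
    ∃ S : Finset (Fin n), S.card = hi - lo ∧ ∀ i : Fin n, i ∈ S ↔ lo ≤ (i : ℕ) ∧ (i : ℕ) < hi :=
  ⟨(Finset.Ico lo hi).attachFin fun i hi' => lt_of_lt_of_le (Finset.mem_Ico.1 hi').2 h,
    by simp, fun i => by simp⟩

/-- The mass of the exceptional set in the cost. -/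
theorem capQ_le {n M : ℕ} (hn : 0 < n) (p X : Fin M → ℝ) (hp : ∀ a, 0 ≤ p a)
    (hs : ∑ a, p a = 1) (h1 : ∑ a, p a * X a = 0) (h2 : ∑ a, p a * X a ^ 2 = 1)
    (h6 : ∑ a, p a * X a ^ 6 ≤ 30) {T : ℝ} (hT : 0 < T) (Q : Finset (Fin n → Fin M)) {ε₀ : ℝ}
    (hQ : ∑ x ∈ Q, pmu p x < ε₀) :
    ∑ x ∈ Q, pmu p x * (2 * normSum X x ^ 2 + 2 * T ^ 2)
      ≤ 4 * (T ^ 2 * ε₀) + 2 * ((15 + 100000 / (n : ℝ)) / T ^ 4) := by
  calc ∑ x ∈ Q, pmu p x * (2 * normSum X x ^ 2 + 2 * T ^ 2)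
      ≤ ∑ x ∈ Q, (4 * (T ^ 2 * pmu p x) + 2 * (pmu p x * normSum X x ^ 6 / T ^ 4)) := by
        refine Finset.sum_le_sum fun x _ => ?_
        have h := mul_le_mul_of_nonneg_left (sq_le_sq_add_sixth hT (normSum X x))
          (pmu_nonneg' hp x)
        rw [mul_add, ← mul_div_assoc] at h
        linarith
    _ = 4 * (T ^ 2 * ∑ x ∈ Q, pmu p x)
          + 2 * ((∑ x ∈ Q, pmu p x * normSum X x ^ 6) / T ^ 4) := by
        rw [Finset.sum_add_distrib, Finset.mul_sum, Finset.mul_sum, Finset.sum_div, Finset.mul_sum]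
    _ ≤ _ := by
        have := (Finset.sum_le_sum_of_subset_of_nonneg (Finset.subset_univ Q) fun x _ _ =>
          mul_nonneg (pmu_nonneg' hp x) (by positivity)).trans (normSum_sixth hn hp hs h1 h2 h6)
        gcongr

/-- The total error is small. -/
theorem terms_le (U n D M T L ε K6 P : ℝ) (hU : 1048576 ≤ U) (hn0 : 0 ≤ n) (hn : n ≤ 3 * U ^ 47)
    (hD : U ^ 47 / 2 ≤ D) (hM : M = U ^ 22) (hT : T = U ^ 7) (hL : L = U ^ 8)
    (hK0 : 0 ≤ K6) (hK : K6 ≤ 100015) (hε0 : 0 ≤ ε) (hε : ε ≤ 1 / U ^ 176)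
    (hP : P = 1 / U ^ 27) :
    2 * (4 * (K6 / T ^ 4 + (30 / L ^ 4 + 900 * n / L ^ 10) + n * L ^ 2 * (1000 / D ^ 2)
        + (2 * T / (M - 1)) ^ 2) + 2 * ε * (M * (2 + 2 * T ^ 2)) + P)
      + 3 * (4 * (T ^ 2 * (1 / U ^ 60)) + 2 * (K6 / T ^ 4)) ≤ 100 * P := by
  have hU0 : 0 < U := by linarith
  have hU1 : 1 ≤ U := by linarith
  have hUm : ∀ {i j : ℕ}, i ≤ j → U ^ i ≤ U ^ j := fun h => pow_le_pow_right₀ hU1 h
  have hUs : ∀ {i j : ℕ} {c : ℝ}, i + 1 ≤ j → c ≤ U → c * U ^ i ≤ U ^ j := fun {i j c} hij hc =>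
    (mul_le_mul_of_nonneg_right hc (by positivity)).trans (by rw [← pow_succ']; exact hUm hij)
  subst hT hL hM hP
  have t1 : K6 / (U ^ 7) ^ 4 ≤ 1 / U ^ 27 := by
    rw [← pow_mul, div_le_div_iff₀ (by positivity) (by positivity), one_mul]
    exact (mul_le_mul_of_nonneg_right hK (by positivity)).trans
      (hUs (by norm_num) (by linarith))
  have t2 : 30 / (U ^ 8) ^ 4 ≤ 1 / U ^ 27 := by
    rw [← pow_mul, div_le_div_iff₀ (by positivity) (by positivity), one_mul]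
    exact hUs (by norm_num) (by linarith)
  have t3 : 900 * n / (U ^ 8) ^ 10 ≤ 1 / U ^ 27 := by
    rw [← pow_mul, div_le_div_iff₀ (by positivity) (by positivity), one_mul]
    calc 900 * n * U ^ 27 ≤ 900 * (3 * U ^ 47) * U ^ 27 := by gcongr
      _ = 2700 * U ^ 74 := by ring
      _ ≤ _ := hUs (by norm_num) (by linarith)
  have t4 : n * (U ^ 8) ^ 2 * (1000 / D ^ 2) ≤ 1 / U ^ 27 := by
    refine le_trans (b := 3 * U ^ 47 * (U ^ 8) ^ 2 * (1000 / (U ^ 47 / 2) ^ 2)) ?_ ?_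
    · gcongr
    · rw [le_div_iff₀ (by positivity)]
      calc 3 * U ^ 47 * (U ^ 8) ^ 2 * (1000 / (U ^ 47 / 2) ^ 2) * U ^ 27
          = 12000 * U ^ 90 / U ^ 94 := by field_simp; ring
        _ ≤ 1 := by
          rw [div_le_one (by positivity)]
          exact hUs (by norm_num) (by linarith)
  have hM2 : 2 ≤ U ^ 22 := by
    have := hUm (show 1 ≤ 22 by norm_num); linarith
  have t5 : (2 * U ^ 7 / (U ^ 22 - 1)) ^ 2 ≤ 1 / U ^ 27 := by
    have h : 2 * U ^ 7 / (U ^ 22 - 1) ≤ 4 * U ^ 7 / U ^ 22 := by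
      rw [div_le_div_iff₀ (by linarith) (by positivity)]
      nlinarith [pow_pos hU0 7]
    refine (pow_le_pow_left₀ (div_nonneg (by positivity) (by linarith)) h 2).trans ?_
    rw [div_pow, div_le_div_iff₀ (by positivity) (by positivity), one_mul]
    calc (4 * U ^ 7) ^ 2 * U ^ 27 = 16 * U ^ 41 := by ring
      _ ≤ U ^ 44 := hUs (by norm_num) (by linarith)
      _ = (U ^ 22) ^ 2 := by ring
  have t6 : (U ^ 7) ^ 2 * (1 / U ^ 60) ≤ 1 / U ^ 27 := by
    rw [← pow_mul, mul_one_div, div_le_div_iff₀ (by positivity) (by positivity), one_mul,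
      ← pow_add]
    exact hUm (by norm_num)
  have t7 : ε * (U ^ 22 * (2 + 2 * (U ^ 7) ^ 2)) ≤ 1 / U ^ 27 := by
    have hT1 : 1 ≤ (U ^ 7) ^ 2 := one_le_pow₀ (one_le_pow₀ hU1)
    refine le_trans (b := 1 / U ^ 176 * (U ^ 22 * (4 * (U ^ 7) ^ 2))) ?_ ?_
    · exact mul_le_mul hε (mul_le_mul_of_nonneg_left (by linarith) (by positivity))
        (by positivity) (by positivity)
    · rw [one_div_mul_eq_div, div_le_div_iff₀ (by positivity) (by positivity), one_mul]
      calc U ^ 22 * (4 * (U ^ 7) ^ 2) * U ^ 27 = 4 * U ^ 63 := by ring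
        _ ≤ _ := hUs (by norm_num) (by linarith)
  have : 0 ≤ 1 / U ^ 27 := by positivity
  linarith

theorem stage (e : ℕ) (he : 20 ≤ e) (he' : 1000 * e ≤ 2 ^ e) :
    ∃ (n s M : ℕ) (κ : ℝ), GadgetParams n s M κ ∧ IsGadget n s M κ := by
  classical
  set u := 2 ^ e with hu
  set M := u ^ 22 with hM
  set q := u ^ 25 with hq
  set a := u ^ 47 with ha
  set k := 8 * u ^ 23 with hk
  set n := 2 * a + k with hn
  obtain ⟨⟨hM2, hMa, hMq, hkk⟩, hvar, hsmall, hbig⟩ :=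
    numerics e he he' u hu M q a k n hM hq ha hk hn
  have hu20 : 2 ^ 20 ≤ u := Nat.pow_le_pow_right (by norm_num) he
  have hn0 : 0 < n := by omega
  have hM4 : 4 ≤ M := le_trans (le_trans (by norm_num) hu20) (Nat.le_self_pow (by norm_num) u)
  set U : ℝ := (u : ℝ) with hU
  have hU20 : (1048576 : ℝ) ≤ U := by
    rw [hU]; exact_mod_cast le_trans (by norm_num : (1048576 : ℕ) ≤ 2 ^ 20) hu20
  have hU0 : 0 < U := by linarith
  have hU1 : 1 ≤ U := by linarith
  have hUm : ∀ {i j : ℕ}, i ≤ j → U ^ i ≤ U ^ j := fun h => pow_le_pow_right₀ hU1 h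
  have hUs : ∀ {i j : ℕ} {c : ℝ}, i + 1 ≤ j → c ≤ U → c * U ^ i ≤ U ^ j := fun {i j c} hij hc =>
    (mul_le_mul_of_nonneg_right hc (by positivity)).trans (by rw [← pow_succ']; exact hUm hij)
  have hMR : (M : ℝ) = U ^ 22 := by rw [hM, hU]; push_cast; rfl
  have haR : (a : ℝ) = U ^ 47 := by rw [ha, hU]; push_cast; rfl
  have hMR2 : (2 : ℝ) ≤ M := by exact_mod_cast hM2
  have hMaR : 2 * (M : ℝ) ≤ a := by exact_mod_cast hMa
  have hnR : U ^ 47 ≤ (n : ℝ) ∧ (n : ℝ) ≤ 3 * U ^ 47 := by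
    have h1 : (k : ℝ) = 8 * U ^ 23 := by rw [hk, hU]; push_cast; rfl
    have h2 : 8 * U ^ 23 ≤ U ^ 47 := hUs (by norm_num) (by linarith)
    have h3 : (n : ℝ) = 2 * (a : ℝ) + k := by rw [hn]; push_cast; rfl
    have h4 : 0 ≤ (k : ℝ) := Nat.cast_nonneg _
    constructor <;> linarith [pow_nonneg hU0.le 47]
  have hn0' : (0 : ℝ) < n := by exact_mod_cast hn0
  set P : ℝ := 1 / U ^ 27 with hP
  have hP0 : 0 < P := by rw [hP]; positivity
  set κ : ℝ := 100 * P with hκ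
  have hκ1 : κ ≤ 1 / 10 := by
    rw [hκ, hP, mul_one_div, div_le_div_iff₀ (by positivity) (by norm_num), one_mul]
    linarith [Nat.le_self_pow (show 27 ≠ 0 by norm_num) u, hUs (i := 26) (j := 27) (c := 1000)
      le_rfl (by linarith), hUm (Nat.zero_le 26)]
  refine ⟨n, M, M, κ, ⟨hM2, by omega, by omega, by positivity, ?_, ?_⟩, ?_⟩
  · have : (n : ℝ) * κ < M := by
      refine lt_of_le_of_lt (mul_le_mul_of_nonneg_right hnR.2 (by positivity)) ?_
      rw [hκ, hP, hMR, mul_one_div, mul_div_assoc', div_lt_iff₀ (by positivity), ← pow_add]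
      have : 300 * U ^ 47 < U ^ (22 + 27) := lt_of_lt_of_le
        (mul_lt_mul_of_pos_right (show (300 : ℝ) < U by linarith) (by positivity))
        (by rw [← pow_succ']; exact hUm (by norm_num))
      linarith
    linarith
  · have h1 : 100000 / (n : ℝ) ≤ 1 := by
      rw [div_le_one hn0']
      linarith [hnR.1, hUs (i := 0) (j := 47) (c := 100000) (by norm_num) (by linarith)]
    have h2 := pow_le_pow_left₀ (by norm_num) (show (9 / 10 : ℝ) ≤ 1 - κ by linarith) 3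
    linarith
  intro p X hp hs h1 h2 h6
  have : Nonempty (Fin M) := ⟨⟨0, by omega⟩⟩
  obtain ⟨A, hAc, hA⟩ := card_attachFin_range (n := n) (lo := 0) (hi := a) (by omega)
  obtain ⟨B, hBc, hB⟩ := card_attachFin_range (n := n) (lo := a) (hi := 2 * a) (by omega)
  obtain ⟨C, hCc, hC⟩ := card_attachFin_range (n := n) (lo := 2 * a) (hi := n) le_rfl
  replace hAc : A.card = a := by omega
  replace hBc : B.card = a := by omega
  replace hCc : C.card = k := by omega
  have hAB : Disjoint A B := Finset.disjoint_left.2 fun i hi hi' => by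
    have := (hA i).1 hi; have := (hB i).1 hi'; omega
  have hAC : Disjoint A C := Finset.disjoint_left.2 fun i hi hi' => by
    have := (hA i).1 hi; have := (hC i).1 hi'; omega
  have hABC : Disjoint (A ∪ B) C := Finset.disjoint_left.2 fun i hi hi' => by
    have := (hC i).1 hi'
    rcases Finset.mem_union.1 hi with h | h
    · have := (hA i).1 h; omega
    · have := (hB i).1 h; omega
  have hcAB : (A ∪ B).card = 2 * a := by rw [Finset.card_union_of_disjoint hAB]; omega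
  have hμ0 : ∀ x : Fin n → Fin M, 0 ≤ pmu p x := pmu_nonneg' hp
  obtain ⟨m, hm, hmfew, hmQ⟩ := exists_markers A C hAC M n (pmu p) hμ0 (pmu_sum hs)
    (1 / U ^ 60) (by positivity) (by simpa [hAc, hCc] using hsmall)
  set T : ℝ := U ^ 7 with hT
  set L : ℝ := U ^ 8 with hL
  have hT0 : 0 < T := by rw [hT]; positivity
  have hT1 : 1 ≤ T := one_le_pow₀ hU1
  obtain ⟨h₀, Y, hnn, hsum, hlow, hYT, hloss⟩ := predictor (D := a - M) hn0 hM2 (by omega) p X
    hp hs h1 h2 h6 (A ∪ B) (M + A.card) (by omega) T L hT0 (by rw [hL]; positivity)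
  set cost : Fin M → (Fin n → Fin M) → ℝ := fun b x => pmu p x * (normSum X x - Y b) ^ 2 with hcd
  set cap : (Fin n → Fin M) → ℝ := fun x => pmu p x * (2 * normSum X x ^ 2 + 2 * T ^ 2) with hpd
  have hcap : ∀ b x, cost b x ≤ cap x := fun b x => by
    refine mul_le_mul_of_nonneg_left ?_ (hμ0 x)
    have hy := pow_le_pow_left₀ (abs_nonneg _) (hYT b) 2
    rw [sq_abs] at hy
    nlinarith [sq_nonneg (normSum X x + Y b)]
  set ε : ℝ := 1 / (M : ℝ) ^ (2 * k) with hε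
  have hMp : 0 < (M : ℝ) ^ (2 * k) := by positivity
  obtain ⟨F, hFlow, hFcost⟩ := core (Cl := Fin M) A B C hAB hABC M (u ^ 23) n ((n + 1) * M + 4)
    (⟨0, by omega⟩ : Fin M) m hm hmfew (by omega) h₀ hnn hsum hlow cost
    (fun b x => mul_nonneg (hμ0 x) (sq_nonneg _)) cap hcap ε
    ((((n + 6) * M : ℕ) : ℝ) * (M : ℝ) ^ (2 * k)) P (by positivity) hP0
    (by
      rw [Fintype.card_fin, hε, mul_one_div, div_le_one hMp]
      exact le_self_pow₀ (by linarith) (by omega))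
    (by
      rw [Fintype.card_fin, hCc, hε, mul_one_div, div_mul_eq_mul_div, div_le_one hMp]
      calc 2 * (M : ℝ) * (M : ℝ) ^ k ≤ (M : ℝ) * M * (M : ℝ) ^ k := by gcongr
        _ = (M : ℝ) ^ (k + 2) := by ring
        _ ≤ (M : ℝ) ^ (2 * k) := pow_le_pow_right₀ (by linarith) (by omega))
    (by simpa [hAc, hBc] using hvar)
    (by
      rw [Fintype.card_fin, Fintype.card_fin, hε, mul_assoc (((n + 6) * M : ℕ) : ℝ),
        mul_one_div_cancel hMp.ne', mul_one]
      exact threshold_lt_cosh M n (by omega))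
    (by rw [Fintype.card_fin, Fintype.card_fin]; exact threshold_lt M n (by omega))
    (by omega)
    (by rw [Fintype.card_fin, hcAB, hCc]; exact hbig)
  refine ⟨F, Y, hFlow, ?_⟩
  -- evaluation of the loss
  have hcap_sum : ∑ x : Fin n → Fin M, cap x = 2 + 2 * T ^ 2 := by
    simp only [hpd, mul_add, Finset.sum_add_distrib, ← Finset.sum_mul, pmu_sum hs,
      mul_left_comm (pmu p _) (2 : ℝ), ← Finset.mul_sum, normSum_sq hn0 hs h1 h2]
    ring
  have hA1 : ∑ x, ∑ b, cost b x ≤ M * (2 + 2 * T ^ 2) := by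
    rw [← hcap_sum, Finset.mul_sum]
    refine Finset.sum_le_sum fun x _ => (Finset.sum_le_sum fun b _ => hcap b x).trans ?_
    simp
  have hA0 : ∑ x, ∑ b, h₀ b x * cost b x
      = ∑ x, pmu p x * ∑ b, h₀ b x * (normSum X x - Y b) ^ 2 :=
    Finset.sum_congr rfl fun x _ => by
      rw [Finset.mul_sum]
      exact Finset.sum_congr rfl fun b _ => by rw [hcd]; ring
  have hcQ := capQ_le hn0 p X hp hs h1 h2 h6 hT0 _ hmQ
  have hε0 : 0 ≤ ε := by rw [hε]; positivity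
  have hεU : ε ≤ 1 / U ^ 176 := by
    rw [hε]
    refine one_div_le_one_div_of_le (by positivity) ?_
    rw [hMR, ← pow_mul]
    exact hUm (by omega)
  have hD : U ^ 47 / 2 ≤ ((a - M : ℕ) : ℝ) := by
    rw [Nat.cast_sub (by omega)]; linarith
  have hK : 15 + 100000 / (n : ℝ) ≤ 100015 := by
    have : 100000 / (n : ℝ) ≤ 100000 := div_le_self (by norm_num) (by exact_mod_cast hn0)
    linarith
  have ht := terms_le U n ((a - M : ℕ) : ℝ) M T L ε _ P hU20 hn0'.le hnR.2 hD hMR hT hL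
    (by positivity) hK hε0 hεU hP
  have e1 := mul_le_mul_of_nonneg_left hA1 hε0
  rw [hA0] at hFcost
  show ∑ x, cost (F x) x ≤ 100 * P
  linarith

end Vale.Agent.P047
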